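import Mathlib
import Crest.Prelude.Def_AsymptoticConvexity
import Crest.Prelude.Def_DaugavetL1
import Crest.Prelude.Def_TreeProducts

/-!
Probabilistic core for statement S0169 (path products of independent multipliers on the
countably branching tree): integrability, norms in `L¹`, and the square-root bound for signed
sums of sibling increments.
-/

set_option autoImplicit false
open MeasureTheory ProbabilityTheory
open Crest.AnalysisR Crest.AnalysisR.TreeProduct

namespace Crest.Agent.Lib_helper13

variable {Ω : Type} [MeasurableSpace Ω] {μ : Measure Ω} {ν : Measure ℝ} {W : List ℕ → Ω → ℝ}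

/-- The vertices on the root path of `v` (the root itself excluded). -/
def pathSet : List ℕ → Finset (List ℕ)
  | [] => ∅
  | a :: v => insert (a :: v) (pathSet v)

lemma length_le_of_mem_pathSet :
    ∀ {v t : List ℕ}, t ∈ pathSet v → t.length ≤ v.length ∧ t ≠ []
  | [], t, h => by simp [pathSet] at h
  | a :: v, t, h => by
      simp only [pathSet, Finset.mem_insert] at h
      rcases h with rfl | h
      · simp
      · have := length_le_of_mem_pathSet h
        refine ⟨?_, this.2⟩
        simp only [List.length_cons]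
        omega

lemma cons_notMem_pathSet (a : ℕ) (v : List ℕ) : a :: v ∉ pathSet v := fun h => by
  have := (length_le_of_mem_pathSet h).1
  simp at this

lemma pathProduct_eq_prod (W : List ℕ → Ω → ℝ) :
    ∀ (v : List ℕ) (z : Ω), pathProduct W v z = ∏ i ∈ pathSet v, W i z
  | [], z => by simp [pathProduct, pathSet]
  | a :: v, z => by
      rw [pathSet, Finset.prod_insert (cons_notMem_pathSet a v), ← pathProduct_eq_prod W v z,
        mul_comm]
      rfl

lemma measurable_pathProduct (hWm : ∀ v, Measurable (W v)) (v : List ℕ) :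
    Measurable (pathProduct W v) := by
  have : pathProduct W v = fun z => ∏ i ∈ pathSet v, W i z := funext (pathProduct_eq_prod W v)
  rw [this]
  exact Finset.measurable_prod _ (fun i _ => hWm i)

/-- The path product at `v` is independent of any measurable function of finitely many
multipliers sitting at vertices off the root path of `v`. -/
lemma indepFun_pathProduct (hWm : ∀ v, Measurable (W v)) (hWi : iIndepFun W μ) (v : List ℕ)
    (T : Finset (List ℕ)) (hT : Disjoint (pathSet v) T) {ψ : (T → ℝ) → ℝ} (hψ : Measurable ψ) :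
    IndepFun (pathProduct W v) (fun z => ψ (fun i : T => W i z)) μ := by
  have h := hWi.indepFun_finset (pathSet v) T hT hWm
  have hφ : Measurable (fun x : (pathSet v) → ℝ => ∏ i, x i) :=
    Finset.measurable_prod _ (fun i _ => measurable_pi_apply i)
  have h2 := h.comp hφ hψ
  have e : pathProduct W v =
      (fun x : (pathSet v) → ℝ => ∏ i, x i) ∘ (fun a (i : pathSet v) => W i a) := by
    funext z
    simp only [Function.comp]
    rw [pathProduct_eq_prod, Finset.prod_coe_sort (pathSet v) (fun i => W i z)]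
  rw [e]
  exact h2


/-- The standing hypotheses of statement S0169, bundled. -/
structure Setup (ν : Measure ℝ) (μ : Measure Ω) (W : List ℕ → Ω → ℝ) : Prop where
  probν : IsProbabilityMeasure ν
  probμ : IsProbabilityMeasure μ
  pos : ν (Set.Ioi 0) = 1
  nc : ∀ c : ℝ, ν ≠ Measure.dirac c
  mean : ∫ x, x ∂ν = 1
  m2 : Integrable (fun x : ℝ => x ^ 2) ν
  meas : ∀ v, Measurable (W v)
  indep : iIndepFun W μ
  law : ∀ v, v ≠ [] → Measure.map (W v) μ = ν

namespace Setup

lemma integrable_id (h : Setup ν μ W) : Integrable (fun x : ℝ => x) ν := by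
  by_contra hni
  have := integral_undef hni
  rw [h.mean] at this
  exact one_ne_zero this

lemma integrable_W (h : Setup ν μ W) {v : List ℕ} (hv : v ≠ []) : Integrable (W v) μ := by
  have hid := h.integrable_id
  rw [← h.law v hv] at hid
  exact (integrable_map_measure measurable_id.aestronglyMeasurable (h.meas v).aemeasurable).mp hid

lemma integral_W (h : Setup ν μ W) {v : List ℕ} (hv : v ≠ []) : ∫ z, W v z ∂μ = 1 := by
  have := integral_map (μ := μ) (h.meas v).aemeasurable
    (f := fun x : ℝ => x) measurable_id.aestronglyMeasurable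
  rw [h.law v hv, h.mean] at this
  exact this.symm

lemma memLp_id (h : Setup ν μ W) : MemLp (fun x : ℝ => x) 2 ν :=
  (memLp_two_iff_integrable_sq measurable_id.aestronglyMeasurable).mpr h.m2

lemma memLp_W (h : Setup ν μ W) {v : List ℕ} (hv : v ≠ []) : MemLp (W v) 2 μ := by
  have hid := h.memLp_id
  rw [← h.law v hv] at hid
  exact hid.comp_of_map (h.meas v).aemeasurable

lemma ae_pos_W (h : Setup ν μ W) {v : List ℕ} (hv : v ≠ []) : ∀ᵐ z ∂μ, 0 < W v z := by
  have := h.probμ
  have h1 : μ (W v ⁻¹' Set.Ioi 0) = 1 := by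
    rw [← Measure.map_apply (h.meas v) measurableSet_Ioi, h.law v hv, h.pos]
  have h2 : μ (W v ⁻¹' Set.Ioi 0)ᶜ = 0 :=
    (prob_compl_eq_zero_iff ((h.meas v) measurableSet_Ioi)).mpr h1
  exact mem_ae_iff.mpr h2

lemma indep_P_W (h : Setup ν μ W) (a : ℕ) (v : List ℕ) :
    IndepFun (pathProduct W v) (W (a :: v)) μ := by
  have hd : Disjoint (pathSet v) {a :: v} :=
    Finset.disjoint_singleton_right.mpr (cons_notMem_pathSet a v)
  exact indepFun_pathProduct h.meas h.indep v {a :: v} hd
    (ψ := fun x => x ⟨a :: v, Finset.mem_singleton_self _⟩) (measurable_pi_apply _)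

lemma pathProduct_cons (W : List ℕ → Ω → ℝ) (a : ℕ) (v : List ℕ) :
    pathProduct W (a :: v) = pathProduct W v * W (a :: v) := rfl

lemma integrable_P (h : Setup ν μ W) : ∀ v : List ℕ, Integrable (pathProduct W v) μ
  | [] => by
      have := h.probμ
      exact integrable_const (1 : ℝ)
  | a :: v => by
      rw [pathProduct_cons]
      exact (h.indep_P_W a v).integrable_mul (h.integrable_P v) (h.integrable_W (by simp))

lemma integral_P (h : Setup ν μ W) : ∀ v : List ℕ, ∫ z, pathProduct W v z ∂μ = 1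
  | [] => by
      have := h.probμ
      simp [pathProduct]
  | a :: v => by
      have := (h.indep_P_W a v).integral_mul_eq_mul_integral
        (h.integrable_P v).aestronglyMeasurable (h.integrable_W (v := a :: v) (by simp)).aestronglyMeasurable
      rw [h.integral_P v, h.integral_W (v := a :: v) (by simp), mul_one] at this
      rw [← this]
      rfl

lemma ae_nonneg_P (h : Setup ν μ W) : ∀ v : List ℕ, ∀ᵐ z ∂μ, 0 ≤ pathProduct W v z
  | [] => by
      refine Filter.Eventually.of_forall (fun z => ?_)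
      simp [pathProduct]
  | a :: v => by
      filter_upwards [h.ae_nonneg_P v, h.ae_pos_W (v := a :: v) (by simp)] with z h1 h2
      exact mul_nonneg h1 h2.le


/-- The mean absolute deviation `∫ |x - 1| dν` of the multiplier law. -/
noncomputable def delta (ν : Measure ℝ) : ℝ := ∫ x, |x - 1| ∂ν

/-- The second centred moment `∫ (x - 1)² dν` of the multiplier law. -/
noncomputable def sigma2 (ν : Measure ℝ) : ℝ := ∫ x, (x - 1) ^ 2 ∂ν

lemma sigma2_nonneg (ν : Measure ℝ) : 0 ≤ sigma2 ν :=
  integral_nonneg (fun _ => sq_nonneg _)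

lemma integrable_abs_sub_one (h : Setup ν μ W) : Integrable (fun x : ℝ => |x - 1|) ν := by
  have := h.probν
  exact (h.integrable_id.sub (integrable_const (1 : ℝ))).abs

lemma delta_pos (h : Setup ν μ W) : 0 < delta ν := by
  have := h.probν
  have h0 : 0 ≤ delta ν := integral_nonneg (fun x => abs_nonneg _)
  rcases h0.lt_or_eq with hlt | heq
  · exact hlt
  · exfalso
    have hae : (fun x : ℝ => |x - 1|) =ᵐ[ν] 0 :=
      (integral_eq_zero_iff_of_nonneg (fun x => abs_nonneg _) h.integrable_abs_sub_one).mp heq.symm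
    have hae1 : ∀ᵐ x ∂ν, x = 1 := by
      filter_upwards [hae] with x hx
      have : |x - 1| = 0 := hx
      linarith [abs_eq_zero.mp this]
    have hne : ν {x : ℝ | x ≠ 1} = 0 := by
      have := ae_iff.mp hae1
      simpa using this
    apply h.nc 1
    ext s hs
    by_cases h1 : (1 : ℝ) ∈ s
    · rw [Measure.dirac_apply' _ hs, Set.indicator_of_mem h1, Pi.one_apply]
      have hsub : sᶜ ⊆ {x : ℝ | x ≠ 1} := fun x hx hx1 => hx (hx1 ▸ h1)
      have hc : ν sᶜ = 0 := measure_mono_null hsub hne
      exact (prob_compl_eq_zero_iff hs).mp hc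
    · rw [Measure.dirac_apply' _ hs, Set.indicator_of_notMem h1]
      have hsub : s ⊆ {x : ℝ | x ≠ 1} := fun x hx hx1 => h1 (hx1 ▸ hx)
      exact measure_mono_null hsub hne

lemma integral_abs_W_sub_one (h : Setup ν μ W) {v : List ℕ} (hv : v ≠ []) :
    ∫ z, |W v z - 1| ∂μ = delta ν := by
  have := integral_map (μ := μ) (h.meas v).aemeasurable
    (f := fun x : ℝ => |x - 1|) (by fun_prop)
  rw [h.law v hv] at this
  exact this.symm

lemma variance_W (h : Setup ν μ W) {v : List ℕ} (hv : v ≠ []) :
    variance (W v) μ = sigma2 ν := by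
  rw [variance_eq_integral (h.meas v).aemeasurable, h.integral_W hv]
  have := integral_map (μ := μ) (h.meas v).aemeasurable
    (f := fun x : ℝ => (x - 1) ^ 2) (by fun_prop)
  rw [h.law v hv] at this
  exact this.symm

/-- The square-root bound: for a finite set `T` of non-root vertices off the root path of `v`
and coefficients bounded by one, the weighted centred sum of the multipliers at `T` has
`L¹` norm at most `√(σ² |T|)`. -/
lemma integral_abs_sum_le (h : Setup ν μ W) (T : Finset (List ℕ)) (hT : ∀ t ∈ T, t ≠ [])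
    (c : List ℕ → ℝ) (hc : ∀ t, |c t| ≤ 1) :
    ∫ z, |∑ t ∈ T, c t * (W t z - 1)| ∂μ ≤ Real.sqrt (sigma2 ν * T.card) := by
  have := h.probμ
  set X : List ℕ → Ω → ℝ := fun t z => c t * (W t z - 1) with hX
  have hXmem : ∀ t ∈ T, MemLp (X t) 2 μ := fun t ht =>
    ((h.memLp_W (hT t ht)).sub (memLp_const (1 : ℝ))).const_mul (c t)
  have hXint : ∀ t ∈ T, ∫ z, X t z ∂μ = 0 := by
    intro t ht
    have hi := h.integrable_W (hT t ht)
    have : ∫ z, X t z ∂μ = c t * (∫ z, W t z ∂μ - 1) := by
      simp only [hX]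
      rw [integral_const_mul, integral_sub hi (integrable_const (1 : ℝ))]
      simp
    rw [this, h.integral_W (hT t ht)]
    simp
  have hXvar : ∀ t ∈ T, variance (X t) μ ≤ sigma2 ν := by
    intro t ht
    have e : X t = fun z => c t * (W t z - 1) := rfl
    have e2 : variance (X t) μ = c t ^ 2 * variance (W t) μ := by
      rw [e, variance_const_mul, variance_sub_const (h.meas t).aestronglyMeasurable]
    rw [e2, h.variance_W (hT t ht)]
    have hc2 : c t ^ 2 ≤ 1 := by
      have := hc t
      have h2 : c t ^ 2 = |c t| ^ 2 := (sq_abs _).symm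
      rw [h2]
      exact pow_le_one₀ (abs_nonneg _) this
    calc c t ^ 2 * sigma2 ν ≤ 1 * sigma2 ν := by
          exact mul_le_mul_of_nonneg_right hc2 (sigma2_nonneg ν)
      _ = sigma2 ν := one_mul _
  have hpair : Set.Pairwise (↑T : Set (List ℕ)) fun i j => IndepFun (X i) (X j) μ := by
    intro i _ j _ hij
    have := h.indep.indepFun hij
    exact this.comp (φ := fun x => c i * (x - 1)) (ψ := fun x => c j * (x - 1))
      (by fun_prop) (by fun_prop)
  set Y : Ω → ℝ := ∑ t ∈ T, X t with hY
  have hYmem : MemLp Y 2 μ := memLp_finsetSum' T hXmem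
  have hYvar : variance Y μ ≤ sigma2 ν * T.card := by
    rw [hY, IndepFun.variance_sum hXmem hpair]
    calc ∑ t ∈ T, variance (X t) μ ≤ ∑ _t ∈ T, sigma2 ν := Finset.sum_le_sum hXvar
      _ = sigma2 ν * T.card := by rw [Finset.sum_const, nsmul_eq_mul, mul_comm]
  have hYint : ∫ z, Y z ∂μ = 0 := by
    have : ∀ z, Y z = ∑ t ∈ T, X t z := fun z => by simp [hY]
    simp_rw [this]
    rw [integral_finsetSum T (fun t ht => (hXmem t ht).integrable one_le_two)]
    exact Finset.sum_eq_zero hXint
  have hY2 : ∫ z, Y z ^ 2 ∂μ ≤ sigma2 ν * T.card := by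
    have := variance_eq_sub hYmem
    have e : (μ[Y ^ 2] : ℝ) = ∫ z, Y z ^ 2 ∂μ := rfl
    rw [e, hYint] at this
    linarith
  have habs : MemLp (fun z => |Y z|) 2 μ := hYmem.abs
  have hvarabs := variance_nonneg (fun z => |Y z|) μ
  rw [variance_eq_sub habs] at hvarabs
  have e1 : (μ[(fun z => |Y z|) ^ 2] : ℝ) = ∫ z, Y z ^ 2 ∂μ := by
    refine integral_congr_ae (Filter.Eventually.of_forall fun z => ?_)
    simp [sq_abs]
  rw [e1] at hvarabs
  have hsq : (∫ z, |Y z| ∂μ) ^ 2 ≤ sigma2 ν * T.card := by linarith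
  have hfin : ∫ z, |Y z| ∂μ ≤ Real.sqrt (sigma2 ν * T.card) := Real.le_sqrt_of_sq_le hsq
  have e3 : ∀ z, |∑ t ∈ T, c t * (W t z - 1)| = |Y z| := fun z => by simp [hY, hX]
  simp_rw [e3]
  exact hfin


/-- The `L¹` class of the path product at the vertex `v`. -/
noncomputable def m (h : Setup ν μ W) (v : List ℕ) : Lp ℝ 1 μ :=
  (memLp_one_iff_integrable.mpr (h.integrable_P v)).toLp (pathProduct W v)

lemma coeFn_m (h : Setup ν μ W) (v : List ℕ) : (h.m v : Ω → ℝ) =ᵐ[μ] pathProduct W v :=
  MemLp.coeFn_toLp _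

lemma m_mem (h : Setup ν μ W) (v : List ℕ) : h.m v ∈ productSpan μ W :=
  Submodule.le_topologicalClosure _ (Submodule.subset_span ⟨v, h.coeFn_m v⟩)

omit [MeasurableSpace Ω] in
lemma norm_eq_integral_abs_of_ae_eq {mΩ : MeasurableSpace Ω} {μ : Measure Ω}
    (g : Lp ℝ 1 μ) {G : Ω → ℝ} (hg : (g : Ω → ℝ) =ᵐ[μ] G) :
    ‖g‖ = ∫ z, |G z| ∂μ := by
  rw [L1.norm_eq_integral_norm]
  refine integral_congr_ae ?_
  filter_upwards [hg] with z hz
  rw [hz, Real.norm_eq_abs]

lemma norm_m (h : Setup ν μ W) (v : List ℕ) : ‖h.m v‖ = 1 := by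
  rw [norm_eq_integral_abs_of_ae_eq _ (h.coeFn_m v), ← h.integral_P v]
  refine integral_congr_ae ?_
  filter_upwards [h.ae_nonneg_P v] with z hz
  exact abs_of_nonneg hz

/-- A signed combination of the increments from `v` to finitely many of its children, as a
function: the path product at `v` times a centred combination of the children's multipliers. -/
lemma coeFn_sum_increments (h : Setup ν μ W) (v : List ℕ) (A : Finset ℕ) (s : ℕ → ℝ) :
    ((∑ a ∈ A, s a • (h.m (a :: v) - h.m v) : Lp ℝ 1 μ) : Ω → ℝ) =ᵐ[μ]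
      fun z => pathProduct W v z * ∑ a ∈ A, s a * (W (a :: v) z - 1) := by
  have h1 : ∀ᵐ z ∂μ, ∀ a ∈ A, ((s a • (h.m (a :: v) - h.m v) : Lp ℝ 1 μ) : Ω → ℝ) z =
      pathProduct W v z * (s a * (W (a :: v) z - 1)) := by
    refine (ae_ball_iff (Finset.countable_toSet A)).mpr ?_
    intro a _
    filter_upwards [Lp.coeFn_smul (s a) (h.m (a :: v) - h.m v),
      Lp.coeFn_sub (h.m (a :: v)) (h.m v), h.coeFn_m (a :: v), h.coeFn_m v] with z e1 e2 e3 e4
    rw [e1, Pi.smul_apply, e2, Pi.sub_apply, e3, e4, pathProduct_cons, Pi.mul_apply, smul_eq_mul]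
    ring
  filter_upwards [Lp.coeFn_finsetSum A (fun a => s a • (h.m (a :: v) - h.m v)), h1] with z e1 e2
  rw [e1, Finset.sum_apply, Finset.mul_sum]
  exact Finset.sum_congr rfl e2

lemma norm_sum_increments_le (h : Setup ν μ W) (v : List ℕ) (A : Finset ℕ) (s : ℕ → ℝ)
    (hs : ∀ a, |s a| ≤ 1) :
    ‖∑ a ∈ A, s a • (h.m (a :: v) - h.m v)‖ ≤ Real.sqrt (sigma2 ν * A.card) := by
  have := h.probμ
  rw [norm_eq_integral_abs_of_ae_eq _ (h.coeFn_sum_increments v A s)]
  -- the finite set of children and the coefficient function on vertices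
  set T : Finset (List ℕ) := A.image (fun a => a :: v) with hTdef
  set c : List ℕ → ℝ := fun t => s (t.headD 0) with hcdef
  have hinj : Set.InjOn (fun a : ℕ => a :: v) (↑A : Set ℕ) := fun a _ b _ hab => by
    simpa using hab
  have hsum : ∀ z, ∑ a ∈ A, s a * (W (a :: v) z - 1) = ∑ t ∈ T, c t * (W t z - 1) := by
    intro z
    rw [hTdef, Finset.sum_image hinj]
    rfl
  have hTne : ∀ t ∈ T, t ≠ [] := by
    intro t ht
    rw [hTdef, Finset.mem_image] at ht
    obtain ⟨a, _, rfl⟩ := ht
    simp
  have hTdisj : Disjoint (pathSet v) T := by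
    rw [Finset.disjoint_right]
    intro t ht
    rw [hTdef, Finset.mem_image] at ht
    obtain ⟨a, _, rfl⟩ := ht
    exact cons_notMem_pathSet a v
  have hcard : (T.card : ℝ) ≤ A.card := by
    exact_mod_cast Finset.card_image_le
  -- independence of the path product and the centred sum
  have hψ : Measurable (fun x : T → ℝ => |∑ t : T, c t * (x t - 1)|) := by fun_prop
  have hind := indepFun_pathProduct h.meas h.indep v T hTdisj hψ
  have e1 : ∀ z, |pathProduct W v z * ∑ a ∈ A, s a * (W (a :: v) z - 1)| =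
      |pathProduct W v z| * |∑ t ∈ T, c t * (W t z - 1)| := fun z => by
    rw [hsum z, abs_mul]
  have e2 : ∀ᵐ z ∂μ, |pathProduct W v z| * |∑ t ∈ T, c t * (W t z - 1)| =
      pathProduct W v z * |∑ t : T, c t * (W t z - 1)| := by
    filter_upwards [h.ae_nonneg_P v] with z hz
    rw [abs_of_nonneg hz, Finset.sum_coe_sort T (fun t => c t * (W t z - 1))]
  have e3 : ∫ z, pathProduct W v z * |∑ t : T, c t * (W t z - 1)| ∂μ =
      (∫ z, pathProduct W v z ∂μ) * ∫ z, |∑ t : T, c t * (W t z - 1)| ∂μ := by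
    have hmeasY : Measurable (fun z => |∑ t : T, c t * (W t z - 1)|) := by
      have hW := h.meas
      fun_prop
    exact hind.integral_fun_mul_eq_mul_integral
      (measurable_pathProduct h.meas v).aestronglyMeasurable hmeasY.aestronglyMeasurable
  simp_rw [e1]
  rw [integral_congr_ae e2, e3, h.integral_P v, one_mul]
  have e4 : ∀ z, |∑ t : T, c t * (W t z - 1)| = |∑ t ∈ T, c t * (W t z - 1)| := fun z => by
    rw [Finset.sum_coe_sort T (fun t => c t * (W t z - 1))]
  simp_rw [e4]
  refine (h.integral_abs_sum_le T hTne c (fun t => hs _)).trans ?_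
  exact Real.sqrt_le_sqrt (mul_le_mul_of_nonneg_left hcard (sigma2_nonneg ν))

lemma norm_increment (h : Setup ν μ W) (a : ℕ) (v : List ℕ) :
    ‖h.m (a :: v) - h.m v‖ = delta ν := by
  have := h.probμ
  have hco : ((h.m (a :: v) - h.m v : Lp ℝ 1 μ) : Ω → ℝ) =ᵐ[μ]
      fun z => pathProduct W v z * (W (a :: v) z - 1) := by
    filter_upwards [Lp.coeFn_sub (h.m (a :: v)) (h.m v), h.coeFn_m (a :: v), h.coeFn_m v]
      with z e2 e3 e4
    rw [e2, Pi.sub_apply, e3, e4, pathProduct_cons, Pi.mul_apply]
    ring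
  rw [norm_eq_integral_abs_of_ae_eq _ hco]
  have hd : Disjoint (pathSet v) {a :: v} :=
    Finset.disjoint_singleton_right.mpr (cons_notMem_pathSet a v)
  have hind := indepFun_pathProduct h.meas h.indep v {a :: v} hd
    (ψ := fun x => |x ⟨a :: v, Finset.mem_singleton_self _⟩ - 1|) (by fun_prop)
  have e2 : ∀ᵐ z ∂μ, |pathProduct W v z * (W (a :: v) z - 1)| =
      pathProduct W v z * |W (a :: v) z - 1| := by
    filter_upwards [h.ae_nonneg_P v] with z hz
    rw [abs_mul, abs_of_nonneg hz]
  have e3 : ∫ z, pathProduct W v z * |W (a :: v) z - 1| ∂μ =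
      (∫ z, pathProduct W v z ∂μ) * ∫ z, |W (a :: v) z - 1| ∂μ := by
    have hmeasY : Measurable (fun z => |W (a :: v) z - 1|) := by
      have hW := h.meas (a :: v)
      fun_prop
    exact hind.integral_fun_mul_eq_mul_integral
      (measurable_pathProduct h.meas v).aestronglyMeasurable hmeasY.aestronglyMeasurable
  rw [integral_congr_ae e2, e3, h.integral_P v, one_mul,
    h.integral_abs_W_sub_one (v := a :: v) (by simp)]

/-- Bundling the hypotheses of statement S0169. -/
lemma of_realization (ν : Measure ℝ) [IsProbabilityMeasure ν] (hpos : ν (Set.Ioi 0) = 1)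
    (hnc : ∀ c : ℝ, ν ≠ Measure.dirac c) (hmean : ∫ x, x ∂ν = 1)
    (hm2 : Integrable (fun x : ℝ => x ^ 2) ν)
    (μ : Measure Ω) [IsProbabilityMeasure μ]
    (W : List ℕ → Ω → ℝ) (hW : IsRealization ν μ W) : Setup ν μ W :=
  ⟨inferInstance, inferInstance, hpos, hnc, hmean, hm2, hW.1, hW.2.1, hW.2.2⟩

end Setup

/-- Summary of the probabilistic input for S0169: the classes `m v` of the path products lie in
the product span, have norm one, every parent-to-child increment has the same positive norm `δ`,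
and signed (indeed `[-1,1]`-weighted) sums of the increments from one vertex to finitely many of
its children have norm at most `C * √(number of children)`. -/
theorem tree_summary (ν : Measure ℝ) [IsProbabilityMeasure ν] (hpos : ν (Set.Ioi 0) = 1)
    (hnc : ∀ c : ℝ, ν ≠ Measure.dirac c) (hmean : ∫ x, x ∂ν = 1)
    (hm2 : Integrable (fun x : ℝ => x ^ 2) ν)
    (μ : Measure Ω) [IsProbabilityMeasure μ]
    (W : List ℕ → Ω → ℝ) (hW : IsRealization ν μ W) :
    ∃ (δ C : ℝ) (m : List ℕ → Lp ℝ 1 μ), 0 < δ ∧ 0 ≤ C ∧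
      (∀ v, m v ∈ productSpan μ W) ∧ (∀ v, (m v : Ω → ℝ) =ᵐ[μ] pathProduct W v) ∧
      (∀ v, ‖m v‖ = 1) ∧
      (∀ a v, ‖m (a :: v) - m v‖ = δ) ∧
      ∀ (v : List ℕ) (A : Finset ℕ) (s : ℕ → ℝ), (∀ a, |s a| ≤ 1) →
        ‖∑ a ∈ A, s a • (m (a :: v) - m v)‖ ≤ C * Real.sqrt A.card := by
  have h := Setup.of_realization ν hpos hnc hmean hm2 μ W hW
  refine ⟨Setup.delta ν, Real.sqrt (Setup.sigma2 ν), h.m, h.delta_pos, Real.sqrt_nonneg _,
    h.m_mem, h.coeFn_m, h.norm_m, h.norm_increment, ?_⟩
  intro v A s hs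
  refine (h.norm_sum_increments_le v A s hs).trans (le_of_eq ?_)
  rw [Real.sqrt_mul (Setup.sigma2_nonneg ν)]

end Crest.Agent.Lib_helper13
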