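import Mathlib
import Crest.Prelude.Def_PolyominoGame

/-!
# S0047 (Snaky, Maker–Breaker): certificate format, checker and soundness

* Cells of the window are coded by natural numbers: the code `c` stands for the point
  `dec c = (c % 64 - 32, c / 64 - 32)` of `ℤ × ℤ`.
* Sets of cells are bit masks (natural numbers); `tb s c` tests bit `c`, `sb s c` sets it.
* `Cert` is a strategy tree for Maker:
  - `win t o`        : Maker's stones contain the copy with bounding-box corner `t`, orientation `o`;
  - `mv m next`      : Maker claims the cell `m`; Breaker's reply is awaited; continue with `next`;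
  - `test c yes no`  : if Breaker's latest reply is the cell `c` continue with `yes`, else with `no`.
* `chk T M B Z E fuel` checks the tree `T` in the state: `M` Maker's stones, `B` the *known*
  Breaker stones, `Z` a set of cells known to be free of *unknown* older Breaker stones, `E` the
  cells known to differ from the latest (unresolved) reply, `fuel` the remaining number of claims.
* `cert_sound`: an accepted certificate yields the frozen statement of S0047.
-/

set_option autoImplicit false

namespace Crest.Agent.S0047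
open Crest.CombinatoricsR.PolyominoGame

/-- The point of `ℤ × ℤ` coded by `c`. -/
def dec (c : ℕ) : ℤ × ℤ := (((c % 64 : ℕ) : ℤ) - 32, ((c / 64 : ℕ) : ℤ) - 32)

theorem dec_injective : Function.Injective dec := by
  intro a b h
  simp only [dec, Prod.mk.injEq] at h
  obtain ⟨h1, h2⟩ := h
  have h1' : a % 64 = b % 64 := by omega
  have h2' : a / 64 = b / 64 := by omega
  omega

theorem dec_fst_le (c : ℕ) : (dec c).1 ≤ 31 := by
  simp only [dec]
  omega

theorem dec_add (t dx dy : ℕ) (h : t % 64 + dx < 64) :
    dec (t + (dx + 64 * dy)) = ((dec t).1 + dx, (dec t).2 + dy) := by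
  simp only [dec, Prod.mk.injEq]
  constructor <;> omega

/-- Bit test. -/
def tb (s c : ℕ) : Bool := Nat.testBit s c

/-- Bit set. -/
def sb (s c : ℕ) : ℕ := s ||| 2 ^ c

/-- The mask of the whole `64 × 64` window. -/
def full : ℕ := 2 ^ 4096 - 1

theorem tb_zero (c : ℕ) : tb 0 c = false := by simp [tb]

theorem tb_sb (s c d : ℕ) : tb (sb s c) d = true ↔ tb s d = true ∨ d = c := by
  simp only [tb, sb, Nat.testBit_or, Nat.testBit_two_pow, Bool.or_eq_true, decide_eq_true_eq]
  constructor
  · rintro (h | h)
    · exact Or.inl h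
    · exact Or.inr h.symm
  · rintro (h | h)
    · exact Or.inl h
    · exact Or.inr h.symm

theorem tb_and (s t d : ℕ) : tb (s &&& t) d = true ↔ tb s d = true ∧ tb t d = true := by
  simp [tb, Nat.testBit_and]

/-- The strategy certificates. -/
inductive Cert : Type
  | win (t o : ℕ) : Cert
  | mv (m : ℕ) (next : Cert) : Cert
  | test (c : ℕ) (yes no : Cert) : Cert

/-- Offsets `(dx, dy)` of the six cells of a copy of Snaky from the lower-left corner of its
bounding box, for the eight orientations. -/
def copyXY : ℕ → List (ℕ × ℕ)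
  | 0 => [(0, 0), (1, 0), (2, 0), (3, 0), (3, 1), (4, 1)]
  | 1 => [(4, 0), (3, 0), (2, 0), (1, 0), (1, 1), (0, 1)]
  | 2 => [(0, 1), (1, 1), (2, 1), (3, 1), (3, 0), (4, 0)]
  | 3 => [(4, 1), (3, 1), (2, 1), (1, 1), (1, 0), (0, 0)]
  | 4 => [(0, 0), (0, 1), (0, 2), (0, 3), (1, 3), (1, 4)]
  | 5 => [(1, 0), (1, 1), (1, 2), (1, 3), (0, 3), (0, 4)]
  | 6 => [(0, 4), (0, 3), (0, 2), (0, 1), (1, 1), (1, 0)]
  | 7 => [(1, 4), (1, 3), (1, 2), (1, 1), (0, 1), (0, 0)]
  | _ => []

/-- The win test: orientation valid, no wrap-around, all six cells are Maker's. -/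
def winChk (M t o : ℕ) : Bool :=
  Nat.ble (o + 1) 8 && Nat.ble (t % 64) 59 &&
    (copyXY o).all fun d => tb M (t + (d.1 + 64 * d.2))

/-- The checker. -/
def chk : Cert → ℕ → ℕ → ℕ → ℕ → ℕ → Bool
  | .win t o, M, _, _, _, _ => winChk M t o
  | .mv m next, M, B, Z, E, fuel =>
      Nat.ble 1 fuel && !(tb M m) && !(tb B m) && tb Z m && tb E m &&
        chk next (sb M m) B (Z &&& E) 0 (fuel - 1)
  | .test c yes no, M, B, Z, E, fuel =>
      chk yes M (sb B c) Z full fuel && chk no M B Z (sb E c) fuel

/-- A fresh far-away cell, used for Maker's claims after the copy is complete. -/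
def filler (l : List (ℤ × ℤ)) : ℤ × ℤ :=
  (64 + (l.length : ℤ) + (l.map fun β => |β.1|).sum, 0)

/-- Maker's next claim when the certificate `T` is run on the remaining replies `rs`; `lat` is
the latest reply already consumed and `l` the complete reply list (for the filler). -/
def run : Cert → Option (ℤ × ℤ) → List (ℤ × ℤ) → List (ℤ × ℤ) → ℤ × ℤ
  | .win _ _, _, _, l => filler l
  | .mv m _, _, [], _ => dec m
  | .mv _ next, _, β :: rs, l => run next (some β) rs l
  | .test c yes no, lat, rs, l =>
      if lat = some (dec c) then run yes lat rs l else run no lat rs l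

/-- The policy defined by a certificate. -/
def policy (C : Cert) (l : List (ℤ × ℤ)) : ℤ × ℤ := run C none l l


/-! ### Soundness of the win test -/

theorem win_sound (M t o : ℕ) (X : Set (ℤ × ℤ)) (h : winChk M t o = true)
    (hM : ∀ c, tb M c = true → dec c ∈ X) : ContainsCopy X := by
  simp only [winChk, Bool.and_eq_true, Nat.ble_eq, List.all_eq_true] at h
  obtain ⟨⟨ho, ht⟩, hall⟩ := h
  have hcell : ∀ dx dy : ℕ, (dx, dy) ∈ copyXY o → dx ≤ 4 →
      ((dec t).1 + (dx : ℤ), (dec t).2 + (dy : ℤ)) ∈ X := by
    intro dx dy hd hdx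
    have h1 := hM _ (hall (dx, dy) hd)
    rw [dec_add t dx dy (by omega)] at h1
    exact h1
  have ho' : o < 8 := by omega
  interval_cases o
  · refine ⟨((dec t).1, (dec t).2), 1, 1, Or.inl rfl, Or.inl rfl, Or.inl ?_⟩
    intro p hp
    simp only [snaky, Finset.mem_insert, Finset.mem_singleton] at hp
    rcases hp with rfl | rfl | rfl | rfl | rfl | rfl
    · simpa using hcell 0 0 (by simp [copyXY]) (by norm_num)
    · simpa using hcell 1 0 (by simp [copyXY]) (by norm_num)
    · simpa using hcell 2 0 (by simp [copyXY]) (by norm_num)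
    · simpa using hcell 3 0 (by simp [copyXY]) (by norm_num)
    · simpa using hcell 3 1 (by simp [copyXY]) (by norm_num)
    · simpa using hcell 4 1 (by simp [copyXY]) (by norm_num)
  · refine ⟨((dec t).1 + 4, (dec t).2), -1, 1, Or.inr rfl, Or.inl rfl, Or.inl ?_⟩
    intro p hp
    simp only [snaky, Finset.mem_insert, Finset.mem_singleton] at hp
    rcases hp with rfl | rfl | rfl | rfl | rfl | rfl
    · have := hcell 4 0 (by simp [copyXY]) (by norm_num); convert this using 2 <;> push_cast <;> ring
    · have := hcell 3 0 (by simp [copyXY]) (by norm_num); convert this using 2 <;> push_cast <;> ring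
    · have := hcell 2 0 (by simp [copyXY]) (by norm_num); convert this using 2 <;> push_cast <;> ring
    · have := hcell 1 0 (by simp [copyXY]) (by norm_num); convert this using 2 <;> push_cast <;> ring
    · have := hcell 1 1 (by simp [copyXY]) (by norm_num); convert this using 2 <;> push_cast <;> ring
    · have := hcell 0 1 (by simp [copyXY]) (by norm_num); convert this using 2 <;> push_cast <;> ring
  · refine ⟨((dec t).1, (dec t).2 + 1), 1, -1, Or.inl rfl, Or.inr rfl, Or.inl ?_⟩
    intro p hp
    simp only [snaky, Finset.mem_insert, Finset.mem_singleton] at hp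
    rcases hp with rfl | rfl | rfl | rfl | rfl | rfl
    · have := hcell 0 1 (by simp [copyXY]) (by norm_num); convert this using 2 <;> push_cast <;> ring
    · have := hcell 1 1 (by simp [copyXY]) (by norm_num); convert this using 2 <;> push_cast <;> ring
    · have := hcell 2 1 (by simp [copyXY]) (by norm_num); convert this using 2 <;> push_cast <;> ring
    · have := hcell 3 1 (by simp [copyXY]) (by norm_num); convert this using 2 <;> push_cast <;> ring
    · have := hcell 3 0 (by simp [copyXY]) (by norm_num); convert this using 2 <;> push_cast <;> ring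
    · have := hcell 4 0 (by simp [copyXY]) (by norm_num); convert this using 2 <;> push_cast <;> ring
  · refine ⟨((dec t).1 + 4, (dec t).2 + 1), -1, -1, Or.inr rfl, Or.inr rfl, Or.inl ?_⟩
    intro p hp
    simp only [snaky, Finset.mem_insert, Finset.mem_singleton] at hp
    rcases hp with rfl | rfl | rfl | rfl | rfl | rfl
    · have := hcell 4 1 (by simp [copyXY]) (by norm_num); convert this using 2 <;> push_cast <;> ring
    · have := hcell 3 1 (by simp [copyXY]) (by norm_num); convert this using 2 <;> push_cast <;> ring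
    · have := hcell 2 1 (by simp [copyXY]) (by norm_num); convert this using 2 <;> push_cast <;> ring
    · have := hcell 1 1 (by simp [copyXY]) (by norm_num); convert this using 2 <;> push_cast <;> ring
    · have := hcell 1 0 (by simp [copyXY]) (by norm_num); convert this using 2 <;> push_cast <;> ring
    · have := hcell 0 0 (by simp [copyXY]) (by norm_num); convert this using 2 <;> push_cast <;> ring
  · refine ⟨((dec t).1, (dec t).2), 1, 1, Or.inl rfl, Or.inl rfl, Or.inr ?_⟩
    intro p hp
    simp only [snaky, Finset.mem_insert, Finset.mem_singleton] at hp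
    rcases hp with rfl | rfl | rfl | rfl | rfl | rfl
    · have := hcell 0 0 (by simp [copyXY]) (by norm_num); convert this using 2 <;> push_cast <;> ring
    · have := hcell 0 1 (by simp [copyXY]) (by norm_num); convert this using 2 <;> push_cast <;> ring
    · have := hcell 0 2 (by simp [copyXY]) (by norm_num); convert this using 2 <;> push_cast <;> ring
    · have := hcell 0 3 (by simp [copyXY]) (by norm_num); convert this using 2 <;> push_cast <;> ring
    · have := hcell 1 3 (by simp [copyXY]) (by norm_num); convert this using 2 <;> push_cast <;> ring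
    · have := hcell 1 4 (by simp [copyXY]) (by norm_num); convert this using 2 <;> push_cast <;> ring
  · refine ⟨((dec t).1 + 1, (dec t).2), -1, 1, Or.inr rfl, Or.inl rfl, Or.inr ?_⟩
    intro p hp
    simp only [snaky, Finset.mem_insert, Finset.mem_singleton] at hp
    rcases hp with rfl | rfl | rfl | rfl | rfl | rfl
    · have := hcell 1 0 (by simp [copyXY]) (by norm_num); convert this using 2 <;> push_cast <;> ring
    · have := hcell 1 1 (by simp [copyXY]) (by norm_num); convert this using 2 <;> push_cast <;> ring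
    · have := hcell 1 2 (by simp [copyXY]) (by norm_num); convert this using 2 <;> push_cast <;> ring
    · have := hcell 1 3 (by simp [copyXY]) (by norm_num); convert this using 2 <;> push_cast <;> ring
    · have := hcell 0 3 (by simp [copyXY]) (by norm_num); convert this using 2 <;> push_cast <;> ring
    · have := hcell 0 4 (by simp [copyXY]) (by norm_num); convert this using 2 <;> push_cast <;> ring
  · refine ⟨((dec t).1, (dec t).2 + 4), 1, -1, Or.inl rfl, Or.inr rfl, Or.inr ?_⟩
    intro p hp
    simp only [snaky, Finset.mem_insert, Finset.mem_singleton] at hp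
    rcases hp with rfl | rfl | rfl | rfl | rfl | rfl
    · have := hcell 0 4 (by simp [copyXY]) (by norm_num); convert this using 2 <;> push_cast <;> ring
    · have := hcell 0 3 (by simp [copyXY]) (by norm_num); convert this using 2 <;> push_cast <;> ring
    · have := hcell 0 2 (by simp [copyXY]) (by norm_num); convert this using 2 <;> push_cast <;> ring
    · have := hcell 0 1 (by simp [copyXY]) (by norm_num); convert this using 2 <;> push_cast <;> ring
    · have := hcell 1 1 (by simp [copyXY]) (by norm_num); convert this using 2 <;> push_cast <;> ring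
    · have := hcell 1 0 (by simp [copyXY]) (by norm_num); convert this using 2 <;> push_cast <;> ring
  · refine ⟨((dec t).1 + 1, (dec t).2 + 4), -1, -1, Or.inr rfl, Or.inr rfl, Or.inr ?_⟩
    intro p hp
    simp only [snaky, Finset.mem_insert, Finset.mem_singleton] at hp
    rcases hp with rfl | rfl | rfl | rfl | rfl | rfl
    · have := hcell 1 4 (by simp [copyXY]) (by norm_num); convert this using 2 <;> push_cast <;> ring
    · have := hcell 1 3 (by simp [copyXY]) (by norm_num); convert this using 2 <;> push_cast <;> ring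
    · have := hcell 1 2 (by simp [copyXY]) (by norm_num); convert this using 2 <;> push_cast <;> ring
    · have := hcell 1 1 (by simp [copyXY]) (by norm_num); convert this using 2 <;> push_cast <;> ring
    · have := hcell 0 1 (by simp [copyXY]) (by norm_num); convert this using 2 <;> push_cast <;> ring
    · have := hcell 0 0 (by simp [copyXY]) (by norm_num); convert this using 2 <;> push_cast <;> ring


/-! ### Soundness of the checker -/

theorem filler_sum_nonneg (l : List (ℤ × ℤ)) : 0 ≤ (l.map fun β => |β.1|).sum := by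
  apply List.sum_nonneg
  intro x hx
  simp only [List.mem_map] at hx
  obtain ⟨β, _, rfl⟩ := hx
  exact abs_nonneg _

theorem filler_ge (l : List (ℤ × ℤ)) : 64 ≤ (filler l).1 := by
  have h1 := filler_sum_nonneg l
  have h2 : (0 : ℤ) ≤ l.length := Nat.cast_nonneg _
  simp only [filler]
  linarith

theorem filler_lt_append (l r : List (ℤ × ℤ)) (hr : 0 < r.length) :
    (filler l).1 < (filler (l ++ r)).1 := by
  simp only [filler, List.length_append, List.map_append, List.sum_append, Nat.cast_add]
  have h1 := filler_sum_nonneg r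
  have h2 : 0 < (r.length : ℤ) := by exact_mod_cast hr
  linarith

theorem lt_filler_of_mem (l : List (ℤ × ℤ)) (β : ℤ × ℤ) (h : β ∈ l) : β.1 < (filler l).1 := by
  have h1 : |β.1| ≤ (l.map fun β => |β.1|).sum := by
    apply List.single_le_sum
    · intro x hx
      simp only [List.mem_map] at hx
      obtain ⟨γ, _, rfl⟩ := hx
      exact abs_nonneg _
    · exact List.mem_map.mpr ⟨β, h, rfl⟩
  have h2 := le_abs_self β.1
  have h3 : (0 : ℤ) ≤ l.length := Nat.cast_nonneg _
  simp only [filler]
  linarith

/-- The first `k` replies. -/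
def pre (b : ℕ → ℤ × ℤ) (k : ℕ) : List (ℤ × ℤ) := (List.range k).map b

theorem pre_succ (b : ℕ → ℤ × ℤ) (k : ℕ) : pre b (k + 1) = pre b k ++ [b k] := by
  simp [pre, List.range_succ]

theorem pre_add (b : ℕ → ℤ × ℤ) (k d : ℕ) : ∃ r, pre b (k + d) = pre b k ++ r ∧ r.length = d := by
  refine ⟨((List.range d).map (k + ·)).map b, ?_, by simp⟩
  simp [pre, List.range_add]

theorem mem_pre (b : ℕ → ℤ × ℤ) (i j : ℕ) (h : i < j) : b i ∈ pre b j := by
  simp only [pre, List.mem_map, List.mem_range]
  exact ⟨i, h, rfl⟩

theorem claim_eq (C : Cert) (b : ℕ → ℤ × ℤ) (j : ℕ) :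
    makerClaim (policy C) b j = run C none (pre b j) (pre b j) := rfl

theorem run_win (t o : ℕ) (lat : Option (ℤ × ℤ)) (rs l : List (ℤ × ℤ)) :
    run (.win t o) lat rs l = filler l := by
  cases rs <;> rfl

theorem run_mv_nil (m : ℕ) (next : Cert) (lat : Option (ℤ × ℤ)) (l : List (ℤ × ℤ)) :
    run (.mv m next) lat [] l = dec m := rfl

theorem run_mv_cons (m : ℕ) (next : Cert) (lat : Option (ℤ × ℤ)) (β : ℤ × ℤ)
    (rs l : List (ℤ × ℤ)) :
    run (.mv m next) lat (β :: rs) l = run next (some β) rs l := rfl

theorem run_test (c : ℕ) (yes no : Cert) (lat : Option (ℤ × ℤ)) (rs l : List (ℤ × ℤ)) :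
    run (.test c yes no) lat rs l =
      if lat = some (dec c) then run yes lat rs l else run no lat rs l := by
  cases rs <;> rfl

theorem main (C : Cert) (b : ℕ → ℤ × ℤ) (T : Cert) :
    ∀ (M B Z E fuel k : ℕ) (lat : Option (ℤ × ℤ)),
      chk T M B Z E fuel = true → fuel + k = 21 →
      lat = (if k = 0 then none else some (b (k - 1))) →
      (∀ rs l, run C none (pre b k ++ rs) l = run T lat rs l) →
      (∀ c, tb M c = true → ∃ j, j < k ∧ makerClaim (policy C) b j = dec c) →
      (∀ j, j < k → ∃ c, tb M c = true ∧ makerClaim (policy C) b j = dec c) →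
      (∀ j, j < k → (∃ c, tb B c = true ∧ b j = dec c) ∨ (∀ c, tb Z c = true → b j ≠ dec c) ∨
          (j + 1 = k ∧ ∀ c, tb E c = true → b j ≠ dec c)) →
      (∀ j, k ≤ j → j ≤ 20 →
          (∀ i, i < j → makerClaim (policy C) b j ≠ makerClaim (policy C) b i) ∧
          (∀ i, i < j → makerClaim (policy C) b j ≠ b i)) ∧
        ContainsCopy {c | ∃ j : ℕ, j ≤ 20 ∧ c = makerClaim (policy C) b j} := by
  induction T with
  | win t o =>
    intro M B Z E fuel k lat hchk hfuel hlat hpath hM hcl hrep
    have hclaim : ∀ j, k ≤ j → makerClaim (policy C) b j = filler (pre b j) := by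
      intro j hj
      obtain ⟨r, hr, _⟩ := pre_add b k (j - k)
      have hkj : k + (j - k) = j := by omega
      rw [hkj] at hr
      have h1 := hpath r (pre b j)
      rw [← hr, run_win] at h1
      rw [claim_eq]
      exact h1
    refine ⟨?_, ?_⟩
    · intro j hkj hj
      refine ⟨?_, ?_⟩
      · intro i hi heq
        rw [hclaim j hkj] at heq
        by_cases hik : i < k
        · obtain ⟨c, _, hc⟩ := hcl i hik
          rw [hc] at heq
          have h1 := filler_ge (pre b j)
          have h2 := dec_fst_le c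
          rw [heq] at h1
          omega
        · rw [hclaim i (by omega)] at heq
          obtain ⟨r, hr, hlen⟩ := pre_add b i (j - i)
          have hij : i + (j - i) = j := by omega
          rw [hij] at hr
          have h1 := filler_lt_append (pre b i) r (by omega)
          rw [← hr, heq] at h1
          exact lt_irrefl _ h1
      · intro i hi heq
        rw [hclaim j hkj] at heq
        have h1 := lt_filler_of_mem (pre b j) (b i) (mem_pre b i j hi)
        rw [heq] at h1
        exact lt_irrefl _ h1
    · apply win_sound M t o _ hchk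
      intro c hc
      obtain ⟨j, hj, hjc⟩ := hM c hc
      exact ⟨j, by omega, hjc.symm⟩
  | mv m next ih =>
    intro M B Z E fuel k lat hchk hfuel hlat hpath hM hcl hrep
    simp only [chk, Bool.and_eq_true, Nat.ble_eq, Bool.not_eq_true'] at hchk
    obtain ⟨⟨⟨⟨⟨hf, hMm⟩, hBm⟩, hZm⟩, hEm⟩, hnext⟩ := hchk
    have hk : makerClaim (policy C) b k = dec m := by
      rw [claim_eq]
      have h1 := hpath [] (pre b k)
      rw [List.append_nil, run_mv_nil] at h1
      exact h1
    have hlegal : (∀ i, i < k → makerClaim (policy C) b k ≠ makerClaim (policy C) b i) ∧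
        (∀ i, i < k → makerClaim (policy C) b k ≠ b i) := by
      refine ⟨?_, ?_⟩
      · intro i hi heq
        obtain ⟨c, hc, hic⟩ := hcl i hi
        rw [hk, hic] at heq
        have := dec_injective heq
        subst this
        rw [hc] at hMm
        exact Bool.noConfusion hMm
      · intro i hi heq
        rw [hk] at heq
        rcases hrep i hi with ⟨c, hc, hic⟩ | h | ⟨_, h⟩
        · rw [hic] at heq
          have := dec_injective heq
          subst this
          rw [hc] at hBm
          exact Bool.noConfusion hBm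
        · exact h m hZm heq.symm
        · exact h m hEm heq.symm
    have hrec := ih (sb M m) B (Z &&& E) 0 (fuel - 1) (k + 1) (some (b k)) hnext (by omega)
      (by simp) ?_ ?_ ?_ ?_
    · refine ⟨?_, hrec.2⟩
      intro j hkj hj
      rcases Nat.eq_or_lt_of_le hkj with rfl | hlt
      · exact hlegal
      · exact hrec.1 j hlt hj
    · intro rs l
      rw [pre_succ, List.append_assoc, List.singleton_append, hpath, run_mv_cons]
    · intro c hc
      rcases (tb_sb M m c).mp hc with h | rfl
      · obtain ⟨j, hj, hjc⟩ := hM c h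
        exact ⟨j, by omega, hjc⟩
      · exact ⟨k, by omega, hk⟩
    · intro j hj
      rcases Nat.eq_or_lt_of_le (Nat.le_of_lt_succ hj) with rfl | hlt
      · exact ⟨m, (tb_sb M m m).mpr (Or.inr rfl), hk⟩
      · obtain ⟨c, hc, hjc⟩ := hcl j hlt
        exact ⟨c, (tb_sb M m c).mpr (Or.inl hc), hjc⟩
    · intro j hj
      rcases Nat.eq_or_lt_of_le (Nat.le_of_lt_succ hj) with rfl | hlt
      · exact Or.inr (Or.inr ⟨rfl, fun c hc => by rw [tb_zero] at hc; exact Bool.noConfusion hc⟩)
      · rcases hrep j hlt with h | h | ⟨_, h⟩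
        · exact Or.inl h
        · exact Or.inr (Or.inl fun c hc => h c ((tb_and Z E c).mp hc).1)
        · exact Or.inr (Or.inl fun c hc => h c ((tb_and Z E c).mp hc).2)
  | test c yes no ihy ihn =>
    intro M B Z E fuel k lat hchk hfuel hlat hpath hM hcl hrep
    simp only [chk, Bool.and_eq_true] at hchk
    obtain ⟨hyes, hno⟩ := hchk
    by_cases hl : lat = some (dec c)
    · refine ihy M (sb B c) Z full fuel k lat hyes hfuel hlat ?_ hM hcl ?_
      · intro rs l
        rw [hpath, run_test, if_pos hl]
      · intro j hj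
        rcases hrep j hj with ⟨c', hc', hjc⟩ | h | ⟨hjk, h⟩
        · exact Or.inl ⟨c', (tb_sb B c c').mpr (Or.inl hc'), hjc⟩
        · exact Or.inr (Or.inl h)
        · refine Or.inl ⟨c, (tb_sb B c c).mpr (Or.inr rfl), ?_⟩
          have hk0 : k ≠ 0 := by omega
          rw [hlat, if_neg hk0] at hl
          have : k - 1 = j := by omega
          rw [this] at hl
          exact Option.some.inj hl
    · refine ihn M B Z (sb E c) fuel k lat hno hfuel hlat ?_ hM hcl ?_
      · intro rs l
        rw [hpath, run_test, if_neg hl]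
      · intro j hj
        rcases hrep j hj with h | h | ⟨hjk, h⟩
        · exact Or.inl h
        · exact Or.inr (Or.inl h)
        · refine Or.inr (Or.inr ⟨hjk, ?_⟩)
          intro c' hc'
          rcases (tb_sb E c c').mp hc' with h' | rfl
          · exact h c' h'
          · intro heq
            apply hl
            have hk0 : k ≠ 0 := by omega
            rw [hlat, if_neg hk0]
            have : k - 1 = j := by omega
            rw [this, heq]

/-- An accepted certificate proves the frozen statement of S0047. -/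
theorem cert_sound (C : Cert) (h : chk C 0 0 full full 21 = true) :
    ∃ σ : List (ℤ × ℤ) → ℤ × ℤ, ∀ b : ℕ → ℤ × ℤ,
      (∀ k : ℕ, k < 20 →
        (∀ j : ℕ, j ≤ k → b k ≠ Crest.CombinatoricsR.PolyominoGame.makerClaim σ b j) ∧
        (∀ j : ℕ, j < k → b k ≠ b j)) →
      (∀ k : ℕ, k ≤ 20 →
        (∀ j : ℕ, j < k → Crest.CombinatoricsR.PolyominoGame.makerClaim σ b k ≠
          Crest.CombinatoricsR.PolyominoGame.makerClaim σ b j) ∧
        (∀ j : ℕ, j < k → Crest.CombinatoricsR.PolyominoGame.makerClaim σ b k ≠ b j)) ∧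
      Crest.CombinatoricsR.PolyominoGame.ContainsCopy
        {c | ∃ j : ℕ, j ≤ 20 ∧ c = Crest.CombinatoricsR.PolyominoGame.makerClaim σ b j} := by
  refine ⟨policy C, fun b _ => ?_⟩
  have hmain := main C b C 0 0 full full 21 0 none h rfl rfl (fun rs l => rfl)
    (fun c hc => by rw [tb_zero] at hc; exact Bool.noConfusion hc)
    (fun j hj => absurd hj (Nat.not_lt_zero j))
    (fun j hj => absurd hj (Nat.not_lt_zero j))
  exact ⟨fun k hk => hmain.1 k (Nat.zero_le k) hk, hmain.2⟩

/-! ### Winning states -/

/-- A checker state `(M, B, Z, E, fuel)` is winning if some certificate is accepted there. -/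
def Wins (M B Z E fuel : ℕ) : Prop := ∃ T : Cert, chk T M B Z E fuel = true

theorem Wins.win {M B Z E fuel t o : ℕ} (h : winChk M t o = true) : Wins M B Z E fuel :=
  ⟨.win t o, h⟩

theorem Wins.mv {M B Z E fuel m : ℕ} (hf : 1 ≤ fuel) (hM : tb M m = false) (hB : tb B m = false)
    (hZ : tb Z m = true) (hE : tb E m = true) (h : Wins (sb M m) B (Z &&& E) 0 (fuel - 1)) :
    Wins M B Z E fuel := by
  obtain ⟨T, hT⟩ := h
  refine ⟨.mv m T, ?_⟩
  simp only [chk, Bool.and_eq_true, Nat.ble_eq, Bool.not_eq_true']
  exact ⟨⟨⟨⟨⟨hf, hM⟩, hB⟩, hZ⟩, hE⟩, hT⟩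

theorem Wins.test {M B Z E fuel c : ℕ} (hy : Wins M (sb B c) Z full fuel)
    (hn : Wins M B Z (sb E c) fuel) : Wins M B Z E fuel := by
  obtain ⟨Ty, hTy⟩ := hy
  obtain ⟨Tn, hTn⟩ := hn
  refine ⟨.test c Ty Tn, ?_⟩
  simp only [chk, Bool.and_eq_true]
  exact ⟨hTy, hTn⟩

/-- A winning initial state proves the frozen statement of S0047. -/
theorem result_of_wins (h : Wins 0 0 full full 21) :
    ∃ σ : List (ℤ × ℤ) → ℤ × ℤ, ∀ b : ℕ → ℤ × ℤ,
      (∀ k : ℕ, k < 20 →
        (∀ j : ℕ, j ≤ k → b k ≠ Crest.CombinatoricsR.PolyominoGame.makerClaim σ b j) ∧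
        (∀ j : ℕ, j < k → b k ≠ b j)) →
      (∀ k : ℕ, k ≤ 20 →
        (∀ j : ℕ, j < k → Crest.CombinatoricsR.PolyominoGame.makerClaim σ b k ≠
          Crest.CombinatoricsR.PolyominoGame.makerClaim σ b j) ∧
        (∀ j : ℕ, j < k → Crest.CombinatoricsR.PolyominoGame.makerClaim σ b k ≠ b j)) ∧
      Crest.CombinatoricsR.PolyominoGame.ContainsCopy
        {c | ∃ j : ℕ, j ≤ 20 ∧ c = Crest.CombinatoricsR.PolyominoGame.makerClaim σ b j} := by
  obtain ⟨C, hC⟩ := h
  exact cert_sound C hC

theorem tb_or (s t d : ℕ) : tb (s ||| t) d = true ↔ tb s d = true ∨ tb t d = true := by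
  simp [tb, Nat.testBit_or]

theorem tb_full {c : ℕ} (h : c < 4096) : tb full c = true := by
  simp only [tb, full, Nat.testBit_two_pow_sub_one, decide_eq_true_eq]
  exact h

theorem tb_foldl_sb (L : List ℕ) :
    ∀ E x : ℕ, tb (L.foldl sb E) x = true ↔ tb E x = true ∨ x ∈ L := by
  induction L with
  | nil => intro E x; simp
  | cons c L ih =>
    intro E x
    rw [List.foldl_cons, ih, tb_sb, List.mem_cons]
    tauto

/-- A chain of tests: if every tested reply is answered and the remaining case (the reply is
none of the tested cells) is won, the state is won. -/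
theorem Wins.chain {M B Z fuel : ℕ} (L : List ℕ) :
    ∀ E : ℕ, Wins M B Z (L.foldl sb E) fuel → (∀ c ∈ L, Wins M (sb B c) Z full fuel) →
      Wins M B Z E fuel := by
  induction L with
  | nil => intro E h _; exact h
  | cons c L ih =>
    intro E h hy
    exact Wins.test (hy c List.mem_cons_self)
      (ih (sb E c) h (fun c' hc' => hy c' (List.mem_cons_of_mem _ hc')))

/-! ### Context-free summaries (footprint certificates)

`FWin R F h`: from every state in which Maker owns the cells of `R`, no cell of `F` is claimed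
by anybody (known or unknown), and at least `h` claims are left, Maker wins (claiming only cells
of `F`). -/

/-- The summary `(R, F, h)` is sound. -/
def FWin (R F h : ℕ) : Prop :=
  (∀ c, tb F c = true → c < 4096) ∧
  ∀ M B Z E fuel : ℕ, (∀ c, tb R c = true → tb M c = true) →
    (∀ c, tb F c = true → tb M c = false ∧ tb B c = false ∧ tb Z c = true ∧ tb E c = true) →
    h ≤ fuel → Wins M B Z E fuel

theorem FWin.mono {R F h R' F' h' : ℕ} (hw : FWin R F h)
    (hR : ∀ c, tb R c = true → tb R' c = true) (hF : ∀ c, tb F c = true → tb F' c = true)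
    (hF' : ∀ c, tb F' c = true → c < 4096) (hh : h ≤ h') : FWin R' F' h' :=
  ⟨hF', fun M B Z E fuel h1 h2 h3 => hw.2 M B Z E fuel (fun c hc => h1 c (hR c hc))
    (fun c hc => h2 c (hF c hc)) (le_trans hh h3)⟩

/-- Leaf: Maker claims `m` and then owns the copy `(t, o)`; `R` contains the other cells of
the copy. -/
theorem FWin.win {t o m R : ℕ} (ho : o < 8) (ht : t % 64 ≤ 59) (hm : m < 4096)
    (hR : ∀ d ∈ copyXY o, t + (d.1 + 64 * d.2) = m ∨ tb R (t + (d.1 + 64 * d.2)) = true) :
    FWin R (sb 0 m) 1 := by
  refine ⟨?_, ?_⟩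
  · intro c hc
    rcases (tb_sb 0 m c).mp hc with h | rfl
    · rw [tb_zero] at h; exact Bool.noConfusion h
    · exact hm
  · intro M B Z E fuel h1 h2 h3
    obtain ⟨hM, hB, hZ, hE⟩ := h2 m ((tb_sb 0 m m).mpr (Or.inr rfl))
    refine Wins.mv h3 hM hB hZ hE (Wins.win (t := t) (o := o) ?_)
    simp only [winChk, Bool.and_eq_true, Nat.ble_eq, List.all_eq_true]
    refine ⟨⟨by omega, ht⟩, ?_⟩
    intro d hd
    rcases hR d hd with h | h
    · rw [h]; exact (tb_sb M m m).mpr (Or.inr rfl)
    · exact (tb_sb M m _).mpr (Or.inl (h1 _ h))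

/-- A nonempty family of sound kid summaries for a node at which Maker claims `m`: no kid uses
`m`; `RU`, `FU`, `hmax` bound the kids' summaries, `FU ⊆ [0, 4096)`, and every cell outside `FI`
is avoided by the footprint of some kid. -/
def Fam (m RU FU FI hmax : ℕ) : Prop :=
  (∀ c, tb FU c = true → c < 4096) ∧
  ∃ kids : List (ℕ × ℕ × ℕ), kids ≠ [] ∧
    (∀ k ∈ kids, FWin k.1 k.2.1 k.2.2 ∧ tb k.2.1 m = false ∧
      (∀ c, tb k.1 c = true → tb RU c = true) ∧ (∀ c, tb k.2.1 c = true → tb FU c = true) ∧
      k.2.2 ≤ hmax) ∧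
    (∀ c, tb FI c = true ∨ ∃ k ∈ kids, tb k.2.1 c = false)

theorem Fam.single {m R F h : ℕ} (hw : FWin R F h) (hm : tb F m = false) : Fam m R F F h := by
  refine ⟨hw.1, [(R, F, h)], by simp, ?_, ?_⟩
  · intro k hk
    rw [List.mem_singleton] at hk
    subst hk
    exact ⟨hw, hm, fun c hc => hc, fun c hc => hc, le_refl _⟩
  · intro c
    cases hc : tb F c with
    | true => exact Or.inl rfl
    | false => exact Or.inr ⟨(R, F, h), by simp, hc⟩

theorem Fam.add {m RU FU FI hmax R F h : ℕ} (hf : Fam m RU FU FI hmax) (hw : FWin R F h)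
    (hm : tb F m = false) : Fam m (RU ||| R) (FU ||| F) (FI &&& F) (max hmax h) := by
  obtain ⟨hb, kids, _, hk, hcap⟩ := hf
  refine ⟨?_, (R, F, h) :: kids, by simp, ?_, ?_⟩
  · intro c hc
    rcases (tb_or FU F c).mp hc with h | h
    · exact hb c h
    · exact hw.1 c h
  · intro k hk'
    rcases List.mem_cons.mp hk' with rfl | hk'
    · exact ⟨hw, hm, fun c hc => (tb_or RU _ c).mpr (Or.inr hc),
        fun c hc => (tb_or FU _ c).mpr (Or.inr hc), le_max_right _ _⟩
    · obtain ⟨h1, h2, h3, h4, h5⟩ := hk k hk'
      exact ⟨h1, h2, fun c hc => (tb_or RU R c).mpr (Or.inl (h3 c hc)),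
        fun c hc => (tb_or FU F c).mpr (Or.inl (h4 c hc)), le_trans h5 (le_max_left _ _)⟩
  · intro c
    rcases hcap c with h1 | ⟨k, hk', hkc⟩
    · cases hc : tb F c with
      | true => exact Or.inl ((tb_and FI F c).mpr ⟨h1, hc⟩)
      | false => exact Or.inr ⟨(R, F, h), List.mem_cons_self, hc⟩
    · exact Or.inr ⟨k, List.mem_cons_of_mem _ hk', hkc⟩

theorem Fam.mono {m RU FU FI hmax RU' FU' FI' hmax' : ℕ} (hf : Fam m RU FU FI hmax)
    (hR : ∀ c, tb RU c = true → tb RU' c = true) (hF : ∀ c, tb FU c = true → tb FU' c = true)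
    (hF' : ∀ c, tb FU' c = true → c < 4096) (hI : ∀ c, tb FI c = true → tb FI' c = true)
    (hh : hmax ≤ hmax') : Fam m RU' FU' FI' hmax' := by
  obtain ⟨_, kids, hne, hk, hcap⟩ := hf
  refine ⟨hF', kids, hne, ?_, ?_⟩
  · intro k hk'
    obtain ⟨h1, h2, h3, h4, h5⟩ := hk k hk'
    exact ⟨h1, h2, fun c hc => hR c (h3 c hc), fun c hc => hF c (h4 c hc), le_trans h5 hh⟩
  · intro c
    rcases hcap c with h | h
    · exact Or.inl (hI c h)
    · exact Or.inr h

/-- Node: Maker claims `m`; whatever Breaker replies, some kid's footprint avoids the reply. -/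
theorem FWin.node {m RU FU FI hmax R : ℕ} (hf : Fam m RU FU FI hmax) (hFI : FI = 0)
    (hm : m < 4096) (hR : ∀ c, tb RU c = true → tb R c = true ∨ c = m) :
    FWin R (sb FU m) (hmax + 1) := by
  obtain ⟨hb, kids, hne, hk, hcap⟩ := hf
  subst hFI
  refine ⟨?_, ?_⟩
  · intro c hc
    rcases (tb_sb FU m c).mp hc with h | rfl
    · exact hb c h
    · exact hm
  · intro M B Z E fuel h1 h2 h3
    obtain ⟨hM, hB, hZ, hE⟩ := h2 m ((tb_sb FU m m).mpr (Or.inr rfl))
    refine Wins.mv (by omega) hM hB hZ hE ?_
    have kid : ∀ k ∈ kids, ∀ B' E' : ℕ,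
        (∀ c, tb k.2.1 c = true → tb B' c = false ∧ tb E' c = true) →
        Wins (sb M m) B' (Z &&& E) E' (fuel - 1) := by
      intro k hk' B' E' hBE
      obtain ⟨hw, hkm, hkR, hkF, hkh⟩ := hk k hk'
      refine hw.2 (sb M m) B' (Z &&& E) E' (fuel - 1) ?_ ?_ (by omega)
      · intro c hc
        rcases hR c (hkR c hc) with h | h
        · exact (tb_sb M m c).mpr (Or.inl (h1 c h))
        · exact (tb_sb M m c).mpr (Or.inr h)
      · intro c hc
        obtain ⟨hcM, _, hcZ, hcE⟩ := h2 c ((tb_sb FU m c).mpr (Or.inl (hkF c hc)))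
        refine ⟨?_, (hBE c hc).1, (tb_and Z E c).mpr ⟨hcZ, hcE⟩, (hBE c hc).2⟩
        cases hsb : tb (sb M m) c with
        | false => rfl
        | true =>
          rcases (tb_sb M m c).mp hsb with h | rfl
          · rw [hcM] at h; exact Bool.noConfusion h
          · rw [hkm] at hc; exact Bool.noConfusion hc
    apply Wins.chain (List.range 4096) 0
    · obtain ⟨k0, hk0⟩ := List.exists_mem_of_ne_nil kids hne
      apply kid k0 hk0
      intro c hc
      obtain ⟨hw, _, _, hkF, _⟩ := hk k0 hk0
      obtain ⟨_, hcB, _, _⟩ := h2 c ((tb_sb FU m c).mpr (Or.inl (hkF c hc)))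
      exact ⟨hcB, (tb_foldl_sb _ 0 c).mpr (Or.inr (List.mem_range.mpr (hw.1 c hc)))⟩
    · intro c _
      rcases hcap c with h | ⟨k, hk', hkc⟩
      · rw [tb_zero] at h; exact Bool.noConfusion h
      · apply kid k hk'
        intro x hx
        obtain ⟨hw, _, _, hkF, _⟩ := hk k hk'
        obtain ⟨_, hxB, _, _⟩ := h2 x ((tb_sb FU m x).mpr (Or.inl (hkF x hx)))
        refine ⟨?_, tb_full (hw.1 x hx)⟩
        cases hsb : tb (sb B c) x with
        | false => rfl
        | true =>
          rcases (tb_sb B c x).mp hsb with h | rfl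
          · rw [hxB] at h; exact Bool.noConfusion h
          · rw [hkc] at hx; exact Bool.noConfusion hx

/-! #### Families indexed by a mask (used by the machine of `S0047_Mach`) -/

/-- A family of sound kid summaries for a node whose own move occupies the mask `bp`
(`bp = 2^m` for a node at which Maker claims `m`): no kid's footprint meets `bp`; `RU`, `FU`,
`hmax` bound the kids' summaries, `FU ⊆ [0, 4096)`, and every cell `< 4096` outside `FI` is
avoided by the footprint of some kid. -/
def FamB (bp RU FU FI hmax : ℕ) : Prop :=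
  (∀ c, tb FU c = true → c < 4096) ∧
  ∃ kids : List (ℕ × ℕ × ℕ),
    (∀ k ∈ kids, FWin k.1 k.2.1 k.2.2 ∧ (∀ c, tb k.2.1 c = true → tb bp c = false) ∧
      (∀ c, tb k.1 c = true → tb RU c = true) ∧ (∀ c, tb k.2.1 c = true → tb FU c = true) ∧
      k.2.2 ≤ hmax) ∧
    (∀ c, c < 4096 → tb FI c = true ∨ ∃ k ∈ kids, tb k.2.1 c = false)

/-- The empty family. -/
theorem FamB.nil (bp : ℕ) : FamB bp 0 0 full 0 :=
  ⟨fun c hc => by rw [tb_zero] at hc; exact Bool.noConfusion hc, [],
    fun k hk => by simp at hk, fun _ hc => Or.inl (tb_full hc)⟩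

/-- Adding a kid to a family. -/
theorem FamB.add {bp RU FU FI hmax R F h : ℕ} (hf : FamB bp RU FU FI hmax) (hw : FWin R F h)
    (hm : ∀ c, tb F c = true → tb bp c = false) :
    FamB bp (RU ||| R) (FU ||| F) (FI &&& F) (max hmax h) := by
  obtain ⟨hb, kids, hk, hcap⟩ := hf
  refine ⟨?_, (R, F, h) :: kids, ?_, ?_⟩
  · intro c hc
    rcases (tb_or FU F c).mp hc with h | h
    · exact hb c h
    · exact hw.1 c h
  · intro k hk'
    rcases List.mem_cons.mp hk' with rfl | hk'
    · exact ⟨hw, hm, fun c hc => (tb_or RU _ c).mpr (Or.inr hc),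
        fun c hc => (tb_or FU _ c).mpr (Or.inr hc), le_max_right _ _⟩
    · obtain ⟨h1, h2, h3, h4, h5⟩ := hk k hk'
      exact ⟨h1, h2, fun c hc => (tb_or RU R c).mpr (Or.inl (h3 c hc)),
        fun c hc => (tb_or FU F c).mpr (Or.inl (h4 c hc)), le_trans h5 (le_max_left _ _)⟩
  · intro c hc4
    rcases hcap c hc4 with h1 | ⟨k, hk', hkc⟩
    · cases hc : tb F c with
      | true => exact Or.inl ((tb_and FI F c).mpr ⟨h1, hc⟩)
      | false => exact Or.inr ⟨(R, F, h), List.mem_cons_self, hc⟩
    · exact Or.inr ⟨k, List.mem_cons_of_mem _ hk', hkc⟩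

theorem FamB.mono {bp RU FU FI hmax RU' FU' FI' hmax' : ℕ} (hf : FamB bp RU FU FI hmax)
    (hR : ∀ c, tb RU c = true → tb RU' c = true) (hF : ∀ c, tb FU c = true → tb FU' c = true)
    (hF' : ∀ c, tb FU' c = true → c < 4096) (hI : ∀ c, tb FI c = true → tb FI' c = true)
    (hh : hmax ≤ hmax') : FamB bp RU' FU' FI' hmax' := by
  obtain ⟨_, kids, hk, hcap⟩ := hf
  refine ⟨hF', kids, ?_, ?_⟩
  · intro k hk'
    obtain ⟨h1, h2, h3, h4, h5⟩ := hk k hk'
    exact ⟨h1, h2, fun c hc => hR c (h3 c hc), fun c hc => hF c (h4 c hc), le_trans h5 hh⟩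
  · intro c hc4
    rcases hcap c hc4 with h | h
    · exact Or.inl (hI c h)
    · exact Or.inr h

/-- A family with a kid (witnessed by the cell `4095` outside `FI`) gives a sound summary:
the bounds of the family. -/
theorem FWin.ofFamB {bp RU FU FI hmax : ℕ} (hf : FamB bp RU FU FI hmax)
    (hFI : tb FI 4095 = false) : FWin RU FU hmax := by
  obtain ⟨hb, kids, hk, hcap⟩ := hf
  rcases hcap 4095 (by norm_num) with h | ⟨k, hk', _⟩
  · rw [hFI] at h; exact Bool.noConfusion h
  · obtain ⟨h1, _, h3, h4, h5⟩ := hk k hk'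
    exact h1.mono h3 h4 hb h5

/-- Node: Maker claims `m`; whatever Breaker replies, some kid's footprint avoids the reply. -/
theorem FWin.nodeB {m RU FU FI hmax R : ℕ} (hf : FamB (sb 0 m) RU FU FI hmax) (hFI : FI = 0)
    (hm : m < 4096) (hR : ∀ c, tb RU c = true → tb R c = true ∨ c = m) :
    FWin R (sb FU m) (hmax + 1) := by
  obtain ⟨hb, kids, hk, hcap⟩ := hf
  subst hFI
  refine ⟨?_, ?_⟩
  · intro c hc
    rcases (tb_sb FU m c).mp hc with h | rfl
    · exact hb c h
    · exact hm
  · intro M B Z E fuel h1 h2 h3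
    obtain ⟨hM, hB, hZ, hE⟩ := h2 m ((tb_sb FU m m).mpr (Or.inr rfl))
    refine Wins.mv (by omega) hM hB hZ hE ?_
    have kid : ∀ k ∈ kids, ∀ B' E' : ℕ,
        (∀ c, tb k.2.1 c = true → tb B' c = false ∧ tb E' c = true) →
        Wins (sb M m) B' (Z &&& E) E' (fuel - 1) := by
      intro k hk' B' E' hBE
      obtain ⟨hw, hkm, hkR, hkF, hkh⟩ := hk k hk'
      refine hw.2 (sb M m) B' (Z &&& E) E' (fuel - 1) ?_ ?_ (by omega)
      · intro c hc
        rcases hR c (hkR c hc) with h | h
        · exact (tb_sb M m c).mpr (Or.inl (h1 c h))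
        · exact (tb_sb M m c).mpr (Or.inr h)
      · intro c hc
        obtain ⟨hcM, _, hcZ, hcE⟩ := h2 c ((tb_sb FU m c).mpr (Or.inl (hkF c hc)))
        refine ⟨?_, (hBE c hc).1, (tb_and Z E c).mpr ⟨hcZ, hcE⟩, (hBE c hc).2⟩
        cases hsb : tb (sb M m) c with
        | false => rfl
        | true =>
          rcases (tb_sb M m c).mp hsb with h | h
          · rw [hcM] at h; exact Bool.noConfusion h
          · have h' := hkm c hc
            rw [h, (tb_sb 0 m m).mpr (Or.inr rfl)] at h'
            exact Bool.noConfusion h'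
    apply Wins.chain (List.range 4096) 0
    · rcases hcap 0 (by norm_num) with h | ⟨k0, hk0, _⟩
      · rw [tb_zero] at h; exact Bool.noConfusion h
      · apply kid k0 hk0
        intro c hc
        obtain ⟨hw, _, _, hkF, _⟩ := hk k0 hk0
        obtain ⟨_, hcB, _, _⟩ := h2 c ((tb_sb FU m c).mpr (Or.inl (hkF c hc)))
        exact ⟨hcB, (tb_foldl_sb _ 0 c).mpr (Or.inr (List.mem_range.mpr (hw.1 c hc)))⟩
    · intro c hc
      rcases hcap c (List.mem_range.mp hc) with h | ⟨k, hk', hkc⟩
      · rw [tb_zero] at h; exact Bool.noConfusion h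
      · apply kid k hk'
        intro x hx
        obtain ⟨hw, _, _, hkF, _⟩ := hk k hk'
        obtain ⟨_, hxB, _, _⟩ := h2 x ((tb_sb FU m x).mpr (Or.inl (hkF x hx)))
        refine ⟨?_, tb_full (hw.1 x hx)⟩
        cases hsb : tb (sb B c) x with
        | false => rfl
        | true =>
          rcases (tb_sb B c x).mp hsb with h | rfl
          · rw [hxB] at h; exact Bool.noConfusion h
          · rw [hkc] at hx; exact Bool.noConfusion hx

/-- A sound root summary with empty requirement and at most 21 claims proves the frozen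
statement of S0047. -/
theorem result_of_fwin {F h : ℕ} (hw : FWin 0 F h) (hh : h ≤ 21) :
    ∃ σ : List (ℤ × ℤ) → ℤ × ℤ, ∀ b : ℕ → ℤ × ℤ,
      (∀ k : ℕ, k < 20 →
        (∀ j : ℕ, j ≤ k → b k ≠ Crest.CombinatoricsR.PolyominoGame.makerClaim σ b j) ∧
        (∀ j : ℕ, j < k → b k ≠ b j)) →
      (∀ k : ℕ, k ≤ 20 →
        (∀ j : ℕ, j < k → Crest.CombinatoricsR.PolyominoGame.makerClaim σ b k ≠
          Crest.CombinatoricsR.PolyominoGame.makerClaim σ b j) ∧
        (∀ j : ℕ, j < k → Crest.CombinatoricsR.PolyominoGame.makerClaim σ b k ≠ b j)) ∧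
      Crest.CombinatoricsR.PolyominoGame.ContainsCopy
        {c | ∃ j : ℕ, j ≤ 20 ∧ c = Crest.CombinatoricsR.PolyominoGame.makerClaim σ b j} := by
  apply result_of_wins
  refine hw.2 0 0 full full 21 (fun c hc => by rw [tb_zero] at hc; exact Bool.noConfusion hc)
    (fun c hc => ⟨tb_zero c, tb_zero c, tb_full (hw.1 c hc), tb_full (hw.1 c hc)⟩) hh

/-! ### Copy masks -/

/-- The eight copy masks (orientation `o` in the 512-bit slot number `o`). -/
def cmaskTable : ℕ :=
  0x20000000000000002000000000000000200000000000000030000000000000001000000000000000000000000000000000000000000000000000000000000000100000000000000010000000000000001000000000000000300000000000000020000000000000000000000000000000000000000000000000000000000000001000000000000000300000000000000020000000000000002000000000000000200000000000000000000000000000000000000000000000000000000000000020000000000000003000000000000000100000000000000010000000000000001000000000000000000000000000000000000000000000000000000000000000000000000000000000000000000000000000000000000001e0000000000000003000000000000000000000000000000000000000000000000000000000000000000000000000000000000000000000000000000000000000f00000000000000180000000000000000000000000000000000000000000000000000000000000000000000000000000000000000000000000000000000000003000000000000001e0000000000000000000000000000000000000000000000000000000000000000000000000000000000000000000000000000000000000018000000000000000f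

/-- `2^512 - 1`. -/
def m512 : ℕ := 2 ^ 512 - 1

/-- The mask of the copy with orientation `o` (`o < 8`) whose bounding box has corner `t`. -/
def cmaskAt (t o : ℕ) : ℕ :=
  Nat.shiftLeft (Nat.land (Nat.shiftRight cmaskTable (Nat.mul o 512)) m512) t

theorem cmask_table_spec : ∀ o < 8, ∀ d ∈ copyXY o,
    Nat.testBit (Nat.land (Nat.shiftRight cmaskTable (Nat.mul o 512)) m512) (d.1 + 64 * d.2)
      = true := by
  decide +kernel

theorem tb_cmaskAt (t o : ℕ) (ho : o < 8) :
    ∀ d ∈ copyXY o, tb (cmaskAt t o) (t + (d.1 + 64 * d.2)) = true := by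
  intro d hd
  have h := cmask_table_spec o ho d hd
  show Nat.testBit ((Nat.land (Nat.shiftRight cmaskTable (Nat.mul o 512)) m512) <<< t)
    (t + (d.1 + 64 * d.2)) = true
  rw [Nat.testBit_shiftLeft]
  simp only [ge_iff_le, Nat.le_add_right, decide_true, Nat.add_sub_cancel_left, Bool.true_and]
  exact h

/-- Leaf, mask form: `R` contains every cell of the copy mask except possibly `m`. -/
theorem FWin.winMask {t o m R : ℕ} (ho : o < 8) (ht : t % 64 ≤ 59) (hm : m < 4096)
    (hR : ∀ c, tb (cmaskAt t o) c = true → c = m ∨ tb R c = true) : FWin R (sb 0 m) 1 :=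
  FWin.win ho ht hm (fun d hd => hR _ (tb_cmaskAt t o ho d hd))

end Crest.Agent.S0047
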