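import Crest.Agent.S0047_Db32s0
import Crest.Agent.S0047_Db32s3
import Crest.Agent.S0047_Db32s5
import Crest.Agent.S0047_Db32s6
import Crest.Agent.S0047_Db22s1
import Crest.Agent.S0047_Db22s2
import Crest.Agent.S0047_Db22s4
import Crest.Agent.S0047_Db22s7
import Crest.Agent.S0047_Db41s0
import Crest.Agent.S0047_Db41s1
import Crest.Agent.S0047_Db41s2
import Crest.Agent.S0047_Db41s3
import Crest.Agent.S0047_Db41s4
import Crest.Agent.S0047_Db41s5
import Crest.Agent.S0047_Db41s6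
import Crest.Agent.S0047_Db41s7
import Crest.Agent.S0047_Db31s0
import Crest.Agent.S0047_Db31s1
import Crest.Agent.S0047_Db31s2
import Crest.Agent.S0047_Db31s3
import Crest.Agent.S0047_Db31s4
import Crest.Agent.S0047_Db31s5
import Crest.Agent.S0047_Db31s6
import Crest.Agent.S0047_Db31s7
import Crest.Agent.S0047_Db30s0
import Crest.Agent.S0047_Db30s1
import Crest.Agent.S0047_Db30s4
import Crest.Agent.S0047_Db30s6
import Crest.Agent.S0047_Db20s0
import Crest.Agent.S0047_Db20s1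
import Crest.Agent.S0047_Db20s4
import Crest.Agent.S0047_Db20s6
import Crest.Agent.S0047_Db21s0
import Crest.Agent.S0047_Db21s1
import Crest.Agent.S0047_Db21s2
import Crest.Agent.S0047_Db21s3
import Crest.Agent.S0047_Db21s4
import Crest.Agent.S0047_Db21s5
import Crest.Agent.S0047_Db21s6
import Crest.Agent.S0047_Db21s7
import Crest.Agent.S0047_Dp11s0
import Crest.Agent.S0047_Dp11s1
import Crest.Agent.S0047_Dp11s2
import Crest.Agent.S0047_Dp11s3
import Crest.Agent.S0047_Dp10s0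
import Crest.Agent.S0047_Dp10s1
import Crest.Agent.S0047_Dp10s4
import Crest.Agent.S0047_Dp10s6

/-! S0047 certificate: the root node (Maker's first claim, then one sub-certificate for every reply). Generated by search/snaky/lean/mkcert.py. -/

set_option autoImplicit false
set_option Elab.async false
set_option linter.style.longLine false

namespace Crest.Agent.S0047.FC
open Crest.Agent.S0047

def xroot : ℕ := 0x1ff00000000000001ff80000000000007ffc000000000001fffe000000000002fffc800000000003ffff800000000007ffffc00000000007ffffc0000000001ffffff0000000001ffffff0000000001ffffff0000000001ffffff0000000001ffffff0000000001ffffff0000000001ffffff0000000001ffffff0000000001ffffff0000000000fffffe00000000007ffffc00000000002fffe800000000000fffc000000000001fffe0000000000007ffc0000000000001ff80000000000001ff000000000000000000000000000000000000000000000000000000000000000000000000000000000000000000000000000000000000000000000000000000000000000000000000000000000000000000000000000000000000000000000000000000000000000000000000000000000000000000000000000000000000000000000000000000000000000000000000000000000000000000000000000000000000000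
theorem croot : SemX xroot 21 :=
  chunk_sound [(Db32s0.x5627, 14), (Db32s3.x5627, 14), (Db32s5.x5627, 14), (Db32s6.x5627, 14), (Db22s1.x6249, 17), (Db22s2.x6249, 17), (Db22s4.x6249, 17), (Db22s7.x6249, 17), (Db41s0.x6259, 14), (Db41s1.x6259, 14), (Db41s2.x6259, 14), (Db41s3.x6259, 14), (Db41s4.x6259, 14), (Db41s5.x6259, 14), (Db41s6.x6259, 14), (Db41s7.x6259, 14), (Db31s0.x10244, 18), (Db31s1.x10244, 18), (Db31s2.x10244, 18), (Db31s3.x10244, 18), (Db31s4.x10244, 18), (Db31s5.x10244, 18), (Db31s6.x10244, 18), (Db31s7.x10244, 18), (Db30s0.x13532, 16), (Db30s1.x13532, 16), (Db30s4.x13532, 16), (Db30s6.x13532, 16), (Db20s0.x16194, 20), (Db20s1.x16194, 20), (Db20s4.x16194, 20), (Db20s6.x16194, 20), (Db21s0.x16480, 20), (Db21s1.x16480, 20), (Db21s2.x16480, 20), (Db21s3.x16480, 20), (Db21s4.x16480, 20), (Db21s5.x16480, 20), (Db21s6.x16480, 20), (Db21s7.x16480, 20), (Dp11s0.x39145, 20), (Dp11s1.x39145, 20), (Dp11s2.x39145,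 20), (Dp11s3.x39145, 20), (Dp10s0.x456649, 20), (Dp10s1.x456649, 20), (Dp10s4.x456649, 20), (Dp10s6.x456649, 20)]
    ⟨Db32s0.c5627, ⟨Db32s3.c5627, ⟨Db32s5.c5627, ⟨Db32s6.c5627, ⟨Db22s1.c6249, ⟨Db22s2.c6249, ⟨Db22s4.c6249, ⟨Db22s7.c6249, ⟨Db41s0.c6259, ⟨Db41s1.c6259, ⟨Db41s2.c6259, ⟨Db41s3.c6259, ⟨Db41s4.c6259, ⟨Db41s5.c6259, ⟨Db41s6.c6259, ⟨Db41s7.c6259, ⟨Db31s0.c10244, ⟨Db31s1.c10244, ⟨Db31s2.c10244, ⟨Db31s3.c10244, ⟨Db31s4.c10244, ⟨Db31s5.c10244, ⟨Db31s6.c10244, ⟨Db31s7.c10244, ⟨Db30s0.c13532, ⟨Db30s1.c13532, ⟨Db30s4.c13532, ⟨Db30s6.c13532, ⟨Db20s0.c16194, ⟨Db20s1.c16194, ⟨Db20s4.c16194, ⟨Db20s6.c16194, ⟨Db21s0.c16480, ⟨Db21s1.c16480, ⟨Db21s2.c16480, ⟨Db21s3.c16480, ⟨Db21s4.c16480, ⟨Db21s5.c16480, ⟨Db21s6.c16480, ⟨Db21s7.c16480, ⟨Dp11s0.c39145, ⟨Dp11s1.c39145, ⟨Dp11s2.c39145, ⟨Dp11s3.c39145, ⟨Dp10s0.c456649, ⟨Dp10s1.c456649, ⟨Dp10s4.c456649, ⟨Dp10s6.c456649, trivial⟩⟩⟩⟩⟩⟩⟩⟩⟩⟩⟩⟩⟩⟩⟩⟩⟩⟩⟩⟩⟩⟩⟩⟩⟩⟩⟩⟩⟩⟩⟩⟩⟩⟩⟩⟩⟩⟩⟩⟩⟩⟩⟩⟩⟩⟩⟩⟩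
    51 [0x4e05f702eb816dc0b2e057702ab814dc0a2e04f7026b812dc092e0477022b810dc082e03f701eb80edc072e037701ab80cdc062e02f7016b80adc052e0277012b808dc042e01f700eb806dc032e017700ab804dc022e00f7006b802dc012e0077002b800dc002f040f]
    _ _ (by decide +kernel)

theorem xroot_req : xroot >>> 4096 = 0 := by decide +kernel

end Crest.Agent.S0047.FC
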