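import Mathlib
import Crest.Prelude.Def_BoxFlow

/-!
# S0170 (row 126) : shared definitions for the effectivity side (owner: helper19)

* `Eff1 f` : a smooth 1-D function all of whose iterated derivatives are computably approximable
  at rational points and computably bounded (the interface fixed by the lead's ruling).
* `effCoord c p` : the `c`-th coordinate of a space-time point (`0` = time, `j + 1` = `j`-th space
  coordinate), matching `Crest.AnalysisR.BoxFlow.direction`.
* `effRatCoord c (t, q)` : the same on rational space-time points.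
-/

set_option autoImplicit false
open scoped ContDiff
open Crest.AnalysisR.BoxFlow

namespace Crest.Agent.S0170

/-- A smooth function `ℝ → ℝ` whose iterated derivatives are computably approximable at rational
points (to precision `1/(n+1)`) and computably bounded. -/
def Eff1 (f : ℝ → ℝ) : Prop :=
  ContDiff ℝ ∞ f ∧ ∃ (A : ℕ × ℚ × ℕ → ℚ) (B : ℕ → ℕ), Computable A ∧ Computable B ∧
    (∀ (k : ℕ) (q : ℚ) (n : ℕ),
      |iteratedDeriv k f (q : ℝ) - (A (k, q, n) : ℝ)| ≤ 1 / ((n : ℝ) + 1)) ∧
    (∀ (k : ℕ) (x : ℝ), |iteratedDeriv k f x| ≤ (B k : ℝ))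

/-- The `c`-th coordinate of a space-time point: `0` is time, `j + 1` the `j`-th space coordinate. -/
def effCoord (c : Fin 4) (p : ℝ × (Fin 3 → ℝ)) : ℝ :=
  if h : c = 0 then p.1 else p.2 (c.pred h)

/-- The `c`-th coordinate of a rational space-time point. -/
def effRatCoord (c : Fin 4) (p : ℚ × (Fin 3 → ℚ)) : ℚ :=
  if h : c = 0 then p.1 else p.2 (c.pred h)

theorem effCoord_rat (c : Fin 4) (t : ℚ) (q : Fin 3 → ℚ) :
    effCoord c ((t : ℝ), ratPoint q) = (effRatCoord c (t, q) : ℝ) := by
  unfold effCoord effRatCoord ratPoint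
  split_ifs <;> rfl

theorem effCoord_zero (p : ℝ × (Fin 3 → ℝ)) : effCoord 0 p = p.1 := rfl

theorem effCoord_succ (j : Fin 3) (p : ℝ × (Fin 3 → ℝ)) : effCoord j.succ p = p.2 j := by
  unfold effCoord
  rw [dif_neg (Fin.succ_ne_zero j), Fin.pred_succ]

end Crest.Agent.S0170
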