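import Mathlib

/-!
# WP-Q : the ℚ bridge for S0170 (row 126)

`Primcodable ℚ` in Mathlib is the rank encoding `Denumerable.ofEncodableOfInfinite ℚ`.
This file isolates it behind two conversions `ratData : ℚ → ℕ × ℕ × ℕ` and
`ratOf : ℕ × ℕ × ℕ → ℚ`, both `Computable`, and derives `Computable` for the field
operations, comparisons, finite sums/products, powers, `Nat.ceil`, `Nat.floor` on `ℚ`.
-/

namespace Crest.Agent.S0170

/-- `(num⁺, num⁻, den)` of a rational. -/
def ratData (q : ℚ) : ℕ × ℕ × ℕ := (q.num.toNat, (-q.num).toNat, q.den)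

/-- The rational `(a - b) / d` described by a triple `(a, b, d)` of naturals. -/
def ratOf (p : ℕ × ℕ × ℕ) : ℚ := ((p.1 : ℚ) - (p.2.1 : ℚ)) / (p.2.2 : ℚ)

namespace QB

/-- raw (non-surjective) code of a rational -/
def rawEnc (q : ℚ) : ℕ := Nat.pair (Encodable.encode q.num) q.den

theorem rawEnc_eq (q : ℚ) : rawEnc q = @Encodable.encode ℚ Rat.instEncodable q := rfl

theorem rawEnc_injective : Function.Injective rawEnc := by
  intro p q h
  have := (@Encodable.encode_injective ℚ Rat.instEncodable)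
  exact this h

theorem encode_int (z : ℤ) :
    Encodable.encode z = if 0 ≤ z then 2 * z.toNat else 2 * (-z).toNat - 1 := by
  cases z with
  | ofNat n => simp; rfl
  | negSucc n => 
    have : ¬ (0 ≤ Int.negSucc n) := by simp
    rw [if_neg this]
    show 2 * n + 1 = _
    simp [Int.neg_negSucc]
    omega

theorem natAbs_eq_encode (z : ℤ) : z.natAbs = (Encodable.encode z + 1) / 2 := by
  rw [encode_int]
  split_ifs with h <;> omega

/-- validity of a raw code -/
def validB (m : ℕ) : Bool :=
  decide ((Nat.unpair m).2 ≠ 0 ∧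
    ∀ k < (Nat.unpair m).2 + 1,
      (((Nat.unpair m).1 + 1) / 2) % k = 0 → (Nat.unpair m).2 % k = 0 → k = 1)

theorem coprime_iff_forall (a d : ℕ) (hd : d ≠ 0) :
    Nat.Coprime a d ↔ ∀ k < d + 1, a % k = 0 → d % k = 0 → k = 1 := by
  constructor
  · intro h k _ hka hkd
    exact Nat.eq_one_of_dvd_coprimes h (Nat.dvd_of_mod_eq_zero hka) (Nat.dvd_of_mod_eq_zero hkd)
  · intro h
    have h1 : Nat.gcd a d ∣ d := Nat.gcd_dvd_right a d
    have h2 : Nat.gcd a d ∣ a := Nat.gcd_dvd_left a d
    have h3 : Nat.gcd a d ≤ d := Nat.le_of_dvd (Nat.pos_of_ne_zero hd) h1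
    exact h _ (by omega) (Nat.mod_eq_zero_of_dvd h2) (Nat.mod_eq_zero_of_dvd h1)

theorem validB_iff (m : ℕ) : validB m = true ↔ m ∈ Set.range rawEnc := by
  unfold validB
  rw [decide_eq_true_iff]
  constructor
  · rintro ⟨hd, hc⟩
    rw [← coprime_iff_forall _ _ hd] at hc
    set z : ℤ := Denumerable.ofNat ℤ (Nat.unpair m).1 with hz
    have hz' : Encodable.encode z = (Nat.unpair m).1 := Denumerable.encode_ofNat _
    have hcop : z.natAbs.Coprime (Nat.unpair m).2 := by
      rw [natAbs_eq_encode, hz']; exact hc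
    refine ⟨⟨z, (Nat.unpair m).2, hd, hcop⟩, ?_⟩
    show Nat.pair (Encodable.encode z) (Nat.unpair m).2 = m
    rw [hz', Nat.pair_unpair]
  · rintro ⟨q, rfl⟩
    unfold rawEnc
    rw [Nat.unpair_pair]
    refine ⟨q.den_nz, ?_⟩
    rw [← coprime_iff_forall _ _ q.den_nz, ← natAbs_eq_encode]
    exact q.reduced

/-- rank of a raw code among valid raw codes -/
def rank (m : ℕ) : ℕ := ((List.range m).filter (fun k => validB k)).length

/-- the code of a rational used by `Primcodable ℚ` -/
def qenc (q : ℚ) : ℕ := @Encodable.encode ℚ Denumerable.toEncodable q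

theorem encode_eq_rank (q : ℚ) : qenc q = rank (rawEnc q) := by
  have h1 : qenc q = (List.range (rawEnc q)).countP
      (fun m => @decide (m ∈ Set.range (@Encodable.encode ℚ Rat.instEncodable))
        (Encodable.decidableRangeEncode ℚ m)) := rfl
  rw [h1, rank, List.countP_eq_length_filter]
  congr 1
  apply List.filter_congr
  intro m _
  rw [Bool.eq_iff_iff, validB_iff m]
  exact @decide_eq_true_iff _ (Encodable.decidableRangeEncode ℚ m)

theorem primrec_validB : Primrec validB := by
  have ha : Primrec (fun m : ℕ => ((Nat.unpair m).1 + 1) / 2) :=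
    Primrec.nat_div.comp (Primrec.succ.comp (Primrec.fst.comp Primrec.unpair)) (Primrec.const 2)
  have hd : Primrec (fun m : ℕ => (Nat.unpair m).2) := Primrec.snd.comp Primrec.unpair
  have hR : PrimrecRel (fun (k m : ℕ) => ¬ ((((Nat.unpair m).1 + 1) / 2) % k = 0) ∨
      ¬ ((Nat.unpair m).2 % k = 0) ∨ k = 1) := by
    refine PrimrecPred.or (PrimrecPred.not ?_) (PrimrecPred.or (PrimrecPred.not ?_) ?_)
    · exact Primrec.eq.comp (Primrec.nat_mod.comp (ha.comp Primrec.snd) Primrec.fst)
        (Primrec.const 0)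
    · exact Primrec.eq.comp (Primrec.nat_mod.comp (hd.comp Primrec.snd) Primrec.fst)
        (Primrec.const 0)
    · exact Primrec.eq.comp Primrec.fst (Primrec.const 1)
  have hall := hR.forall_lt
  have hP : PrimrecPred (fun m : ℕ => (Nat.unpair m).2 ≠ 0 ∧ ∀ k < (Nat.unpair m).2 + 1,
      (¬ ((((Nat.unpair m).1 + 1) / 2) % k = 0) ∨ ¬ ((Nat.unpair m).2 % k = 0) ∨ k = 1)) :=
    PrimrecPred.and (PrimrecPred.not (Primrec.eq.comp hd (Primrec.const 0)))
      (hall.comp (Primrec.succ.comp hd) Primrec.id)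
  refine (PrimrecPred.decide hP).of_eq ?_
  intro m
  unfold validB
  apply decide_eq_decide.mpr
  refine and_congr Iff.rfl (forall_congr' fun k => forall_congr' fun _ => ?_)
  tauto

theorem primrec_rank : Primrec rank := by
  have h : PrimrecPred (fun k : ℕ => validB k = true) :=
    Primrec.eq.comp primrec_validB (Primrec.const true)
  exact Primrec.list_length.comp ((Primrec.listFilter h).comp Primrec.list_range) |>.of_eq
    (by intro m; simp [rank])

/-- decoding a raw code to data -/
def decodeData (m : ℕ) : ℕ × ℕ × ℕ :=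
  (if (Nat.unpair m).1 % 2 = 0 then (Nat.unpair m).1 / 2 else 0,
   if (Nat.unpair m).1 % 2 = 0 then 0 else ((Nat.unpair m).1 + 1) / 2,
   (Nat.unpair m).2)

theorem decodeData_rawEnc (q : ℚ) : decodeData (rawEnc q) = ratData q := by
  unfold decodeData rawEnc ratData
  rw [Nat.unpair_pair]
  simp only
  rw [encode_int]
  split_ifs with h1 h2 h3 <;> first | (exfalso; omega) | (ext <;> simp <;> omega)

theorem primrec_decodeData : Primrec decodeData := by
  have hc : Primrec (fun m : ℕ => (Nat.unpair m).1) := Primrec.fst.comp Primrec.unpair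
  have hd : Primrec (fun m : ℕ => (Nat.unpair m).2) := Primrec.snd.comp Primrec.unpair
  have hp : PrimrecPred (fun m : ℕ => (Nat.unpair m).1 % 2 = 0) :=
    Primrec.eq.comp (Primrec.nat_mod.comp hc (Primrec.const 2)) (Primrec.const 0)
  exact Primrec.pair (Primrec.ite hp (Primrec.nat_div.comp hc (Primrec.const 2)) (Primrec.const 0))
    (Primrec.pair (Primrec.ite hp (Primrec.const 0)
      (Primrec.nat_div.comp (Primrec.succ.comp hc) (Primrec.const 2))) hd)

theorem qenc_ofNat (n : ℕ) : qenc (Denumerable.ofNat ℚ n) = n := Denumerable.encode_ofNat n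

theorem ofNat_qenc (q : ℚ) : Denumerable.ofNat ℚ (qenc q) = q := Denumerable.ofNat_encode q

theorem search_iff (n m : ℕ) :
    (validB m && decide (rank m = n)) = true ↔ m = rawEnc (Denumerable.ofNat ℚ n) := by
  rw [Bool.and_eq_true, decide_eq_true_iff, validB_iff]
  constructor
  · rintro ⟨⟨q, rfl⟩, h⟩
    rw [← encode_eq_rank] at h
    rw [← h, ofNat_qenc]
  · rintro rfl
    refine ⟨⟨_, rfl⟩, ?_⟩
    rw [← encode_eq_rank, qenc_ofNat]

theorem computable_rawOfNat : Computable (fun n : ℕ => rawEnc (Denumerable.ofNat ℚ n)) := by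
  have hp : Primrec (fun p : ℕ × ℕ => (validB p.2 && decide (rank p.2 = p.1))) :=
    Primrec.and.comp (primrec_validB.comp Primrec.snd)
      (PrimrecPred.decide (Primrec.eq.comp (primrec_rank.comp Primrec.snd) Primrec.fst))
  have hpart : Partrec (fun n : ℕ =>
      Nat.rfind (fun m => (Part.some (validB m && decide (rank m = n)) : Part Bool))) :=
    Partrec.rfind (hp.to_comp.partrec.to₂)
  refine hpart.of_eq_tot fun n => ?_
  rw [Nat.mem_rfind]
  constructor
  · simp only [Part.mem_some_iff]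
    exact ((search_iff n _).2 rfl).symm
  · intro m hm
    simp only [Part.mem_some_iff]
    by_contra hne
    have : (validB m && decide (rank m = n)) = true := by
      cases h : (validB m && decide (rank m = n))
      · exact absurd h.symm hne
      · rfl
    rw [search_iff] at this
    omega

theorem computable_dataOfNat : Computable (fun n : ℕ => ratData (Denumerable.ofNat ℚ n)) :=
  (primrec_decodeData.to_comp.comp computable_rawOfNat).of_eq fun _ => decodeData_rawEnc _

end QB

theorem ratOf_ratData (q : ℚ) : ratOf (ratData q) = q := by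
  unfold ratOf ratData
  simp only
  have h : ((q.num.toNat : ℚ) - ((-q.num).toNat : ℚ)) = (q.num : ℚ) := by
    have := Int.toNat_sub_toNat_neg q.num
    exact_mod_cast this
  rw [h, Rat.num_div_den]

theorem ratData_den_pos (q : ℚ) : 0 < (ratData q).2.2 := q.den_pos

theorem computable_ratData : Computable ratData :=
  (QB.computable_dataOfNat.comp Computable.encode).of_eq fun q => by
    show ratData (Denumerable.ofNat ℚ (QB.qenc q)) = ratData q
    rw [QB.ofNat_qenc]

namespace QB

/-- normalise a triple: a zero denominator becomes the triple `(0,0,1)` -/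
def normD (p : ℕ × ℕ × ℕ) : ℕ × ℕ × ℕ := if p.2.2 = 0 then (0, 0, 1) else p

theorem ratOf_normD (p : ℕ × ℕ × ℕ) : ratOf (normD p) = ratOf p := by
  unfold normD
  split_ifs with h
  · simp [ratOf, h]
  · rfl

theorem normD_pos (p : ℕ × ℕ × ℕ) : 0 < (normD p).2.2 := by
  unfold normD
  split_ifs with h
  · simp
  · exact Nat.pos_of_ne_zero h

theorem primrec_normD : Primrec normD :=
  Primrec.ite (Primrec.eq.comp (Primrec.snd.comp Primrec.snd) (Primrec.const 0))
    (Primrec.const (0, 0, 1)) Primrec.id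

/-- equality of the rationals described by two triples, by cross multiplication -/
def crossEq (p p' : ℕ × ℕ × ℕ) : Bool :=
  decide (p.1 * p'.2.2 + p'.2.1 * p.2.2 = p'.1 * p.2.2 + p.2.1 * p'.2.2)

theorem crossEq_iff (p p' : ℕ × ℕ × ℕ) (hd : 0 < p.2.2) (hd' : 0 < p'.2.2) :
    crossEq p p' = true ↔ ratOf p = ratOf p' := by
  unfold crossEq ratOf
  rw [decide_eq_true_iff]
  have h1 : (p.2.2 : ℚ) ≠ 0 := by positivity
  have h2 : (p'.2.2 : ℚ) ≠ 0 := by positivity
  rw [div_eq_div_iff h1 h2]
  constructor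
  · intro h
    have h' : ((p.1 * p'.2.2 + p'.2.1 * p.2.2 : ℕ) : ℚ) = ((p'.1 * p.2.2 + p.2.1 * p'.2.2 : ℕ) : ℚ) := by
      rw [h]
    push_cast at h'
    linarith
  · intro h
    have h' : ((p.1 * p'.2.2 + p'.2.1 * p.2.2 : ℕ) : ℚ) = ((p'.1 * p.2.2 + p.2.1 * p'.2.2 : ℕ) : ℚ) := by
      push_cast
      linarith
    exact_mod_cast h'

theorem primrec_crossEq : Primrec₂ crossEq := by
  have a : Primrec (fun x : (ℕ × ℕ × ℕ) × (ℕ × ℕ × ℕ) => x.1.1) := Primrec.fst.comp Primrec.fst
  have b : Primrec (fun x : (ℕ × ℕ × ℕ) × (ℕ × ℕ × ℕ) => x.1.2.1) :=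
    Primrec.fst.comp (Primrec.snd.comp Primrec.fst)
  have d : Primrec (fun x : (ℕ × ℕ × ℕ) × (ℕ × ℕ × ℕ) => x.1.2.2) :=
    Primrec.snd.comp (Primrec.snd.comp Primrec.fst)
  have a' : Primrec (fun x : (ℕ × ℕ × ℕ) × (ℕ × ℕ × ℕ) => x.2.1) := Primrec.fst.comp Primrec.snd
  have b' : Primrec (fun x : (ℕ × ℕ × ℕ) × (ℕ × ℕ × ℕ) => x.2.2.1) :=
    Primrec.fst.comp (Primrec.snd.comp Primrec.snd)
  have d' : Primrec (fun x : (ℕ × ℕ × ℕ) × (ℕ × ℕ × ℕ) => x.2.2.2) :=
    Primrec.snd.comp (Primrec.snd.comp Primrec.snd)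
  exact PrimrecPred.decide (Primrec.eq.comp
    (Primrec.nat_add.comp (Primrec.nat_mul.comp a d') (Primrec.nat_mul.comp b' d))
    (Primrec.nat_add.comp (Primrec.nat_mul.comp a' d) (Primrec.nat_mul.comp b d')))

theorem search2_iff (p : ℕ × ℕ × ℕ) (n : ℕ) :
    crossEq (ratData (Denumerable.ofNat ℚ n)) (normD p) = true ↔ n = qenc (ratOf p) := by
  rw [crossEq_iff _ _ (ratData_den_pos _) (normD_pos _), ratOf_ratData, ratOf_normD]
  constructor
  · intro h
    rw [← h, qenc_ofNat]
  · rintro rfl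
    rw [ofNat_qenc]

theorem computable_encRatOf : Computable (fun p : ℕ × ℕ × ℕ => qenc (ratOf p)) := by
  have hc : Computable (fun x : (ℕ × ℕ × ℕ) × ℕ =>
      crossEq (ratData (Denumerable.ofNat ℚ x.2)) (normD x.1)) :=
    primrec_crossEq.to_comp.comp (computable_dataOfNat.comp Computable.snd)
      (primrec_normD.to_comp.comp Computable.fst)
  have hpart : Partrec (fun p : ℕ × ℕ × ℕ =>
      Nat.rfind (fun n => (Part.some (crossEq (ratData (Denumerable.ofNat ℚ n)) (normD p)) :
        Part Bool))) :=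
    Partrec.rfind (hc.partrec.to₂)
  refine hpart.of_eq_tot fun p => ?_
  rw [Nat.mem_rfind]
  constructor
  · simp only [Part.mem_some_iff]
    exact ((search2_iff p _).2 rfl).symm
  · intro m hm
    simp only [Part.mem_some_iff]
    by_contra hne
    have : crossEq (ratData (Denumerable.ofNat ℚ m)) (normD p) = true := by
      cases h : crossEq (ratData (Denumerable.ofNat ℚ m)) (normD p)
      · exact absurd h.symm hne
      · rfl
    rw [search2_iff] at this
    omega

end QB

theorem computable_ratOf : Computable ratOf :=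
  Computable.encode_iff.1 QB.computable_encRatOf

section ops

variable {α : Type*} [Primcodable α]

namespace QB

theorem lift₁ {op : ℚ → ℚ} {opD : ℕ × ℕ × ℕ → ℕ × ℕ × ℕ} (hD : Primrec opD)
    (h : ∀ p, 0 < p.2.2 → ratOf (opD p) = op (ratOf p))
    {f : α → ℚ} (hf : Computable f) : Computable fun a => op (f a) :=
  (computable_ratOf.comp (hD.to_comp.comp (computable_ratData.comp hf))).of_eq fun a => by
    rw [h _ (ratData_den_pos _), ratOf_ratData]

theorem lift₂ {op : ℚ → ℚ → ℚ} {opD : ℕ × ℕ × ℕ → ℕ × ℕ × ℕ → ℕ × ℕ × ℕ} (hD : Primrec₂ opD)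
    (h : ∀ p p', 0 < p.2.2 → 0 < p'.2.2 → ratOf (opD p p') = op (ratOf p) (ratOf p'))
    {f g : α → ℚ} (hf : Computable f) (hg : Computable g) : Computable fun a => op (f a) (g a) :=
  (computable_ratOf.comp (hD.to_comp.comp (computable_ratData.comp hf)
    (computable_ratData.comp hg))).of_eq fun a => by
    rw [h _ _ (ratData_den_pos _) (ratData_den_pos _), ratOf_ratData, ratOf_ratData]

theorem pA : Primrec (fun x : (ℕ × ℕ × ℕ) × (ℕ × ℕ × ℕ) => x.1.1) := Primrec.fst.comp Primrec.fst
theorem pB : Primrec (fun x : (ℕ × ℕ × ℕ) × (ℕ × ℕ × ℕ) => x.1.2.1) :=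
  Primrec.fst.comp (Primrec.snd.comp Primrec.fst)
theorem pD : Primrec (fun x : (ℕ × ℕ × ℕ) × (ℕ × ℕ × ℕ) => x.1.2.2) :=
  Primrec.snd.comp (Primrec.snd.comp Primrec.fst)
theorem pA' : Primrec (fun x : (ℕ × ℕ × ℕ) × (ℕ × ℕ × ℕ) => x.2.1) := Primrec.fst.comp Primrec.snd
theorem pB' : Primrec (fun x : (ℕ × ℕ × ℕ) × (ℕ × ℕ × ℕ) => x.2.2.1) :=
  Primrec.fst.comp (Primrec.snd.comp Primrec.snd)
theorem pD' : Primrec (fun x : (ℕ × ℕ × ℕ) × (ℕ × ℕ × ℕ) => x.2.2.2) :=
  Primrec.snd.comp (Primrec.snd.comp Primrec.snd)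

/-- addition on triples -/
def addD (p p' : ℕ × ℕ × ℕ) : ℕ × ℕ × ℕ :=
  (p.1 * p'.2.2 + p'.1 * p.2.2, p.2.1 * p'.2.2 + p'.2.1 * p.2.2, p.2.2 * p'.2.2)

theorem primrec_addD : Primrec₂ addD :=
  Primrec.pair (Primrec.nat_add.comp (Primrec.nat_mul.comp pA pD') (Primrec.nat_mul.comp pA' pD))
    (Primrec.pair (Primrec.nat_add.comp (Primrec.nat_mul.comp pB pD') (Primrec.nat_mul.comp pB' pD))
      (Primrec.nat_mul.comp pD pD'))

theorem ratOf_addD (p p' : ℕ × ℕ × ℕ) (hd : 0 < p.2.2) (hd' : 0 < p'.2.2) :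
    ratOf (addD p p') = ratOf p + ratOf p' := by
  unfold ratOf addD
  have h1 : (p.2.2 : ℚ) ≠ 0 := by positivity
  have h2 : (p'.2.2 : ℚ) ≠ 0 := by positivity
  push_cast
  field_simp
  ring

/-- multiplication on triples -/
def mulD (p p' : ℕ × ℕ × ℕ) : ℕ × ℕ × ℕ :=
  (p.1 * p'.1 + p.2.1 * p'.2.1, p.1 * p'.2.1 + p.2.1 * p'.1, p.2.2 * p'.2.2)

theorem primrec_mulD : Primrec₂ mulD :=
  Primrec.pair (Primrec.nat_add.comp (Primrec.nat_mul.comp pA pA') (Primrec.nat_mul.comp pB pB'))
    (Primrec.pair (Primrec.nat_add.comp (Primrec.nat_mul.comp pA pB') (Primrec.nat_mul.comp pB pA'))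
      (Primrec.nat_mul.comp pD pD'))

theorem ratOf_mulD (p p' : ℕ × ℕ × ℕ) (hd : 0 < p.2.2) (hd' : 0 < p'.2.2) :
    ratOf (mulD p p') = ratOf p * ratOf p' := by
  unfold ratOf mulD
  have h1 : (p.2.2 : ℚ) ≠ 0 := by positivity
  have h2 : (p'.2.2 : ℚ) ≠ 0 := by positivity
  push_cast
  field_simp
  ring

/-- negation on triples -/
def negD (p : ℕ × ℕ × ℕ) : ℕ × ℕ × ℕ := (p.2.1, p.1, p.2.2)

theorem primrec_negD : Primrec negD :=
  Primrec.pair (Primrec.fst.comp Primrec.snd) (Primrec.pair Primrec.fst (Primrec.snd.comp Primrec.snd))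

theorem ratOf_negD (p : ℕ × ℕ × ℕ) : ratOf (negD p) = - ratOf p := by
  unfold ratOf negD
  simp only
  rw [← neg_div]
  ring

/-- inversion on triples -/
def invD (p : ℕ × ℕ × ℕ) : ℕ × ℕ × ℕ :=
  if p.2.1 < p.1 then (p.2.2, 0, p.1 - p.2.1)
  else if p.1 < p.2.1 then (0, p.2.2, p.2.1 - p.1) else (0, 0, 1)

theorem primrec_invD : Primrec invD := by
  have a : Primrec (fun p : ℕ × ℕ × ℕ => p.1) := Primrec.fst
  have b : Primrec (fun p : ℕ × ℕ × ℕ => p.2.1) := Primrec.fst.comp Primrec.snd
  have d : Primrec (fun p : ℕ × ℕ × ℕ => p.2.2) := Primrec.snd.comp Primrec.snd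
  exact Primrec.ite (Primrec.nat_lt.comp b a)
    (Primrec.pair d (Primrec.pair (Primrec.const 0) (Primrec.nat_sub.comp a b)))
    (Primrec.ite (Primrec.nat_lt.comp a b)
      (Primrec.pair (Primrec.const 0) (Primrec.pair d (Primrec.nat_sub.comp b a)))
      (Primrec.const (0, 0, 1)))

theorem ratOf_invD (p : ℕ × ℕ × ℕ) : ratOf (invD p) = (ratOf p)⁻¹ := by
  unfold ratOf invD
  split_ifs with h1 h2
  · simp only
    rw [Nat.cast_sub h1.le]
    simp
  · simp only
    rw [Nat.cast_sub h2.le, inv_div]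
    simp only [Nat.cast_zero, zero_sub]
    rw [neg_div, ← div_neg]
    congr 1
    ring
  · have : p.1 = p.2.1 := by omega
    simp [this]

/-- `≤` on triples by cross multiplication -/
def leD (p p' : ℕ × ℕ × ℕ) : Bool :=
  decide (p.1 * p'.2.2 + p'.2.1 * p.2.2 ≤ p'.1 * p.2.2 + p.2.1 * p'.2.2)

theorem primrec_leD : Primrec₂ leD :=
  PrimrecPred.decide (Primrec.nat_le.comp
    (Primrec.nat_add.comp (Primrec.nat_mul.comp pA pD') (Primrec.nat_mul.comp pB' pD))
    (Primrec.nat_add.comp (Primrec.nat_mul.comp pA' pD) (Primrec.nat_mul.comp pB pD')))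

theorem leD_iff (p p' : ℕ × ℕ × ℕ) (hd : 0 < p.2.2) (hd' : 0 < p'.2.2) :
    leD p p' = true ↔ ratOf p ≤ ratOf p' := by
  unfold leD ratOf
  rw [decide_eq_true_iff]
  have h1 : (0 : ℚ) < (p.2.2 : ℚ) := by positivity
  have h2 : (0 : ℚ) < (p'.2.2 : ℚ) := by positivity
  rw [div_le_div_iff₀ h1 h2]
  constructor
  · intro h
    have h' : ((p.1 * p'.2.2 + p'.2.1 * p.2.2 : ℕ) : ℚ) ≤ ((p'.1 * p.2.2 + p.2.1 * p'.2.2 : ℕ) : ℚ) := by
      exact_mod_cast h
    push_cast at h'
    linarith
  · intro h
    have h' : ((p.1 * p'.2.2 + p'.2.1 * p.2.2 : ℕ) : ℚ) ≤ ((p'.1 * p.2.2 + p.2.1 * p'.2.2 : ℕ) : ℚ) := by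
      push_cast
      linarith
    exact_mod_cast h'

/-- floor on triples -/
def floorD (p : ℕ × ℕ × ℕ) : ℕ := (p.1 - p.2.1) / p.2.2

theorem primrec_floorD : Primrec floorD :=
  Primrec.nat_div.comp (Primrec.nat_sub.comp Primrec.fst (Primrec.fst.comp Primrec.snd))
    (Primrec.snd.comp Primrec.snd)

theorem floorD_eq (p : ℕ × ℕ × ℕ) : floorD p = ⌊ratOf p⌋₊ := by
  unfold floorD ratOf
  rcases le_or_gt p.2.1 p.1 with h | h
  · rw [← Nat.cast_sub h, Nat.floor_div_eq_div]
  · rw [Nat.sub_eq_zero_of_le h.le, Nat.zero_div]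
    symm
    apply Nat.floor_of_nonpos
    apply div_nonpos_of_nonpos_of_nonneg
    · have : (p.1 : ℚ) < (p.2.1 : ℚ) := by exact_mod_cast h
      linarith
    · positivity

end QB

theorem qadd {f g : α → ℚ} (hf : Computable f) (hg : Computable g) :
    Computable fun a => f a + g a :=
  QB.lift₂ QB.primrec_addD QB.ratOf_addD hf hg

theorem qneg {f : α → ℚ} (hf : Computable f) : Computable fun a => - f a :=
  QB.lift₁ QB.primrec_negD (fun p _ => QB.ratOf_negD p) hf

theorem qsub {f g : α → ℚ} (hf : Computable f) (hg : Computable g) :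
    Computable fun a => f a - g a :=
  (qadd hf (qneg hg)).of_eq fun a => by ring

theorem qmul {f g : α → ℚ} (hf : Computable f) (hg : Computable g) :
    Computable fun a => f a * g a :=
  QB.lift₂ QB.primrec_mulD QB.ratOf_mulD hf hg

theorem qinv {f : α → ℚ} (hf : Computable f) : Computable fun a => (f a)⁻¹ :=
  QB.lift₁ QB.primrec_invD (fun p _ => QB.ratOf_invD p) hf

theorem qdiv {f g : α → ℚ} (hf : Computable f) (hg : Computable g) :
    Computable fun a => f a / g a :=
  (qmul hf (qinv hg)).of_eq fun a => by rw [div_eq_mul_inv]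

theorem qofNat {f : α → ℕ} (hf : Computable f) : Computable fun a => (f a : ℚ) :=
  (computable_ratOf.comp (Computable.pair hf (Computable.const ((0 : ℕ), (1 : ℕ))))).of_eq fun a => by
    simp [ratOf]

theorem qle {f g : α → ℚ} (hf : Computable f) (hg : Computable g) :
    Computable fun a => decide (f a ≤ g a) :=
  (QB.primrec_leD.to_comp.comp (computable_ratData.comp hf) (computable_ratData.comp hg)).of_eq
    fun a => by
      rw [Bool.eq_iff_iff, QB.leD_iff _ _ (ratData_den_pos _) (ratData_den_pos _),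
        ratOf_ratData, ratOf_ratData, decide_eq_true_iff]

theorem qlt {f g : α → ℚ} (hf : Computable f) (hg : Computable g) :
    Computable fun a => decide (f a < g a) :=
  (Primrec.not.to_comp.comp (qle hg hf)).of_eq fun a => by
    rw [Bool.eq_iff_iff]
    simp

theorem qeq {f g : α → ℚ} (hf : Computable f) (hg : Computable g) :
    Computable fun a => decide (f a = g a) :=
  (Primrec.and.to_comp.comp (qle hf hg) (qle hg hf)).of_eq fun a => by
    rw [Bool.eq_iff_iff]
    simp [le_antisymm_iff]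

/-- if-then-else on a decidable proposition whose `decide` is computable -/
theorem qite {σ : Type*} [Primcodable σ] {c : α → Prop} [DecidablePred c] {f g : α → σ}
    (hc : Computable fun a => decide (c a)) (hf : Computable f) (hg : Computable g) :
    Computable fun a => if c a then f a else g a :=
  (Computable.cond hc hf hg).of_eq fun a => by
    by_cases h : c a <;> simp [h]

theorem qmax {f g : α → ℚ} (hf : Computable f) (hg : Computable g) :
    Computable fun a => max (f a) (g a) :=
  (qite (qle hf hg) hg hf).of_eq fun a => by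
    rw [max_def]

theorem qmin {f g : α → ℚ} (hf : Computable f) (hg : Computable g) :
    Computable fun a => min (f a) (g a) :=
  (qite (qle hf hg) hf hg).of_eq fun a => by
    rw [min_def]

theorem qabs {f : α → ℚ} (hf : Computable f) : Computable fun a => |f a| :=
  (qmax hf (qneg hf)).of_eq fun a => by
    rw [abs_eq_max_neg]

theorem qsum {f : α → ℕ → ℚ} {n : α → ℕ} (hf : Computable₂ f) (hn : Computable n) :
    Computable fun a => ∑ i ∈ Finset.range (n a), f a i := by
  have hh : Computable₂ (fun (a : α) (p : ℕ × ℚ) => p.2 + f a p.1) :=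
    qadd (Computable.snd.comp Computable.snd)
      (hf.comp Computable.fst (Computable.fst.comp Computable.snd))
  refine (Computable.nat_rec hn (Computable.const (0 : ℚ)) hh).of_eq fun a => ?_
  induction n a with
  | zero => simp
  | succ k ih => simp only [Finset.sum_range_succ]; rw [← ih]

theorem qprod {f : α → ℕ → ℚ} {n : α → ℕ} (hf : Computable₂ f) (hn : Computable n) :
    Computable fun a => ∏ i ∈ Finset.range (n a), f a i := by
  have hh : Computable₂ (fun (a : α) (p : ℕ × ℚ) => p.2 * f a p.1) :=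
    qmul (Computable.snd.comp Computable.snd)
      (hf.comp Computable.fst (Computable.fst.comp Computable.snd))
  refine (Computable.nat_rec hn (Computable.const (1 : ℚ)) hh).of_eq fun a => ?_
  induction n a with
  | zero => simp
  | succ k ih => simp only [Finset.prod_range_succ]; rw [← ih]

theorem qpow {f : α → ℚ} {n : α → ℕ} (hf : Computable f) (hn : Computable n) :
    Computable fun a => f a ^ n a :=
  (qprod (f := fun a _ => f a) (hf.comp Computable.fst) hn).of_eq fun a => by
    simp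

theorem qlistSum {f : α → List ℚ} (hf : Computable f) : Computable fun a => (f a).sum := by
  have h1 : Computable₂ (fun (a : α) (i : ℕ) => ((f a)[i]?).getD 0) :=
    Computable.option_getD
      (Computable.list_getElem?.comp (hf.comp Computable.fst) Computable.snd)
      (Computable.const (0 : ℚ))
  refine (qsum h1 (Computable.list_length.comp hf)).of_eq fun a => ?_
  generalize f a = l
  induction l with
  | nil => simp
  | cons x l ih =>
    rw [List.length_cons, Finset.sum_range_succ', List.sum_cons, ← ih]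
    simp [add_comm]

theorem qfloor {f : α → ℚ} (hf : Computable f) : Computable fun a => ⌊f a⌋₊ :=
  (QB.primrec_floorD.to_comp.comp (computable_ratData.comp hf)).of_eq fun a => by
    rw [QB.floorD_eq, ratOf_ratData]

theorem qceil {f : α → ℚ} (hf : Computable f) : Computable fun a => ⌈f a⌉₊ := by
  have h1 : Computable fun a => ⌊f a⌋₊ := qfloor hf
  have h2 : Computable fun a => decide (((⌊f a⌋₊ : ℕ) : ℚ) < f a) := qlt (qofNat h1) hf
  have h3 : Computable fun a => if ((⌊f a⌋₊ : ℕ) : ℚ) < f a then ⌊f a⌋₊ + 1 else ⌊f a⌋₊ :=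
    qite h2 (Computable.succ.comp h1) h1
  refine h3.of_eq fun a => ?_
  split_ifs with h
  · symm
    rw [Nat.ceil_eq_iff (by omega)]
    refine ⟨by simpa using h, ?_⟩
    push_cast
    exact (Nat.lt_floor_add_one (f a)).le
  · rw [not_lt] at h
    apply le_antisymm
    · exact Nat.floor_le_ceil _
    · exact Nat.ceil_le.2 h

theorem qfactorial {f : α → ℕ} (hf : Computable f) :
    Computable fun a => ((f a).factorial : ℚ) := by
  have h1 : Computable₂ (fun (_ : α) (i : ℕ) => ((i + 1 : ℕ) : ℚ)) :=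
    qofNat (Computable.succ.comp Computable.snd)
  refine (qprod h1 hf).of_eq fun a => ?_
  rw [← Finset.prod_range_add_one_eq_factorial]
  push_cast
  rfl

/-- numerator/denominator extraction -/
theorem qnumNatAbs {f : α → ℚ} (hf : Computable f) : Computable fun a => (f a).num.natAbs :=
  (Primrec.nat_add.to_comp.comp (Computable.fst.comp (computable_ratData.comp hf))
    (Computable.fst.comp (Computable.snd.comp (computable_ratData.comp hf)))).of_eq fun a => by
    simp only [ratData]
    omega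

theorem qden {f : α → ℚ} (hf : Computable f) : Computable fun a => (f a).den :=
  (Computable.snd.comp (Computable.snd.comp (computable_ratData.comp hf))).of_eq fun _ => rfl

end ops

end Crest.Agent.S0170
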