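import Mathlib
import Crest.Agent.S0170_QBridge
import Crest.Agent.S0170_EffDefs

/-!
# Row 126 (S0170), WP-EFF part 1: closure properties of the 1-D class `Eff1` (owner: helper11)

`Eff1` itself is defined in `S0170_EffDefs` (helper19); rational arithmetic is computable by
`S0170_QBridge` (helper2).

* `EffV f`: computable rational approximations of the values of `f` at rational points.
* `EffB f`: computable global bounds of all derivatives of `f`.
* `eff1_of_values`: numerical differentiation, `ContDiff ∧ EffV ∧ EffB → Eff1`.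
  (Derivative approximations come for free from forward differences.)
* closure of `EffV`, `EffB`, `Eff1` under sums, products, rational affine substitution,
  derivatives, multiplication of a compactly supported function by the identity.
-/

set_option autoImplicit false
open scoped ContDiff

namespace Crest.Agent.S0170

section comp
variable {α : Type*} [Primcodable α]

theorem eff1_cnat_add {f g : α → ℕ} (hf : Computable f) (hg : Computable g) :
    Computable (fun a => f a + g a) := Primrec.nat_add.to_comp.comp hf hg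

theorem eff1_cnat_mul {f g : α → ℕ} (hf : Computable f) (hg : Computable g) :
    Computable (fun a => f a * g a) := Primrec.nat_mul.to_comp.comp hf hg

theorem eff1_cnat_sub {f g : α → ℕ} (hf : Computable f) (hg : Computable g) :
    Computable (fun a => f a - g a) := Primrec.nat_sub.to_comp.comp hf hg

theorem eff1_cnat_div {f g : α → ℕ} (hf : Computable f) (hg : Computable g) :
    Computable (fun a => f a / g a) := Primrec.nat_div.to_comp.comp hf hg

theorem eff1_cnat_succ {f : α → ℕ} (hf : Computable f) :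
    Computable (fun a => f a + 1) := Computable.succ.comp hf

theorem eff1_cnat_pow {f g : α → ℕ} (hf : Computable f) (hg : Computable g) :
    Computable (fun a => f a ^ g a) :=
  (Computable.nat_rec (h := fun a p => p.2 * f a) hg (Computable.const 1)
    (eff1_cnat_mul (Computable.snd.comp Computable.snd) (hf.comp Computable.fst))).of_eq
    (fun a => by
      generalize g a = k
      induction k with
      | zero => simp
      | succ k ih => rw [pow_succ, ← ih])

theorem eff1_cnat_factorial {f : α → ℕ} (hf : Computable f) :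
    Computable (fun a => (f a).factorial) :=
  (Computable.nat_rec (h := fun _ p => (p.1 + 1) * p.2) hf (Computable.const 1)
    (eff1_cnat_mul (eff1_cnat_succ (Computable.fst.comp Computable.snd))
      (Computable.snd.comp Computable.snd))).of_eq
    (fun b => by
      generalize f b = k
      induction k with
      | zero => simp
      | succ k ih => rw [Nat.factorial_succ, ← ih])

theorem eff1_cnat_descFactorial {f g : α → ℕ} (hf : Computable f) (hg : Computable g) :
    Computable (fun a => (f a).descFactorial (g a)) :=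
  (Computable.nat_rec (h := fun a p => (f a - p.1) * p.2) hg (Computable.const 1)
    (eff1_cnat_mul (eff1_cnat_sub (hf.comp Computable.fst) (Computable.fst.comp Computable.snd))
      (Computable.snd.comp Computable.snd))).of_eq
    (fun a => by
      generalize g a = k
      induction k with
      | zero => simp
      | succ k ih => rw [Nat.descFactorial_succ, ← ih])

theorem eff1_cnat_choose {f g : α → ℕ} (hf : Computable f) (hg : Computable g) :
    Computable (fun a => (f a).choose (g a)) :=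
  (eff1_cnat_div (eff1_cnat_descFactorial hf hg) (eff1_cnat_factorial hg)).of_eq
    (fun _ => (Nat.choose_eq_descFactorial_div_factorial _ _).symm)

theorem eff1_computable_sum_range {σ : Type*} [Primcodable σ] [AddCommMonoid σ]
    (hadd : Computable₂ (fun a b : σ => a + b)) {G : α → ℕ → σ} (hG : Computable₂ G)
    {m : α → ℕ} (hm : Computable m) :
    Computable (fun a => ∑ i ∈ Finset.range (m a), G a i) :=
  (Computable.nat_rec (h := fun a p => p.2 + G a p.1) hm (Computable.const 0)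
    (hadd.comp (Computable.snd.comp Computable.snd)
      (hG.comp Computable.fst (Computable.fst.comp Computable.snd)))).of_eq
    (fun a => by
      generalize m a = k
      induction k with
      | zero => simp
      | succ k ih => rw [Finset.sum_range_succ, ← ih])

theorem eff1_cnat_sum_range {G : α → ℕ → ℕ} (hG : Computable₂ G) {m : α → ℕ} (hm : Computable m) :
    Computable (fun a => ∑ i ∈ Finset.range (m a), G a i) :=
  eff1_computable_sum_range Primrec.nat_add.to_comp hG hm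

end comp


/-! ### Numerical differentiation -/

theorem eff1_differentiable_iteratedDeriv {f : ℝ → ℝ} (hf : ContDiff ℝ ∞ f) (k : ℕ) :
    Differentiable ℝ (iteratedDeriv k f) :=
  hf.differentiable_iteratedDeriv k (by exact_mod_cast ENat.natCast_lt_top k)

theorem eff1_contDiffAt {f : ℝ → ℝ} (hf : ContDiff ℝ ∞ f) (k : ℕ) (x : ℝ) :
    ContDiffAt ℝ k f x :=
  hf.contDiffAt.of_le (by exact_mod_cast le_top)

/-- Mean value theorem for iterated forward differences. -/
theorem eff1_fwdDiff_mvt (k : ℕ) : ∀ (f : ℝ → ℝ), ContDiff ℝ ∞ f → ∀ (h : ℝ), 0 < h → ∀ x : ℝ,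
    ∃ ξ ∈ Set.Icc x (x + k * h), (fwdDiff h)^[k] f x = h ^ k * iteratedDeriv k f ξ := by
  induction k with
  | zero => intro f hf h hh x; exact ⟨x, by simp, by simp⟩
  | succ k ih =>
    intro f hf h hh x
    have hsh : ContDiff ℝ ∞ (fun z => f (z + h)) := hf.comp (contDiff_id.add contDiff_const)
    have hg : ContDiff ℝ ∞ (fwdDiff h f) := hsh.sub hf
    obtain ⟨ξ, hξ, hξe⟩ := ih (fwdDiff h f) hg h hh x
    have h1 : iteratedDeriv k (fwdDiff h f) ξ = iteratedDeriv k f (ξ + h) - iteratedDeriv k f ξ := by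
      have : fwdDiff h f = (fun z => f (z + h)) - f := rfl
      rw [this, iteratedDeriv_sub (eff1_contDiffAt hsh k ξ) (eff1_contDiffAt hf k ξ),
        iteratedDeriv_comp_add_const]
    have hd := eff1_differentiable_iteratedDeriv hf k
    obtain ⟨η, hη, hηe⟩ := exists_deriv_eq_slope (iteratedDeriv k f) (a := ξ) (b := ξ + h)
      (by linarith) hd.continuous.continuousOn hd.differentiableOn
    refine ⟨η, ⟨by linarith [hξ.1, hη.1], ?_⟩, ?_⟩
    · have := hξ.2; have := hη.2; push_cast; linarith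
    · have hne : h ≠ 0 := hh.ne'
      rw [Function.iterate_succ_apply, hξe, h1, iteratedDeriv_succ, hηe, add_sub_cancel_left]
      field_simp
      ring

/-- Numerical differentiation: the scaled `k`-th forward difference approximates the `k`-th
derivative with error at most `k * h * sup |f^(k+1)|`. -/
theorem eff1_fwdDiff_approx {f : ℝ → ℝ} (hf : ContDiff ℝ ∞ f) (k : ℕ) {h : ℝ} (hh : 0 < h)
    {C : ℝ} (hC : ∀ y, |iteratedDeriv (k + 1) f y| ≤ C) (x : ℝ) :
    |iteratedDeriv k f x - (fwdDiff h)^[k] f x / h ^ k| ≤ k * h * C := by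
  obtain ⟨ξ, hξ, hξe⟩ := eff1_fwdDiff_mvt k f hf h hh x
  have hhk : (h ^ k) ≠ 0 := (pow_pos hh k).ne'
  rw [hξe, mul_div_cancel_left₀ _ hhk]
  have hd := eff1_differentiable_iteratedDeriv hf k
  have hC0 : 0 ≤ C := le_trans (abs_nonneg _) (hC 0)
  rcases eq_or_lt_of_le hξ.1 with heq | hlt
  · rw [← heq]; simp
    positivity
  · obtain ⟨η, hη, hηe⟩ := exists_deriv_eq_slope (iteratedDeriv k f) (a := x) (b := ξ)
      hlt hd.continuous.continuousOn hd.differentiableOn
    rw [← iteratedDeriv_succ] at hηe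
    have h2 : iteratedDeriv k f ξ - iteratedDeriv k f x = iteratedDeriv (k + 1) f η * (ξ - x) := by
      rw [hηe]; field_simp [sub_ne_zero.mpr hlt.ne']
    rw [abs_sub_comm, h2, abs_mul, abs_of_pos (sub_pos.mpr hlt)]
    have h3 : ξ - x ≤ k * h := by linarith [hξ.2]
    calc |iteratedDeriv (k + 1) f η| * (ξ - x) ≤ C * (k * h) :=
          mul_le_mul (hC η) h3 (sub_pos.mpr hlt).le hC0
      _ = k * h * C := by ring


/-! ### The classes -/

/-- Computable rational approximations of the values of `f` at rational points. -/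
def EffV (f : ℝ → ℝ) : Prop :=
  ∃ a : ℚ × ℕ → ℚ, Computable a ∧
    ∀ (q : ℚ) (n : ℕ), |f (q : ℝ) - (a (q, n) : ℝ)| ≤ 1 / ((n : ℝ) + 1)

/-- Computable global bounds for all derivatives of `f`. -/
def EffB (f : ℝ → ℝ) : Prop :=
  ∃ B : ℕ → ℕ, Computable B ∧ ∀ (k : ℕ) (x : ℝ), |iteratedDeriv k f x| ≤ (B k : ℝ)

theorem Eff1.contDiff {f : ℝ → ℝ} (h : Eff1 f) : ContDiff ℝ ∞ f := h.1

theorem Eff1.effB {f : ℝ → ℝ} (h : Eff1 f) : EffB f := by
  obtain ⟨_, A, B, _, hB, _, hb⟩ := h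
  exact ⟨B, hB, hb⟩

theorem Eff1.effV {f : ℝ → ℝ} (h : Eff1 f) : EffV f := by
  obtain ⟨_, A, B, hA, _, ha, _⟩ := h
  refine ⟨fun p => A (0, p.1, p.2), ?_, fun q n => ?_⟩
  · exact hA.comp ((Computable.const 0).pair (Computable.fst.pair Computable.snd))
  · simpa using ha 0 q n

/-- **Numerical differentiation**: computable approximations of the *values* at rational points
plus computable bounds of all derivatives give computable approximations of all derivatives. -/
theorem eff1_of_values {f : ℝ → ℝ} (hf : ContDiff ℝ ∞ f) (hV : EffV f) (hB : EffB f) :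
    Eff1 f := by
  obtain ⟨a, ha, hav⟩ := hV
  obtain ⟨B, hBc, hBb⟩ := hB
  let m : ℕ × ℚ × ℕ → ℕ := fun p => 2 * (p.2.2 + 1) * (p.1 * B (p.1 + 1)) + 1
  let n2 : ℕ × ℚ × ℕ → ℕ := fun p => 2 * (p.2.2 + 1) * (2 * m p) ^ p.1
  let G : ℕ × ℚ × ℕ → ℕ → ℚ := fun p j =>
    ((-1 : ℚ) ^ (p.1 - j) * ((p.1.choose j : ℕ) : ℚ)) *
      a (p.2.1 + ((j : ℕ) : ℚ) * ((m p : ℕ) : ℚ)⁻¹, n2 p)
  let A : ℕ × ℚ × ℕ → ℚ := fun p =>
    ((m p ^ p.1 : ℕ) : ℚ) * ∑ j ∈ Finset.range (p.1 + 1), G p j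
  have hm : Computable m :=
    eff1_cnat_succ (eff1_cnat_mul
      (eff1_cnat_mul (Computable.const 2) (eff1_cnat_succ (Computable.snd.comp Computable.snd)))
      (eff1_cnat_mul Computable.fst (hBc.comp (eff1_cnat_succ Computable.fst))))
  have hn2 : Computable n2 :=
    eff1_cnat_mul
      (eff1_cnat_mul (Computable.const 2) (eff1_cnat_succ (Computable.snd.comp Computable.snd)))
      (eff1_cnat_pow (eff1_cnat_mul (Computable.const 2) hm) Computable.fst)
  have hG : Computable₂ G := by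
    have h1 : Computable (fun x : (ℕ × ℚ × ℕ) × ℕ => x.1.1) := Computable.fst.comp Computable.fst
    have h2 : Computable (fun x : (ℕ × ℚ × ℕ) × ℕ => x.2) := Computable.snd
    have h3 : Computable (fun x : (ℕ × ℚ × ℕ) × ℕ => x.1.2.1) :=
      Computable.fst.comp (Computable.snd.comp Computable.fst)
    exact qmul
      (qmul (qpow (Computable.const (-1)) (eff1_cnat_sub h1 h2))
        (qofNat (eff1_cnat_choose h1 h2)))
      (ha.comp ((qadd h3 (qmul (qofNat h2)
        (qinv (qofNat (hm.comp Computable.fst))))).pair (hn2.comp Computable.fst)))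
  have hA : Computable A :=
    qmul (qofNat (eff1_cnat_pow hm Computable.fst))
      (qsum hG (eff1_cnat_succ Computable.fst))
  refine ⟨hf, A, B, hA, hBc, ?_, hBb⟩
  intro k q n
  have hMdef : m (k, q, n) = 2 * (n + 1) * (k * B (k + 1)) + 1 := rfl
  have hN2def : n2 (k, q, n) = 2 * (n + 1) * (2 * m (k, q, n)) ^ k := rfl
  have hAdef : A (k, q, n) = ((m (k, q, n) ^ k : ℕ) : ℚ) * ∑ j ∈ Finset.range (k + 1),
      ((-1 : ℚ) ^ (k - j) * ((k.choose j : ℕ) : ℚ)) *
        a (q + ((j : ℕ) : ℚ) * ((m (k, q, n) : ℕ) : ℚ)⁻¹, n2 (k, q, n)) := rfl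
  generalize m (k, q, n) = M at hMdef hN2def hAdef
  generalize n2 (k, q, n) = N2 at hN2def hAdef
  have hMeq : (M : ℝ) = 2 * ((n : ℝ) + 1) * ((k : ℝ) * (B (k + 1) : ℝ)) + 1 := by
    rw [hMdef]; push_cast; ring
  have hN2eq : (N2 : ℝ) = 2 * ((n : ℝ) + 1) * (2 * (M : ℝ)) ^ k := by
    rw [hN2def]; push_cast; ring
  have hn1 : (0 : ℝ) < (n : ℝ) + 1 := by positivity
  have hkB : (0 : ℝ) ≤ (k : ℝ) * (B (k + 1) : ℝ) := by positivity
  have hMpos : (0 : ℝ) < M := by rw [hMeq]; positivity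
  have hh : (0 : ℝ) < (M : ℝ)⁻¹ := inv_pos.mpr hMpos
  have e1 := eff1_fwdDiff_approx hf k hh (hBb (k + 1)) (q : ℝ)
  have e1' : (k : ℝ) * (M : ℝ)⁻¹ * (B (k + 1) : ℝ) ≤ 1 / (2 * ((n : ℝ) + 1)) := by
    rw [le_div_iff₀ (by positivity)]
    have h3 : (k : ℝ) * (B (k + 1) : ℝ) * (2 * ((n : ℝ) + 1)) ≤ M := by rw [hMeq]; nlinarith
    calc (k : ℝ) * (M : ℝ)⁻¹ * (B (k + 1) : ℝ) * (2 * ((n : ℝ) + 1))
        = ((k : ℝ) * (B (k + 1) : ℝ) * (2 * ((n : ℝ) + 1))) * (M : ℝ)⁻¹ := by ring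
      _ ≤ M * (M : ℝ)⁻¹ := by gcongr
      _ = 1 := mul_inv_cancel₀ hMpos.ne'
  have e2 : |(fwdDiff (M : ℝ)⁻¹)^[k] f q / ((M : ℝ)⁻¹) ^ k - (A (k, q, n) : ℝ)|
      ≤ 1 / (2 * ((n : ℝ) + 1)) := by
    rw [fwdDiff_iter_eq_sum_shift]
    have hA : (A (k, q, n) : ℝ) = (M : ℝ) ^ k * ∑ j ∈ Finset.range (k + 1),
        ((-1 : ℝ) ^ (k - j) * (k.choose j : ℝ)) *
          (a (q + ((j : ℕ) : ℚ) * ((M : ℕ) : ℚ)⁻¹, N2) : ℝ) := by
      rw [hAdef]; push_cast; rfl
    rw [hA]
    have hdiv : ∀ S : ℝ, S / ((M : ℝ)⁻¹) ^ k = (M : ℝ) ^ k * S := by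
      intro S; rw [inv_pow, div_inv_eq_mul, mul_comm]
    rw [hdiv, ← mul_sub, ← Finset.sum_sub_distrib, abs_mul, abs_of_nonneg (by positivity)]
    have hterm : ∀ j ∈ Finset.range (k + 1),
        |((-1 : ℤ) ^ (k - j) * (k.choose j : ℤ)) • f ((q : ℝ) + j • (M : ℝ)⁻¹) -
          ((-1 : ℝ) ^ (k - j) * (k.choose j : ℝ)) *
            (a (q + ((j : ℕ) : ℚ) * ((M : ℕ) : ℚ)⁻¹, N2) : ℝ)|
          ≤ (k.choose j : ℝ) * (1 / ((N2 : ℝ) + 1)) := by
      intro j _
      have hpt : (q : ℝ) + j • (M : ℝ)⁻¹ = ((q + ((j : ℕ) : ℚ) * ((M : ℕ) : ℚ)⁻¹ : ℚ) : ℝ) := by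
        push_cast; simp
      have hc : (((-1 : ℤ) ^ (k - j) * (k.choose j : ℤ) : ℤ) : ℝ)
          = (-1 : ℝ) ^ (k - j) * (k.choose j : ℝ) := by push_cast; rfl
      rw [hpt, zsmul_eq_mul, hc]
      rw [← mul_sub, abs_mul, abs_mul, abs_pow, abs_neg, abs_one, one_pow, one_mul, Nat.abs_cast]
      exact mul_le_mul_of_nonneg_left (hav _ _) (Nat.cast_nonneg _)
    calc (M : ℝ) ^ k * |∑ j ∈ Finset.range (k + 1),
          (((-1 : ℤ) ^ (k - j) * (k.choose j : ℤ)) • f ((q : ℝ) + j • (M : ℝ)⁻¹) -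
          ((-1 : ℝ) ^ (k - j) * (k.choose j : ℝ)) *
            (a (q + ((j : ℕ) : ℚ) * ((M : ℕ) : ℚ)⁻¹, N2) : ℝ))|
        ≤ (M : ℝ) ^ k * ∑ j ∈ Finset.range (k + 1), (k.choose j : ℝ) * (1 / ((N2 : ℝ) + 1)) := by
          gcongr
          exact (Finset.abs_sum_le_sum_abs _ _).trans (Finset.sum_le_sum hterm)
      _ = (M : ℝ) ^ k * (2 : ℝ) ^ k * (1 / ((N2 : ℝ) + 1)) := by
          rw [← Finset.sum_mul, ← Nat.cast_sum, Nat.sum_range_choose]; push_cast; ring
      _ ≤ 1 / (2 * ((n : ℝ) + 1)) := by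
          have hpk : (0 : ℝ) < (M : ℝ) ^ k * (2 : ℝ) ^ k := by positivity
          rw [hN2eq, mul_one_div, div_le_div_iff₀ (by positivity) (by positivity), mul_pow]
          nlinarith
  calc |iteratedDeriv k f (q : ℝ) - (A (k, q, n) : ℝ)|
      ≤ |iteratedDeriv k f (q : ℝ) - (fwdDiff (M : ℝ)⁻¹)^[k] f q / ((M : ℝ)⁻¹) ^ k| +
        |(fwdDiff (M : ℝ)⁻¹)^[k] f q / ((M : ℝ)⁻¹) ^ k - (A (k, q, n) : ℝ)| := abs_sub_le _ _ _
    _ ≤ 1 / (2 * ((n : ℝ) + 1)) + 1 / (2 * ((n : ℝ) + 1)) := add_le_add (e1.trans e1') e2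
    _ = 1 / ((n : ℝ) + 1) := by field_simp; ring

/-! ### Precision bookkeeping -/

/-- If `C ≤ K` then an error `C / ((n+1)K + 1)` is at most `1/(n+1)`. -/
theorem eff1_prec {C : ℝ} {K : ℕ} (n : ℕ) (hC : C ≤ K) :
    C * (1 / ((((n + 1) * K : ℕ) : ℝ) + 1)) ≤ 1 / ((n : ℝ) + 1) := by
  have hn : (0 : ℝ) < (n : ℝ) + 1 := by positivity
  have hK : (0 : ℝ) ≤ (K : ℝ) := Nat.cast_nonneg K
  rw [mul_one_div, div_le_div_iff₀ (by push_cast; positivity) hn]
  push_cast
  nlinarith

theorem eff1_abs_le_numNatAbs (q : ℚ) : |q| ≤ (q.num.natAbs : ℚ) := by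
  have h1 : (q.num : ℚ) / (q.den : ℚ) = q := Rat.num_div_den q
  have hd : (1 : ℚ) ≤ (q.den : ℚ) := by exact_mod_cast q.den_pos
  have h2 : (q.num.natAbs : ℚ) = |(q.num : ℚ)| := by
    rw [Nat.cast_natAbs, Int.cast_abs]
  rw [h2]
  conv_lhs => rw [← h1]
  rw [abs_div, abs_of_pos (by linarith : (0 : ℚ) < (q.den : ℚ))]
  exact div_le_self (abs_nonneg _) hd

/-! ### Closure of `EffV` -/

theorem effV_of_eq {f g : ℝ → ℝ} (hf : EffV f) (h : ∀ x, f x = g x) : EffV g := by
  have : f = g := funext h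
  rwa [← this]

theorem effV_const (c : ℚ) : EffV (fun _ => (c : ℝ)) :=
  ⟨fun _ => c, Computable.const c, fun q n => by simp; positivity⟩

theorem effV_id : EffV (fun x => x) :=
  ⟨fun p => p.1, Computable.fst, fun q n => by simp; positivity⟩

/-- Reparametrising the precision: `p ↦ (p.1, (p.2 + 1) * K p.1)`. -/
theorem eff1_computable_prec {K : ℚ → ℕ} (hK : Computable K) :
    Computable (fun p : ℚ × ℕ => (p.1, (p.2 + 1) * K p.1)) :=
  Computable.fst.pair (eff1_cnat_mul (eff1_cnat_succ Computable.snd) (hK.comp Computable.fst))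

theorem effV_add {f g : ℝ → ℝ} (hf : EffV f) (hg : EffV g) : EffV (fun x => f x + g x) := by
  obtain ⟨a, ha, hav⟩ := hf
  obtain ⟨b, hb, hbv⟩ := hg
  have hp := eff1_computable_prec (K := fun _ => 2) (Computable.const 2)
  refine ⟨fun p => a (p.1, (p.2 + 1) * 2) + b (p.1, (p.2 + 1) * 2),
    qadd (ha.comp hp) (hb.comp hp), fun q n => ?_⟩
  have h1 := hav q ((n + 1) * 2)
  have h2 := hbv q ((n + 1) * 2)
  have h3 := eff1_prec (C := 2) (K := 2) n (by norm_num)
  push_cast at h1 h2 h3 ⊢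
  calc |f q + g q - ((a (q, (n + 1) * 2) : ℝ) + (b (q, (n + 1) * 2) : ℝ))|
      = |(f q - (a (q, (n + 1) * 2) : ℝ)) + (g q - (b (q, (n + 1) * 2) : ℝ))| := by ring_nf
    _ ≤ |f q - (a (q, (n + 1) * 2) : ℝ)| + |g q - (b (q, (n + 1) * 2) : ℝ)| := abs_add_le _ _
    _ ≤ 2 * (1 / (((n : ℝ) + 1) * 2 + 1)) := by linarith
    _ ≤ 1 / ((n : ℝ) + 1) := h3

theorem effV_neg {f : ℝ → ℝ} (hf : EffV f) : EffV (fun x => - f x) := by
  obtain ⟨a, ha, hav⟩ := hf
  refine ⟨fun p => - a p, qneg ha, fun q n => ?_⟩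
  have h1 := hav q n
  push_cast
  rw [show - f q - - (a (q, n) : ℝ) = - (f q - (a (q, n) : ℝ)) by ring, abs_neg]
  exact h1

theorem effV_sub {f g : ℝ → ℝ} (hf : EffV f) (hg : EffV g) : EffV (fun x => f x - g x) :=
  effV_of_eq (effV_add hf (effV_neg hg)) (fun x => by ring)

theorem effV_const_mul (c : ℚ) {f : ℝ → ℝ} (hf : EffV f) : EffV (fun x => (c : ℝ) * f x) := by
  obtain ⟨a, ha, hav⟩ := hf
  have hp := eff1_computable_prec (K := fun _ => ⌈|c|⌉₊) (Computable.const _)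
  refine ⟨fun p => c * a (p.1, (p.2 + 1) * ⌈|c|⌉₊),
    qmul (Computable.const c) (ha.comp hp), fun q n => ?_⟩
  have h1 := hav q ((n + 1) * ⌈|c|⌉₊)
  have hc : |(c : ℝ)| ≤ (⌈|c|⌉₊ : ℝ) := by
    have : |c| ≤ ((⌈|c|⌉₊ : ℕ) : ℚ) := Nat.le_ceil _
    exact_mod_cast this
  have h3 := eff1_prec n hc
  push_cast
  rw [← mul_sub, abs_mul]
  exact le_trans (mul_le_mul_of_nonneg_left h1 (abs_nonneg _)) h3

theorem effV_mul {f g : ℝ → ℝ} (hf : EffV f) (hg : EffV g) : EffV (fun x => f x * g x) := by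
  obtain ⟨a, ha, hav⟩ := hf
  obtain ⟨b, hb, hbv⟩ := hg
  let K : ℚ → ℕ := fun q => (a (q, 0)).num.natAbs + (b (q, 0)).num.natAbs + 3
  have hq0 : Computable (fun q : ℚ => (q, (0 : ℕ))) := Computable.id.pair (Computable.const 0)
  have hK : Computable K :=
    eff1_cnat_add (eff1_cnat_add (qnumNatAbs (ha.comp hq0)) (qnumNatAbs (hb.comp hq0)))
      (Computable.const 3)
  have hp := eff1_computable_prec hK
  refine ⟨fun p => a (p.1, (p.2 + 1) * K p.1) * b (p.1, (p.2 + 1) * K p.1),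
    qmul (ha.comp hp) (hb.comp hp), fun q n => ?_⟩
  have h1 := hav q ((n + 1) * K q)
  have h2 := hbv q ((n + 1) * K q)
  have ha0 := hav q 0
  have hb0 := hbv q 0
  have hna : |(a (q, 0) : ℝ)| ≤ ((a (q, 0)).num.natAbs : ℝ) := by
    have := eff1_abs_le_numNatAbs (a (q, 0))
    exact_mod_cast this
  have hnb : |(b (q, 0) : ℝ)| ≤ ((b (q, 0)).num.natAbs : ℝ) := by
    have := eff1_abs_le_numNatAbs (b (q, 0))
    exact_mod_cast this
  set ε : ℝ := 1 / ((((n + 1) * K q : ℕ) : ℝ) + 1) with hε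
  have hε0 : 0 ≤ ε := by rw [hε]; positivity
  have hε1 : ε ≤ 1 := by
    rw [hε, div_le_one (by positivity)]
    have : (0 : ℝ) ≤ (((n + 1) * K q : ℕ) : ℝ) := Nat.cast_nonneg _
    linarith
  simp only [Nat.cast_zero, zero_add, div_one] at ha0 hb0
  have hf1 : |f q| ≤ ((a (q, 0)).num.natAbs : ℝ) + 1 := by
    have := abs_sub_abs_le_abs_sub (f q) (a (q, 0) : ℝ)
    linarith
  have hg1 : |g q| ≤ ((b (q, 0)).num.natAbs : ℝ) + 1 := by
    have := abs_sub_abs_le_abs_sub (g q) (b (q, 0) : ℝ)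
    linarith
  have hb1 : |(b (q, (n + 1) * K q) : ℝ)| ≤ ((b (q, 0)).num.natAbs : ℝ) + 2 := by
    have := abs_sub_abs_le_abs_sub (b (q, (n + 1) * K q) : ℝ) (g q)
    rw [abs_sub_comm] at this
    linarith
  have hKq : ((K q : ℕ) : ℝ) = ((a (q, 0)).num.natAbs : ℝ) + ((b (q, 0)).num.natAbs : ℝ) + 3 := by
    simp only [K]; push_cast; ring
  have h3 := eff1_prec (C := (K q : ℝ)) (K := K q) n le_rfl
  rw [← hε] at h3
  push_cast
  calc |f q * g q - (a (q, (n + 1) * K q) : ℝ) * (b (q, (n + 1) * K q) : ℝ)|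
      = |f q * (g q - (b (q, (n + 1) * K q) : ℝ)) +
          (b (q, (n + 1) * K q) : ℝ) * (f q - (a (q, (n + 1) * K q) : ℝ))| := by ring_nf
    _ ≤ |f q| * |g q - (b (q, (n + 1) * K q) : ℝ)| +
          |(b (q, (n + 1) * K q) : ℝ)| * |f q - (a (q, (n + 1) * K q) : ℝ)| := by
        rw [← abs_mul, ← abs_mul]; exact abs_add_le _ _
    _ ≤ (((a (q, 0)).num.natAbs : ℝ) + 1) * ε + (((b (q, 0)).num.natAbs : ℝ) + 2) * ε := by
        apply add_le_add
        · exact mul_le_mul hf1 h2 (abs_nonneg _) (by positivity)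
        · exact mul_le_mul hb1 h1 (abs_nonneg _) (by positivity)
    _ = (K q : ℝ) * ε := by rw [hKq]; ring
    _ ≤ 1 / ((n : ℝ) + 1) := h3

theorem effV_comp_affine (α β : ℚ) {f : ℝ → ℝ} (hf : EffV f) :
    EffV (fun x => f ((α : ℝ) * x + β)) := by
  obtain ⟨a, ha, hav⟩ := hf
  refine ⟨fun p => a (α * p.1 + β, p.2), ha.comp
    ((qadd (qmul (Computable.const α) Computable.fst) (Computable.const β)).pair Computable.snd),
    fun q n => ?_⟩
  have h1 := hav (α * q + β) n
  push_cast at h1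
  exact h1

/-! ### Closure of `EffB` -/

theorem effB_of_eq {f g : ℝ → ℝ} (hf : EffB f) (h : ∀ x, f x = g x) : EffB g := by
  have : f = g := funext h
  rwa [← this]

theorem effB_const (c : ℝ) : EffB (fun _ => c) := by
  refine ⟨fun _ => ⌈|c|⌉₊, Computable.const _, fun k x => ?_⟩
  rw [iteratedDeriv_const]
  split_ifs
  · exact Nat.le_ceil _
  · simp

theorem effB_add {f g : ℝ → ℝ} (hf : ContDiff ℝ ∞ f) (hg : ContDiff ℝ ∞ g) (hfB : EffB f)
    (hgB : EffB g) : EffB (fun x => f x + g x) := by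
  obtain ⟨B, hB, hb⟩ := hfB
  obtain ⟨C, hC, hc⟩ := hgB
  refine ⟨fun k => B k + C k, eff1_cnat_add hB hC, fun k x => ?_⟩
  rw [iteratedDeriv_fun_add (eff1_contDiffAt hf k x) (eff1_contDiffAt hg k x)]
  push_cast
  exact (abs_add_le _ _).trans (add_le_add (hb k x) (hc k x))

theorem effB_neg {f : ℝ → ℝ} (hfB : EffB f) : EffB (fun x => - f x) := by
  obtain ⟨B, hB, hb⟩ := hfB
  exact ⟨B, hB, fun k x => by rw [iteratedDeriv_fun_neg, abs_neg]; exact hb k x⟩

theorem effB_sub {f g : ℝ → ℝ} (hf : ContDiff ℝ ∞ f) (hg : ContDiff ℝ ∞ g) (hfB : EffB f)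
    (hgB : EffB g) : EffB (fun x => f x - g x) :=
  effB_of_eq (effB_add hf hg.neg hfB (effB_neg hgB)) (fun x => by ring)

theorem effB_const_mul (c : ℝ) {f : ℝ → ℝ} (hfB : EffB f) : EffB (fun x => c * f x) := by
  obtain ⟨B, hB, hb⟩ := hfB
  refine ⟨fun k => ⌈|c|⌉₊ * B k, eff1_cnat_mul (Computable.const _) hB, fun k x => ?_⟩
  rw [iteratedDeriv_const_mul_field, abs_mul]
  push_cast
  exact mul_le_mul (Nat.le_ceil _) (hb k x) (abs_nonneg _) (Nat.cast_nonneg _)

/-- Leibniz bound at a point. -/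
theorem eff1_leibniz_bound {f g : ℝ → ℝ} (hf : ContDiff ℝ ∞ f) (hg : ContDiff ℝ ∞ g) (k : ℕ)
    (x : ℝ) {Bf Bg : ℕ → ℕ} (hfx : ∀ i, |iteratedDeriv i f x| ≤ Bf i)
    (hgx : ∀ i, |iteratedDeriv i g x| ≤ Bg i) :
    |iteratedDeriv k (fun y => f y * g y) x|
      ≤ ((∑ i ∈ Finset.range (k + 1), k.choose i * Bf i * Bg (k - i) : ℕ) : ℝ) := by
  rw [iteratedDeriv_fun_mul (eff1_contDiffAt hf k x) (eff1_contDiffAt hg k x)]
  push_cast
  refine (Finset.abs_sum_le_sum_abs _ _).trans (Finset.sum_le_sum fun i _ => ?_)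
  rw [abs_mul, abs_mul, Nat.abs_cast]
  exact mul_le_mul (mul_le_mul_of_nonneg_left (hfx i) (Nat.cast_nonneg _)) (hgx _)
    (abs_nonneg _) (by positivity)

theorem eff1_computable_leibniz {Bf Bg : ℕ → ℕ} (hBf : Computable Bf) (hBg : Computable Bg) :
    Computable (fun k => ∑ i ∈ Finset.range (k + 1), k.choose i * Bf i * Bg (k - i)) :=
  eff1_cnat_sum_range (G := fun k i => k.choose i * Bf i * Bg (k - i))
    (eff1_cnat_mul (eff1_cnat_mul (eff1_cnat_choose Computable.fst Computable.snd)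
      (hBf.comp Computable.snd)) (hBg.comp (eff1_cnat_sub Computable.fst Computable.snd)))
    (eff1_cnat_succ Computable.id)

theorem effB_mul {f g : ℝ → ℝ} (hf : ContDiff ℝ ∞ f) (hg : ContDiff ℝ ∞ g) (hfB : EffB f)
    (hgB : EffB g) : EffB (fun x => f x * g x) := by
  obtain ⟨B, hB, hb⟩ := hfB
  obtain ⟨C, hC, hc⟩ := hgB
  exact ⟨_, eff1_computable_leibniz hB hC,
    fun k x => eff1_leibniz_bound hf hg k x (fun i => hb i x) (fun i => hc i x)⟩

theorem effB_comp_affine {f : ℝ → ℝ} (hf : ContDiff ℝ ∞ f) (α β : ℝ) (hfB : EffB f) :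
    EffB (fun x => f (α * x + β)) := by
  obtain ⟨B, hB, hb⟩ := hfB
  refine ⟨fun k => ⌈|α|⌉₊ ^ k * B k,
    eff1_cnat_mul (eff1_cnat_pow (Computable.const _) Computable.id) hB, fun k x => ?_⟩
  have hsh : ContDiff ℝ ∞ (fun z => f (z + β)) := hf.comp (contDiff_id.add contDiff_const)
  have h1 : iteratedDeriv k (fun x => f (α * x + β)) x = α ^ k * iteratedDeriv k f (α * x + β) := by
    have h2 := iteratedDeriv_comp_const_mul (n := k) (f := fun z => f (z + β))
      (hsh.of_le (by exact_mod_cast le_top)) α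
    have h3 := congrFun h2 x
    rw [iteratedDeriv_comp_add_const] at h3
    exact h3
  rw [h1, abs_mul, abs_pow]
  push_cast
  exact mul_le_mul (pow_le_pow_left₀ (abs_nonneg _) (Nat.le_ceil _) k) (hb k _)
    (abs_nonneg _) (by positivity)

theorem effB_deriv {f : ℝ → ℝ} (hfB : EffB f) : EffB (deriv f) := by
  obtain ⟨B, hB, hb⟩ := hfB
  exact ⟨fun k => B (k + 1), hB.comp (eff1_cnat_succ Computable.id),
    fun k x => by rw [← iteratedDeriv_succ']; exact hb (k + 1) x⟩

/-- Product of a locally bounded smooth function with a compactly supported `EffB` function. -/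
theorem effB_mul_local {f g : ℝ → ℝ} (hf : ContDiff ℝ ∞ f) (hg : ContDiff ℝ ∞ g) (R : ℝ)
    (hsupp : ∀ x, R < |x| → g x = 0) {Bf : ℕ → ℕ} (hBf : Computable Bf)
    (hfb : ∀ k x, |x| ≤ R → |iteratedDeriv k f x| ≤ Bf k) (hgB : EffB g) :
    EffB (fun x => f x * g x) := by
  obtain ⟨C, hC, hc⟩ := hgB
  refine ⟨_, eff1_computable_leibniz hBf hC, fun k x => ?_⟩
  rcases le_or_gt |x| R with hx | hx
  · exact eff1_leibniz_bound hf hg k x (fun i => hfb i x hx) (fun i => hc i x)
  · have hev : (fun y => f y * g y) =ᶠ[nhds x] (fun _ => (0 : ℝ)) := by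
      have hopen : IsOpen {y : ℝ | R < |y|} := isOpen_lt continuous_const continuous_abs
      filter_upwards [hopen.mem_nhds hx] with y hy
      rw [hsupp y hy, mul_zero]
    rw [hev.iteratedDeriv_eq k, iteratedDeriv_const]
    simp only [ite_self, abs_zero]
    positivity

theorem effB_id_mul {g : ℝ → ℝ} (hg : ContDiff ℝ ∞ g) (R : ℕ)
    (hsupp : ∀ x, (R : ℝ) < |x| → g x = 0) (hgB : EffB g) : EffB (fun x => x * g x) := by
  refine effB_mul_local (f := fun x => x) contDiff_id hg R hsupp (Bf := fun _ => R + 1)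
    (Computable.const _) (fun k x hx => ?_) hgB
  rw [iteratedDeriv_fun_id]
  have hR : (0 : ℝ) ≤ R := Nat.cast_nonneg R
  push_cast
  split_ifs
  · linarith
  · rw [abs_one]; linarith
  · rw [abs_zero]; linarith

/-! ### Closure of `Eff1` -/

theorem eff1_iff {f : ℝ → ℝ} : Eff1 f ↔ ContDiff ℝ ∞ f ∧ EffV f ∧ EffB f :=
  ⟨fun h => ⟨h.contDiff, h.effV, h.effB⟩, fun h => eff1_of_values h.1 h.2.1 h.2.2⟩

theorem eff1_of_eq {f g : ℝ → ℝ} (hf : Eff1 f) (h : ∀ x, f x = g x) : Eff1 g := by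
  have : f = g := funext h
  rwa [← this]

theorem eff1_const (c : ℚ) : Eff1 (fun _ => (c : ℝ)) :=
  eff1_of_values contDiff_const (effV_const c) (effB_const c)

theorem eff1_zero : Eff1 (fun _ => (0 : ℝ)) := by
  simpa using eff1_const 0

theorem eff1_add {f g : ℝ → ℝ} (hf : Eff1 f) (hg : Eff1 g) : Eff1 (fun x => f x + g x) :=
  eff1_of_values (hf.contDiff.add hg.contDiff) (effV_add hf.effV hg.effV)
    (effB_add hf.contDiff hg.contDiff hf.effB hg.effB)

theorem eff1_neg {f : ℝ → ℝ} (hf : Eff1 f) : Eff1 (fun x => - f x) :=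
  eff1_of_values hf.contDiff.neg (effV_neg hf.effV) (effB_neg hf.effB)

theorem eff1_sub {f g : ℝ → ℝ} (hf : Eff1 f) (hg : Eff1 g) : Eff1 (fun x => f x - g x) :=
  eff1_of_values (hf.contDiff.sub hg.contDiff) (effV_sub hf.effV hg.effV)
    (effB_sub hf.contDiff hg.contDiff hf.effB hg.effB)

theorem eff1_const_mul (c : ℚ) {f : ℝ → ℝ} (hf : Eff1 f) : Eff1 (fun x => (c : ℝ) * f x) :=
  eff1_of_values (contDiff_const.mul hf.contDiff) (effV_const_mul c hf.effV)
    (effB_const_mul c hf.effB)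

theorem eff1_mul_const (c : ℚ) {f : ℝ → ℝ} (hf : Eff1 f) : Eff1 (fun x => f x * (c : ℝ)) :=
  eff1_of_eq (eff1_const_mul c hf) (fun _ => mul_comm _ _)

theorem eff1_mul {f g : ℝ → ℝ} (hf : Eff1 f) (hg : Eff1 g) : Eff1 (fun x => f x * g x) :=
  eff1_of_values (hf.contDiff.mul hg.contDiff) (effV_mul hf.effV hg.effV)
    (effB_mul hf.contDiff hg.contDiff hf.effB hg.effB)

theorem eff1_comp_affine (α β : ℚ) {f : ℝ → ℝ} (hf : Eff1 f) :
    Eff1 (fun x => f ((α : ℝ) * x + β)) :=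
  eff1_of_values (hf.contDiff.comp ((contDiff_const.mul contDiff_id).add contDiff_const))
    (effV_comp_affine α β hf.effV) (effB_comp_affine hf.contDiff α β hf.effB)

/-- Affine substitution, with the affine map given up to pointwise equality. -/
theorem eff1_comp_affine' (α β : ℚ) {φ : ℝ → ℝ} (hφ : ∀ x, φ x = (α : ℝ) * x + β) {f : ℝ → ℝ}
    (hf : Eff1 f) : Eff1 (fun x => f (φ x)) :=
  eff1_of_eq (eff1_comp_affine α β hf) (fun x => by rw [hφ x])

/-- Substitution `x ↦ (x - a) / e` with rational `a`, `e`. -/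
theorem eff1_comp_sub_div (a e : ℚ) {f : ℝ → ℝ} (hf : Eff1 f) :
    Eff1 (fun x => f ((x - (a : ℝ)) / (e : ℝ))) :=
  eff1_comp_affine' (e⁻¹) (-(a * e⁻¹)) (fun x => by push_cast; ring) hf

theorem eff1_deriv {f : ℝ → ℝ} (hf : Eff1 f) : Eff1 (deriv f) := by
  obtain ⟨hc, A, B, hA, hB, ha, hb⟩ := hf
  refine ⟨(contDiff_infty_iff_deriv.mp hc).2, fun p => A (p.1 + 1, p.2), fun k => B (k + 1),
    hA.comp ((eff1_cnat_succ Computable.fst).pair Computable.snd),
    hB.comp (eff1_cnat_succ Computable.id), fun k q n => ?_, fun k x => ?_⟩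
  · rw [← iteratedDeriv_succ']; exact ha (k + 1) q n
  · rw [← iteratedDeriv_succ']; exact hb (k + 1) x

theorem eff1_iteratedDeriv (k : ℕ) {f : ℝ → ℝ} (hf : Eff1 f) : Eff1 (iteratedDeriv k f) := by
  induction k generalizing f with
  | zero => rwa [iteratedDeriv_zero]
  | succ k ih => rw [iteratedDeriv_succ']; exact ih (eff1_deriv hf)

/-- `x * g x` for an `Eff1` function `g` vanishing outside `[-R, R]`. -/
theorem eff1_id_mul (R : ℕ) {g : ℝ → ℝ} (hsupp : ∀ x, (R : ℝ) < |x| → g x = 0) (hg : Eff1 g) :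
    Eff1 (fun x => x * g x) :=
  eff1_of_values (contDiff_id.mul hg.contDiff) (effV_mul effV_id hg.effV)
    (effB_id_mul hg.contDiff R hsupp hg.effB)

/-- `x ^ m * g x` for an `Eff1` function `g` vanishing outside `[-R, R]`. -/
theorem eff1_pow_mul (R : ℕ) (m : ℕ) {g : ℝ → ℝ} (hsupp : ∀ x, (R : ℝ) < |x| → g x = 0)
    (hg : Eff1 g) : Eff1 (fun x => x ^ m * g x) := by
  induction m with
  | zero => exact eff1_of_eq hg (fun x => by ring)
  | succ m ih =>
    have hs : ∀ x, (R : ℝ) < |x| → x ^ m * g x = 0 := fun x hx => by rw [hsupp x hx, mul_zero]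
    exact eff1_of_eq (eff1_id_mul R hs ih) (fun x => by ring)

/-- (rational quadratic polynomial) × (compactly supported `Eff1` function). -/
theorem eff1_quad_mul (R : ℕ) (c0 c1 c2 : ℚ) {P : ℝ → ℝ}
    (hP : ∀ x, P x = (c0 : ℝ) + (c1 : ℝ) * x + (c2 : ℝ) * x ^ 2) {g : ℝ → ℝ}
    (hsupp : ∀ x, (R : ℝ) < |x| → g x = 0) (hg : Eff1 g) : Eff1 (fun x => P x * g x) :=
  eff1_of_eq (eff1_add (eff1_add (eff1_const_mul c0 hg) (eff1_const_mul c1 (eff1_id_mul R hsupp hg)))
    (eff1_const_mul c2 (eff1_pow_mul R 2 hsupp hg))) (fun x => by rw [hP x]; ring)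

theorem eff1_finset_sum {ι : Type*} (s : Finset ι) (f : ι → ℝ → ℝ) (h : ∀ i ∈ s, Eff1 (f i)) :
    Eff1 (fun x => ∑ i ∈ s, f i x) := by
  classical
  induction s using Finset.induction_on with
  | empty => simpa using eff1_zero
  | insert i t hi ih =>
    have h1 : Eff1 (f i) := h i (Finset.mem_insert_self i t)
    have h2 := ih (fun j hj => h j (Finset.mem_insert_of_mem hj))
    exact eff1_of_eq (eff1_add h1 h2) (fun x => by rw [Finset.sum_insert hi])

/-- A compactly supported function vanishes outside `[-R, R]` for some natural `R`. -/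
theorem eff1_exists_support_bound {f : ℝ → ℝ} (hc : HasCompactSupport f) :
    ∃ R : ℕ, ∀ x, (R : ℝ) < |x| → f x = 0 := by
  obtain ⟨r, hr⟩ := hc.isCompact.isBounded.subset_closedBall (0 : ℝ)
  refine ⟨⌈r⌉₊, fun x hx => ?_⟩
  by_contra hne
  have hx' : x ∈ tsupport f := subset_tsupport f (Function.mem_support.mpr hne)
  have h1 := hr hx'
  rw [Metric.mem_closedBall, Real.dist_eq, sub_zero] at h1
  have h2 := Nat.le_ceil r
  linarith

/-- (compactly supported `Eff1` function) × (rational quadratic potential); this is exactly the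
field `pot` of `EffClosure` in `S0170_EffSched`. -/
theorem eff1_pot (f : ℝ → ℝ) (lam sig c : ℚ) (hf : Eff1 f) (hc : HasCompactSupport f) :
    Eff1 (fun y : ℝ => f y * ((lam : ℝ) * y + (sig : ℝ) * (y - (c : ℝ)) ^ 2 / 2)) := by
  obtain ⟨R, hR⟩ := eff1_exists_support_bound hc
  have h := eff1_quad_mul R (sig * c ^ 2 / 2) (lam - sig * c) (sig / 2)
    (P := fun y : ℝ => (lam : ℝ) * y + (sig : ℝ) * (y - (c : ℝ)) ^ 2 / 2)
    (fun x => by push_cast; ring) hR hf
  exact eff1_of_eq h (fun x => mul_comm _ _)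

/-- Polynomial (rational coefficients, given as a finite sum of monomials) × compactly supported
`Eff1` function. -/
theorem eff1_polysum_mul (d : ℕ) (coef : ℕ → ℚ) {g : ℝ → ℝ} (hg : Eff1 g)
    (hc : HasCompactSupport g) :
    Eff1 (fun x => (∑ i ∈ Finset.range d, (coef i : ℝ) * x ^ i) * g x) := by
  obtain ⟨R, hR⟩ := eff1_exists_support_bound hc
  have h := eff1_finset_sum (Finset.range d) (fun i x => (coef i : ℝ) * (x ^ i * g x))
    (fun i _ => eff1_const_mul (coef i) (eff1_pow_mul R i hR hg))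
  exact eff1_of_eq h (fun x => by rw [Finset.sum_mul]; exact Finset.sum_congr rfl fun i _ => by ring)

end Crest.Agent.S0170
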