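import Mathlib

/-!
# Row 126 (S0170), WP-CR: uniformly computable families of real numbers

`IsCR x` for `x : α → ℝ` (`α` primcodable) says that there is a computable
`A : α × ℕ → ℚ` with `|x a - A (a, n)| ≤ 1/(n+1)`.  The class is closed under the field
operations, finite sums, powers, inverses (with a computable lower bound), `Real.exp`, and
composition with computable maps.

Everything is parametrised by `QTool`, the six facts about Mathlib's `Primcodable ℚ` that the
development needs (they are supplied by WP-Q, the "ℚ-bridge").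
-/

namespace Crest.Agent.S0170

/-- The facts about Mathlib's `Primcodable ℚ` needed by the CR algebra. -/
structure QTool : Prop where
  add  : Computable₂ ((· + ·) : ℚ → ℚ → ℚ)
  mul  : Computable₂ ((· * ·) : ℚ → ℚ → ℚ)
  neg  : Computable (Neg.neg : ℚ → ℚ)
  inv  : Computable (Inv.inv : ℚ → ℚ)
  le   : Computable₂ (fun a b : ℚ => decide (a ≤ b))
  ceil : Computable (fun q : ℚ => ⌈q⌉₊)

namespace QTool

variable {α : Type*} [Primcodable α]

theorem cAdd (Q : QTool) {f g : α → ℚ} (hf : Computable f) (hg : Computable g) :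
    Computable fun a => f a + g a := Q.add.comp hf hg

theorem cMul (Q : QTool) {f g : α → ℚ} (hf : Computable f) (hg : Computable g) :
    Computable fun a => f a * g a := Q.mul.comp hf hg

theorem cNeg (Q : QTool) {f : α → ℚ} (hf : Computable f) :
    Computable fun a => - f a := Q.neg.comp hf

theorem cInv (Q : QTool) {f : α → ℚ} (hf : Computable f) :
    Computable fun a => (f a)⁻¹ := Q.inv.comp hf

theorem cSub (Q : QTool) {f g : α → ℚ} (hf : Computable f) (hg : Computable g) :
    Computable fun a => f a - g a :=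
  (Q.cAdd hf (Q.cNeg hg)).of_eq fun a => by ring

theorem cDiv (Q : QTool) {f g : α → ℚ} (hf : Computable f) (hg : Computable g) :
    Computable fun a => f a / g a :=
  (Q.cMul hf (Q.cInv hg)).of_eq fun a => by rw [div_eq_mul_inv]

theorem cLe (Q : QTool) {f g : α → ℚ} (hf : Computable f) (hg : Computable g) :
    Computable fun a => decide (f a ≤ g a) := Q.le.comp hf hg

theorem cIte (_Q : QTool) {σ : Type*} [Primcodable σ] {c : α → Bool} {f g : α → σ}
    (hc : Computable c) (hf : Computable f) (hg : Computable g) :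
    Computable fun a => if c a = true then f a else g a :=
  (Computable.cond hc hf hg).of_eq fun a => by cases c a <;> simp

theorem cNatCast (Q : QTool) {k : α → ℕ} (hk : Computable k) :
    Computable fun a => ((k a : ℕ) : ℚ) := by
  have h : Computable fun a => Nat.rec (motive := fun _ => ℚ) (0 : ℚ)
      (fun y IH => (fun (_ : α) (p : ℕ × ℚ) => p.2 + 1) a (y, IH)) (k a) :=
    Computable.nat_rec hk (Computable.const 0)
      (Q.cAdd (Computable.snd.comp Computable.snd) (Computable.const 1)).to₂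
  refine h.of_eq fun a => ?_
  induction k a with
  | zero => simp
  | succ n ih => simp only [Nat.cast_succ]; rw [← ih]

theorem cPow (Q : QTool) {f : α → ℚ} {k : α → ℕ} (hf : Computable f) (hk : Computable k) :
    Computable fun a => f a ^ k a := by
  have h : Computable fun a => Nat.rec (motive := fun _ => ℚ) (1 : ℚ)
      (fun y IH => (fun (a : α) (p : ℕ × ℚ) => p.2 * f a) a (y, IH)) (k a) :=
    Computable.nat_rec hk (Computable.const 1)
      (Q.cMul (Computable.snd.comp Computable.snd) (hf.comp Computable.fst)).to₂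
  refine h.of_eq fun a => ?_
  induction k a with
  | zero => simp
  | succ n ih => simp only [pow_succ]; rw [← ih]

theorem cSum (Q : QTool) {f : α × ℕ → ℚ} {N : α → ℕ} (hf : Computable f) (hN : Computable N) :
    Computable fun a => ∑ i ∈ Finset.range (N a), f (a, i) := by
  have h : Computable fun a => Nat.rec (motive := fun _ => ℚ) (0 : ℚ)
      (fun y IH => (fun (a : α) (p : ℕ × ℚ) => p.2 + f (a, p.1)) a (y, IH)) (N a) :=
    Computable.nat_rec hN (Computable.const 0)
      (Q.cAdd (Computable.snd.comp Computable.snd)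
        (hf.comp (Computable.pair Computable.fst (Computable.fst.comp Computable.snd)))).to₂
  refine h.of_eq fun a => ?_
  induction N a with
  | zero => simp
  | succ n ih => simp only [Finset.sum_range_succ]; rw [← ih]

theorem cAbs (Q : QTool) {f : α → ℚ} (hf : Computable f) :
    Computable fun a => |f a| :=
  (Q.cIte (Q.cLe (Computable.const 0) hf) hf (Q.cNeg hf)).of_eq fun a => by
    by_cases h : 0 ≤ f a
    · simp [h, abs_of_nonneg h]
    · simp [h, abs_of_neg (not_le.1 h)]

/-- A computable natural upper bound for `|f a|`. -/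
theorem cCeilAbs (Q : QTool) {f : α → ℚ} (hf : Computable f) :
    Computable fun a => ⌈|f a|⌉₊ := Q.ceil.comp (Q.cAbs hf)

end QTool

/-! ### Computable natural-number helpers -/

section NatHelpers

variable {α : Type*} [Primcodable α]

theorem cNatAdd {f g : α → ℕ} (hf : Computable f) (hg : Computable g) :
    Computable fun a => f a + g a := Primrec.nat_add.to_comp.comp hf hg

theorem cNatMul {f g : α → ℕ} (hf : Computable f) (hg : Computable g) :
    Computable fun a => f a * g a := Primrec.nat_mul.to_comp.comp hf hg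

theorem cNatPow {f k : α → ℕ} (hf : Computable f) (hk : Computable k) :
    Computable fun a => f a ^ k a := by
  have h : Computable fun a => Nat.rec (motive := fun _ => ℕ) (1 : ℕ)
      (fun y IH => (fun (a : α) (p : ℕ × ℕ) => p.2 * f a) a (y, IH)) (k a) :=
    Computable.nat_rec hk (Computable.const 1)
      (cNatMul (Computable.snd.comp Computable.snd) (hf.comp Computable.fst)).to₂
  refine h.of_eq fun a => ?_
  induction k a with
  | zero => simp
  | succ n ih => simp only [pow_succ]; rw [← ih]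

theorem cNatFactorial {k : α → ℕ} (hk : Computable k) :
    Computable fun a => (k a).factorial := by
  have h : Computable fun a => Nat.rec (motive := fun _ => ℕ) (1 : ℕ)
      (fun y IH => (fun (_ : α) (p : ℕ × ℕ) => (p.1 + 1) * p.2) a (y, IH)) (k a) :=
    Computable.nat_rec hk (Computable.const 1)
      (cNatMul (Computable.succ.comp (Computable.fst.comp Computable.snd))
        (Computable.snd.comp Computable.snd)).to₂
  refine h.of_eq fun a => ?_
  induction k a with
  | zero => simp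
  | succ n ih => simp only [Nat.factorial_succ]; rw [← ih]

end NatHelpers

/-! ### Uniformly computable families of reals -/

section CR

variable {α β : Type*} [Primcodable α] [Primcodable β]

/-- `x : α → ℝ` is a uniformly computable family of real numbers: a computable
`A : α × ℕ → ℚ` approximates `x a` within `1/(n+1)`. -/
def IsCR (x : α → ℝ) : Prop :=
  ∃ A : α × ℕ → ℚ, Computable A ∧ ∀ a n, |x a - (A (a, n) : ℝ)| ≤ 1 / ((n : ℝ) + 1)

theorem IsCR.congr {x y : α → ℝ} (hx : IsCR x) (h : ∀ a, x a = y a) : IsCR y := by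
  have : x = y := funext h
  rwa [← this]

theorem IsCR.of_rat {f : α → ℚ} (hf : Computable f) : IsCR fun a => ((f a : ℚ) : ℝ) :=
  ⟨fun p => f p.1, hf.comp Computable.fst, fun a n => by
    simp only [sub_self, abs_zero]; positivity⟩

theorem IsCR.const (q : ℚ) : IsCR fun _ : α => (q : ℝ) := IsCR.of_rat (Computable.const q)

theorem IsCR.zero : IsCR fun _ : α => (0 : ℝ) := (IsCR.const (α := α) 0).congr fun _ => by simp

theorem IsCR.one : IsCR fun _ : α => (1 : ℝ) := (IsCR.const (α := α) 1).congr fun _ => by simp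

theorem IsCR.natCast (Q : QTool) {k : α → ℕ} (hk : Computable k) :
    IsCR fun a => ((k a : ℕ) : ℝ) :=
  (IsCR.of_rat (Q.cNatCast hk)).congr fun _ => by simp

theorem IsCR.comp {x : β → ℝ} (hx : IsCR x) {g : α → β} (hg : Computable g) :
    IsCR fun a => x (g a) := by
  obtain ⟨A, hA, h⟩ := hx
  exact ⟨fun p => A (g p.1, p.2), hA.comp ((hg.comp Computable.fst).pair Computable.snd),
    fun a n => h (g a) n⟩

/-- Generic constructor: an approximator with a computable modulus. -/
theorem IsCR.of_approx {x : α → ℝ} {F : α × ℕ → ℚ} (hF : Computable F)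
    {m₀ C : α → ℕ} (hm : Computable m₀) (hC : Computable C)
    (h : ∀ a m, m₀ a ≤ m → |x a - (F (a, m) : ℝ)| ≤ (C a : ℝ) / ((m : ℝ) + 1)) : IsCR x := by
  refine ⟨fun p => F (p.1, m₀ p.1 + C p.1 * (p.2 + 1)), ?_, fun a n => ?_⟩
  · have h1 : Computable fun p : α × ℕ => m₀ p.1 + C p.1 * (p.2 + 1) :=
      cNatAdd (hm.comp Computable.fst)
        (cNatMul (hC.comp Computable.fst) (Computable.succ.comp Computable.snd))
    exact hF.comp (Computable.fst.pair h1)
  · refine (h a _ (Nat.le_add_right _ _)).trans ?_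
    rw [div_le_div_iff₀ (by positivity) (by positivity)]
    push_cast
    have h1 : (0 : ℝ) ≤ (m₀ a : ℝ) := Nat.cast_nonneg _
    nlinarith

/-- Approximator, bound for the family and bound for the approximants. -/
theorem IsCR.exists_bdd (Q : QTool) {x : α → ℝ} (hx : IsCR x) :
    ∃ (A : α × ℕ → ℚ) (M : α → ℕ), Computable A ∧ Computable M ∧
      (∀ a n, |x a - (A (a, n) : ℝ)| ≤ 1 / ((n : ℝ) + 1)) ∧ (∀ a, |x a| ≤ (M a : ℝ)) ∧
      (∀ a n, |(A (a, n) : ℝ)| ≤ (M a : ℝ) + 1) := by
  obtain ⟨A, hA, h⟩ := hx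
  have hM : Computable fun a : α => ⌈|A (a, 0)|⌉₊ + 1 :=
    Computable.succ.comp (Q.cCeilAbs (hA.comp (Computable.id.pair (Computable.const 0))))
  have hx : ∀ a, |x a| ≤ ((⌈|A (a, 0)|⌉₊ + 1 : ℕ) : ℝ) := by
    intro a
    have h0 := h a 0
    simp only [Nat.cast_zero, zero_add, div_one] at h0
    have h1 : ((|A (a, 0)| : ℚ) : ℝ) ≤ ((⌈|A (a, 0)|⌉₊ : ℕ) : ℝ) := by
      have := Nat.le_ceil (|A (a, 0)|)
      exact_mod_cast this
    rw [Rat.cast_abs] at h1
    have h2 : |x a| ≤ |x a - (A (a, 0) : ℝ)| + |(A (a, 0) : ℝ)| := by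
      have := abs_add_le (x a - (A (a, 0) : ℝ)) (A (a, 0) : ℝ)
      simpa using this
    push_cast
    linarith
  refine ⟨A, _, hA, hM, h, hx, fun a n => ?_⟩
  have h1 := h a n
  have h2 : |(A (a, n) : ℝ)| ≤ |x a - (A (a, n) : ℝ)| + |x a| := by
    have := abs_sub_le (A (a, n) : ℝ) (x a) 0
    simp only [sub_zero] at this
    rw [abs_sub_comm] at this
    exact this
  have h3 : 1 / ((n : ℝ) + 1) ≤ 1 := by
    rw [div_le_one (by positivity)]
    have : (0 : ℝ) ≤ (n : ℝ) := Nat.cast_nonneg _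
    linarith
  linarith [hx a]

theorem IsCR.bound (Q : QTool) {x : α → ℝ} (hx : IsCR x) :
    ∃ M : α → ℕ, Computable M ∧ ∀ a, |x a| ≤ (M a : ℝ) := by
  obtain ⟨A, M, -, hM, -, h, -⟩ := hx.exists_bdd Q
  exact ⟨M, hM, h⟩

theorem IsCR.neg (Q : QTool) {x : α → ℝ} (hx : IsCR x) : IsCR fun a => - x a := by
  obtain ⟨A, hA, h⟩ := hx
  refine ⟨fun p => - A p, Q.cNeg hA, fun a n => ?_⟩
  have := h a n
  rw [abs_sub_comm] at this
  push_cast
  rw [show -x a - -(A (a, n) : ℝ) = (A (a, n) : ℝ) - x a by ring]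
  exact this

theorem IsCR.add (Q : QTool) {x y : α → ℝ} (hx : IsCR x) (hy : IsCR y) :
    IsCR fun a => x a + y a := by
  obtain ⟨A, hA, hAx⟩ := hx
  obtain ⟨B, hB, hBy⟩ := hy
  refine IsCR.of_approx (F := fun p => A p + B p) (Q.cAdd hA hB)
    (Computable.const 0) (Computable.const 2) fun a m _ => ?_
  have h1 := hAx a m
  have h2 := hBy a m
  have h3 : |x a + y a - ((A (a, m) + B (a, m) : ℚ) : ℝ)| ≤
      |x a - (A (a, m) : ℝ)| + |y a - (B (a, m) : ℝ)| := by
    push_cast
    have := abs_add_le (x a - (A (a, m) : ℝ)) (y a - (B (a, m) : ℝ))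
    rw [show x a + y a - ((A (a, m) : ℝ) + (B (a, m) : ℝ)) =
      (x a - (A (a, m) : ℝ)) + (y a - (B (a, m) : ℝ)) by ring]
    exact this
  refine h3.trans ?_
  have : ((2 : ℕ) : ℝ) / ((m : ℝ) + 1) = 1 / ((m : ℝ) + 1) + 1 / ((m : ℝ) + 1) := by
    push_cast; ring
  rw [this]
  exact add_le_add h1 h2

theorem IsCR.sub (Q : QTool) {x y : α → ℝ} (hx : IsCR x) (hy : IsCR y) :
    IsCR fun a => x a - y a :=
  (hx.add Q (hy.neg Q)).congr fun a => by ring

theorem IsCR.mul (Q : QTool) {x y : α → ℝ} (hx : IsCR x) (hy : IsCR y) :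
    IsCR fun a => x a * y a := by
  obtain ⟨A, M, hA, hM, hAx, hxM, -⟩ := hx.exists_bdd Q
  obtain ⟨B, N, hB, hN, hBy, -, hBN⟩ := hy.exists_bdd Q
  refine IsCR.of_approx (F := fun p => A p * B p) (Q.cMul hA hB)
    (Computable.const 0) (C := fun a => M a + N a + 1)
    (Computable.succ.comp (cNatAdd hM hN)) fun a m _ => ?_
  have h1 := hAx a m
  have h2 := hBy a m
  have hpos : (0 : ℝ) < (m : ℝ) + 1 := by positivity
  have h3 : |x a * y a - ((A (a, m) * B (a, m) : ℚ) : ℝ)| ≤
      |x a| * |y a - (B (a, m) : ℝ)| + |(B (a, m) : ℝ)| * |x a - (A (a, m) : ℝ)| := by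
    push_cast
    rw [show x a * y a - (A (a, m) : ℝ) * (B (a, m) : ℝ) =
      x a * (y a - (B (a, m) : ℝ)) + (B (a, m) : ℝ) * (x a - (A (a, m) : ℝ)) by ring]
    refine (abs_add_le _ _).trans ?_
    rw [abs_mul, abs_mul]
  refine h3.trans ?_
  have h4 : |x a| * |y a - (B (a, m) : ℝ)| ≤ (M a : ℝ) * (1 / ((m : ℝ) + 1)) :=
    mul_le_mul (hxM a) h2 (abs_nonneg _) (Nat.cast_nonneg _)
  have h5 : |(B (a, m) : ℝ)| * |x a - (A (a, m) : ℝ)| ≤ ((N a : ℝ) + 1) * (1 / ((m : ℝ) + 1)) :=
    mul_le_mul (hBN a m) h1 (abs_nonneg _) (by positivity)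
  have : ((M a + N a + 1 : ℕ) : ℝ) / ((m : ℝ) + 1) =
      (M a : ℝ) * (1 / ((m : ℝ) + 1)) + ((N a : ℝ) + 1) * (1 / ((m : ℝ) + 1)) := by
    push_cast; ring
  rw [this]
  exact add_le_add h4 h5

theorem IsCR.ite (Q : QTool) {c : α → Bool} (hc : Computable c) {x y : α → ℝ}
    (hx : IsCR x) (hy : IsCR y) : IsCR fun a => if c a = true then x a else y a := by
  obtain ⟨A, hA, hAx⟩ := hx
  obtain ⟨B, hB, hBy⟩ := hy
  refine ⟨fun p => if c p.1 = true then A p else B p,
    Q.cIte (hc.comp Computable.fst) hA hB, fun a n => ?_⟩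
  by_cases h : c a = true
  · simp only [h, if_true]; exact hAx a n
  · simp only [h]; exact hBy a n

theorem IsCR.sum_range (Q : QTool) {x : α × ℕ → ℝ} (hx : IsCR x) {N : α → ℕ}
    (hN : Computable N) : IsCR fun a => ∑ i ∈ Finset.range (N a), x (a, i) := by
  obtain ⟨A, hA, hAx⟩ := hx
  have hF : Computable fun p : α × ℕ => ∑ i ∈ Finset.range (N p.1), A ((p.1, i), p.2) := by
    refine Q.cSum (f := fun q : (α × ℕ) × ℕ => A ((q.1.1, q.2), q.1.2)) ?_ (hN.comp Computable.fst)
    exact hA.comp (((Computable.fst.comp Computable.fst).pair Computable.snd).pair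
      (Computable.snd.comp Computable.fst))
  refine IsCR.of_approx hF (Computable.const 0) hN fun a m _ => ?_
  push_cast
  rw [← Finset.sum_sub_distrib]
  refine (Finset.abs_sum_le_sum_abs _ _).trans ?_
  refine (Finset.sum_le_sum fun i _ => hAx (a, i) m).trans ?_
  rw [Finset.sum_const, Finset.card_range, nsmul_eq_mul]
  apply le_of_eq
  ring

/-- Elementary estimate for powers. -/
theorem abs_pow_sub_pow_le' {x r M : ℝ} (hM : 1 ≤ M) (hx : |x| ≤ M) (hr : |r| ≤ M) (k : ℕ) :
    |x ^ k - r ^ k| ≤ (k : ℝ) * M ^ k * |x - r| := by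
  induction k with
  | zero => simp
  | succ k ih =>
    have h1 : x ^ (k + 1) - r ^ (k + 1) = x ^ k * (x - r) + (x ^ k - r ^ k) * r := by ring
    rw [h1]
    refine (abs_add_le _ _).trans ?_
    rw [abs_mul, abs_mul, abs_pow]
    have h2 : |x| ^ k ≤ M ^ k := pow_le_pow_left₀ (abs_nonneg _) hx k
    have h3 : |x| ^ k * |x - r| ≤ M ^ k * |x - r| :=
      mul_le_mul_of_nonneg_right h2 (abs_nonneg _)
    have h4 : |x ^ k - r ^ k| * |r| ≤ ((k : ℝ) * M ^ k * |x - r|) * M :=
      mul_le_mul ih hr (abs_nonneg _) (by positivity)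
    have h5 : M ^ k * |x - r| ≤ M ^ (k + 1) * |x - r| := by
      refine mul_le_mul_of_nonneg_right ?_ (abs_nonneg _)
      exact pow_le_pow_right₀ hM (Nat.le_succ k)
    have h6 : ((k : ℝ) * M ^ k * |x - r|) * M = (k : ℝ) * M ^ (k + 1) * |x - r| := by ring
    push_cast
    nlinarith

theorem IsCR.pow (Q : QTool) {x : α → ℝ} (hx : IsCR x) {k : α → ℕ} (hk : Computable k) :
    IsCR fun a => x a ^ k a := by
  obtain ⟨A, M, hA, hM, hAx, hxM, hAM⟩ := hx.exists_bdd Q
  refine IsCR.of_approx (F := fun p => A p ^ k p.1) (Q.cPow hA (hk.comp Computable.fst))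
    (Computable.const 0) (C := fun a => k a * (M a + 1) ^ k a)
    (cNatMul hk (cNatPow (Computable.succ.comp hM) hk)) fun a m _ => ?_
  push_cast
  have h1 : |x a| ≤ (M a : ℝ) + 1 := (hxM a).trans (by linarith)
  have h0 : (1 : ℝ) ≤ (M a : ℝ) + 1 := by
    have : (0 : ℝ) ≤ (M a : ℝ) := Nat.cast_nonneg _
    linarith
  have h2 := hAx a m
  calc |x a ^ k a - (A (a, m) : ℝ) ^ k a|
      ≤ (k a : ℝ) * ((M a : ℝ) + 1) ^ k a * |x a - (A (a, m) : ℝ)| :=
        abs_pow_sub_pow_le' h0 h1 (hAM a m) (k a)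
    _ ≤ (k a : ℝ) * ((M a : ℝ) + 1) ^ k a * (1 / ((m : ℝ) + 1)) :=
        mul_le_mul_of_nonneg_left h2 (by positivity)
    _ = (k a : ℝ) * ((M a : ℝ) + 1) ^ k a / ((m : ℝ) + 1) := by ring

theorem IsCR.inv (Q : QTool) {x : α → ℝ} (hx : IsCR x) {L : α → ℕ} (hL : Computable L)
    (h : ∀ a, 1 / ((L a : ℝ) + 1) ≤ |x a|) : IsCR fun a => (x a)⁻¹ := by
  obtain ⟨A, hA, hAx⟩ := hx
  refine IsCR.of_approx (F := fun p => (A p)⁻¹) (Q.cInv hA)
    (m₀ := fun a => 2 * (L a + 1)) (C := fun a => 2 * (L a + 1) ^ 2)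
    (cNatMul (Computable.const 2) (Computable.succ.comp hL))
    (cNatMul (Computable.const 2) (cNatPow (Computable.succ.comp hL) (Computable.const 2)))
    fun a m hm => ?_
  push_cast
  set l : ℝ := (L a : ℝ) + 1 with hl
  have hl0 : 0 < l := by positivity
  have hm' : 2 * l ≤ (m : ℝ) := by
    have : ((2 * (L a + 1) : ℕ) : ℝ) ≤ (m : ℝ) := by exact_mod_cast hm
    push_cast at this
    linarith
  have hmpos : (0 : ℝ) < (m : ℝ) + 1 := by positivity
  have hx1 : 1 / l ≤ |x a| := h a
  have hd : |x a - (A (a, m) : ℝ)| ≤ 1 / ((m : ℝ) + 1) := hAx a m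
  have hd2 : 1 / ((m : ℝ) + 1) ≤ 1 / (2 * l) := by
    apply one_div_le_one_div_of_le (by positivity)
    linarith
  have hr : 1 / (2 * l) ≤ |(A (a, m) : ℝ)| := by
    have h1 : |x a| ≤ |x a - (A (a, m) : ℝ)| + |(A (a, m) : ℝ)| := by
      have := abs_add_le (x a - (A (a, m) : ℝ)) (A (a, m) : ℝ)
      simpa using this
    have h2 : 1 / l = 1 / (2 * l) + 1 / (2 * l) := by field_simp; ring
    linarith
  have hx0 : x a ≠ 0 := by
    intro h0
    rw [h0, abs_zero] at hx1
    have : 0 < 1 / l := by positivity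
    linarith
  have hr0 : (A (a, m) : ℝ) ≠ 0 := by
    intro h0
    rw [h0, abs_zero] at hr
    have : 0 < 1 / (2 * l) := by positivity
    linarith
  have key : (x a)⁻¹ - (A (a, m) : ℝ)⁻¹ = ((A (a, m) : ℝ) - x a) / (x a * (A (a, m) : ℝ)) := by
    field_simp
  rw [key, abs_div, abs_mul, abs_sub_comm]
  have hden : 1 / l * (1 / (2 * l)) ≤ |x a| * |(A (a, m) : ℝ)| :=
    mul_le_mul hx1 hr (by positivity) (abs_nonneg _)
  have hden0 : 0 < 1 / l * (1 / (2 * l)) := by positivity
  calc |x a - (A (a, m) : ℝ)| / (|x a| * |(A (a, m) : ℝ)|)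
      ≤ (1 / ((m : ℝ) + 1)) / (1 / l * (1 / (2 * l))) :=
        div_le_div₀ (by positivity) hd hden0 hden
    _ = 2 * l ^ 2 / ((m : ℝ) + 1) := by field_simp

theorem IsCR.div (Q : QTool) {x y : α → ℝ} (hx : IsCR x) (hy : IsCR y) {L : α → ℕ}
    (hL : Computable L) (h : ∀ a, 1 / ((L a : ℝ) + 1) ≤ |y a|) : IsCR fun a => x a / y a :=
  (hx.mul Q (hy.inv Q hL h)).congr fun a => by rw [div_eq_mul_inv]

/-- Sum over a computable list. -/
theorem IsCR.list_sum (Q : QTool) {x : α × β → ℝ} (hx : IsCR x) {L : α → List β}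
    (hL : Computable L) : IsCR fun a => ((L a).map fun b => x (a, b)).sum := by
  obtain ⟨A, hA, hAx⟩ := hx
  -- the family indexed by positions in the list
  have hy : IsCR fun p : α × ℕ => ((L p.1)[p.2]?).elim 0 (fun b => x (p.1, b)) := by
    refine ⟨fun q => ((L q.1.1)[q.1.2]?).elim 0 (fun b => A ((q.1.1, b), q.2)), ?_, fun p n => ?_⟩
    · have h1 : Computable fun q : (α × ℕ) × ℕ => Option.casesOn (motive := fun _ => ℚ)
          ((L q.1.1)[q.1.2]?) 0 (fun b => A ((q.1.1, b), q.2)) := by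
        refine Computable.option_casesOn
          (Computable.list_getElem?.comp (hL.comp (Computable.fst.comp Computable.fst))
            (Computable.snd.comp Computable.fst)) (Computable.const 0) ?_
        exact (hA.comp ((((Computable.fst.comp Computable.fst).comp Computable.fst).pair
          Computable.snd).pair (Computable.snd.comp Computable.fst))).to₂
      refine h1.of_eq fun q => ?_
      cases (L q.1.1)[q.1.2]? <;> rfl
    · cases hb : (L p.1)[p.2]? with
      | none =>
        simp only [hb, Option.elim_none, Rat.cast_zero, sub_self, abs_zero]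
        positivity
      | some b =>
        simp only [hb, Option.elim_some]
        exact hAx (p.1, b) n
  refine (hy.sum_range Q (Computable.list_length.comp hL)).congr fun a => ?_
  have key : ∀ l : List β, ∑ i ∈ Finset.range l.length, (l[i]?).elim 0 (fun b => x (a, b)) =
      (l.map fun b => x (a, b)).sum := by
    intro l
    induction l with
    | nil => simp
    | cons b t ih =>
      rw [List.length_cons, Finset.sum_range_succ', List.map_cons, List.sum_cons, ← ih]
      simp [add_comm]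
  exact key (L a)

/-! ### The exponential -/

/-- The clamp `q / (⌈|q|⌉₊ + 1)`, of absolute value `≤ 1`. -/
def expClamp (q : ℚ) : ℚ := q / ((⌈|q|⌉₊ : ℚ) + 1)

theorem abs_expClamp_le (q : ℚ) : |((expClamp q : ℚ) : ℝ)| ≤ 1 := by
  have h1 : |expClamp q| ≤ 1 := by
    unfold expClamp
    have h2 : |q| ≤ (⌈|q|⌉₊ : ℚ) := Nat.le_ceil _
    have h3 : (0 : ℚ) ≤ (⌈|q|⌉₊ : ℚ) := Nat.cast_nonneg _
    rw [abs_div, abs_of_pos (by linarith : (0 : ℚ) < (⌈|q|⌉₊ : ℚ) + 1), div_le_one (by linarith)]
    linarith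
  have : ((|expClamp q| : ℚ) : ℝ) ≤ ((1 : ℚ) : ℝ) := by exact_mod_cast h1
  simpa using this

theorem expClamp_mul (q : ℚ) : ((⌈|q|⌉₊ + 1 : ℕ) : ℝ) * ((expClamp q : ℚ) : ℝ) = (q : ℝ) := by
  unfold expClamp
  have h3 : (0 : ℝ) ≤ ((⌈|q|⌉₊ : ℕ) : ℝ) := Nat.cast_nonneg _
  push_cast
  field_simp

theorem computable_expClamp (Q : QTool) : Computable expClamp :=
  Q.cDiv Computable.id (Q.cAdd (Q.cNatCast (Q.cCeilAbs Computable.id)) (Computable.const 1))

theorem isCR_exp_clamp (Q : QTool) : IsCR fun q : ℚ => Real.exp ((expClamp q : ℚ) : ℝ) := by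
  refine ⟨fun p => ∑ i ∈ Finset.range (p.2 + 2), expClamp p.1 ^ i / (i.factorial : ℚ), ?_,
    fun q n => ?_⟩
  · refine Q.cSum (f := fun r : (ℚ × ℕ) × ℕ => expClamp r.1.1 ^ r.2 / (r.2.factorial : ℚ)) ?_
      (Computable.succ.comp (Computable.succ.comp Computable.snd))
    exact Q.cDiv (Q.cPow ((computable_expClamp Q).comp (Computable.fst.comp Computable.fst))
      Computable.snd) (Q.cNatCast (cNatFactorial Computable.snd))
  · have hb := Real.exp_bound (abs_expClamp_le q) (n := n + 2) (by omega)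
    push_cast
    refine hb.trans ?_
    have hfac : (((n : ℝ) + 2) * ((n : ℝ) + 1)) ≤ (((n + 2).factorial : ℕ) : ℝ) := by
      have : (n + 2) * (n + 1) ≤ (n + 2).factorial := by
        rw [Nat.factorial_succ, Nat.factorial_succ]
        calc (n + 2) * (n + 1) = (n + 1 + 1) * ((n + 1) * 1) := by ring
          _ ≤ (n + 1 + 1) * ((n + 1) * n.factorial) :=
            Nat.mul_le_mul_left _ (Nat.mul_le_mul_left _ (Nat.factorial_pos n))
      exact_mod_cast this
    have hn0 : (0 : ℝ) ≤ (n : ℝ) := Nat.cast_nonneg _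
    calc |((expClamp q : ℚ) : ℝ)| ^ (n + 2) *
          ((((n + 2).succ : ℕ) : ℝ) / ((((n + 2).factorial : ℕ) : ℝ) * ((n + 2 : ℕ) : ℝ)))
        ≤ 1 * ((((n + 2).succ : ℕ) : ℝ) / ((((n + 2).factorial : ℕ) : ℝ) * ((n + 2 : ℕ) : ℝ))) := by
          refine mul_le_mul_of_nonneg_right ?_ (by positivity)
          exact pow_le_one₀ (abs_nonneg _) (abs_expClamp_le q)
      _ ≤ 1 / ((n : ℝ) + 1) := by
          rw [one_mul, div_le_div_iff₀ (by positivity) (by positivity)]
          push_cast
          nlinarith [mul_le_mul_of_nonneg_right hfac (by linarith : (0 : ℝ) ≤ (n : ℝ) + 2),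
            sq_nonneg (n : ℝ)]

/-- `exp` at rational points is uniformly computable. -/
theorem isCR_exp_rat (Q : QTool) : IsCR fun q : ℚ => Real.exp (q : ℝ) := by
  have h := (isCR_exp_clamp Q).pow Q (k := fun q : ℚ => ⌈|q|⌉₊ + 1)
    (Computable.succ.comp (Q.cCeilAbs Computable.id))
  refine h.congr fun q => ?_
  rw [← Real.exp_nat_mul, expClamp_mul]

theorem IsCR.exp_rat (Q : QTool) {f : α → ℚ} (hf : Computable f) :
    IsCR fun a => Real.exp ((f a : ℚ) : ℝ) :=
  (isCR_exp_rat Q).comp hf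

/-- `exp` of a uniformly computable family is uniformly computable. -/
theorem IsCR.exp (Q : QTool) {x : α → ℝ} (hx : IsCR x) : IsCR fun a => Real.exp (x a) := by
  obtain ⟨A, M, hA, hM, hAx, hxM, hAM⟩ := hx.exists_bdd Q
  obtain ⟨G, hG, hGe⟩ := isCR_exp_rat Q
  refine IsCR.of_approx (F := fun p => G (A p, p.2)) (hG.comp (hA.pair Computable.snd))
    (Computable.const 0) (C := fun a => 1 + 2 * 3 ^ (M a + 1))
    (cNatAdd (Computable.const 1) (cNatMul (Computable.const 2)
      (cNatPow (Computable.const 3) (Computable.succ.comp hM)))) fun a m _ => ?_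
  set r : ℝ := (A (a, m) : ℝ) with hr
  have h1 : |Real.exp r - (G (A (a, m), m) : ℝ)| ≤ 1 / ((m : ℝ) + 1) := hGe (A (a, m)) m
  have h2 : |x a - r| ≤ 1 / ((m : ℝ) + 1) := hAx a m
  have hm0 : (0 : ℝ) ≤ (m : ℝ) := Nat.cast_nonneg _
  have hm1 : 1 / ((m : ℝ) + 1) ≤ 1 := by
    rw [div_le_one (by positivity)]; linarith
  have hexp : Real.exp r ≤ (3 : ℝ) ^ (M a + 1) := by
    calc Real.exp r ≤ Real.exp (((M a + 1 : ℕ) : ℝ) * 1) := by
          apply Real.exp_le_exp.2
          have := le_of_abs_le (hAM a m)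
          push_cast
          linarith
      _ = Real.exp 1 ^ (M a + 1) := Real.exp_nat_mul 1 (M a + 1)
      _ ≤ (3 : ℝ) ^ (M a + 1) :=
          pow_le_pow_left₀ (Real.exp_pos 1).le Real.exp_one_lt_three.le _
  have h3 : |Real.exp (x a) - Real.exp r| ≤ Real.exp r * (2 * |x a - r|) := by
    have : Real.exp (x a) - Real.exp r = Real.exp r * (Real.exp (x a - r) - 1) := by
      rw [mul_sub, ← Real.exp_add]; ring_nf
    rw [this, abs_mul, abs_of_pos (Real.exp_pos _)]
    exact mul_le_mul_of_nonneg_left (Real.abs_exp_sub_one_le (h2.trans hm1)) (Real.exp_pos _).le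
  have h4 : Real.exp r * (2 * |x a - r|) ≤ (3 : ℝ) ^ (M a + 1) * (2 * (1 / ((m : ℝ) + 1))) :=
    mul_le_mul hexp (by linarith) (by positivity) (by positivity)
  have h5 : |Real.exp (x a) - (G (A (a, m), m) : ℝ)| ≤
      |Real.exp (x a) - Real.exp r| + |Real.exp r - (G (A (a, m), m) : ℝ)| :=
    abs_sub_le _ _ _
  have h6 : ((1 + 2 * 3 ^ (M a + 1) : ℕ) : ℝ) / ((m : ℝ) + 1) =
      (3 : ℝ) ^ (M a + 1) * (2 * (1 / ((m : ℝ) + 1))) + 1 / ((m : ℝ) + 1) := by
    push_cast; ring
  rw [h6]
  linarith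

/-! ### Integers -/

theorem computable_intCast (Q : QTool) : Computable fun z : ℤ => (z : ℚ) := by
  have h1 : Computable fun z : ℤ => (Encodable.encode z).div2 :=
    Computable.nat_div2.comp Computable.encode
  have h2 : Computable fun z : ℤ => (Encodable.encode z).bodd :=
    Computable.nat_bodd.comp Computable.encode
  refine (Q.cIte h2 (Q.cNeg (Q.cAdd (Q.cNatCast h1) (Computable.const 1))) (Q.cNatCast h1)).of_eq
    fun z => ?_
  cases z with
  | ofNat n =>
    have he : Encodable.encode (Int.ofNat n) = 2 * n := rfl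
    have hb : (2 * n).bodd = false := by simp
    have hd : (2 * n).div2 = n := by rw [Nat.div2_val]; omega
    simp only [he, hb, hd]
    simp
  | negSucc n =>
    have he : Encodable.encode (Int.negSucc n) = 2 * n + 1 := rfl
    have hb : (2 * n + 1).bodd = true := by simp
    have hd : (2 * n + 1).div2 = n := by rw [Nat.div2_val]; omega
    simp only [he, hb, hd, if_true, Int.cast_negSucc]
    push_cast
    ring

theorem IsCR.intCast (Q : QTool) {z : α → ℤ} (hz : Computable z) :
    IsCR fun a => ((z a : ℤ) : ℝ) :=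
  (IsCR.of_rat ((computable_intCast Q).comp hz)).congr fun _ => by simp

end CR

end Crest.Agent.S0170
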