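import Mathlib
import Crest.Prelude.Def_BoxFlow

/-!
# S0170, work package FLOW

Design-independent facts about flows of smooth compactly supported velocity fields
(`Crest.AnalysisR.BoxFlow.IsFlow`):

* `flow_exists`  : a smooth compactly supported field that vanishes for times outside
  `[1/4, 3/4]` has a (global) flow;
* `flow_unique`  : any flow of a smooth compactly supported field agrees with every solution
  curve of the ODE that starts on it (so the flow can be identified stage by stage with explicit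
  curves);
* convenience corollaries `flow_step`, `flow_const`, `flow_translate`.

All names are prefixed `flow_`.
-/

open scoped ContDiff NNReal Topology
open Set Metric
open Crest.AnalysisR.BoxFlow

namespace Crest.Agent.S0170

/-- A smooth compactly supported field is Lipschitz in space, uniformly in time. -/
theorem flow_lipschitz (U : Field) (hU : ContDiff ℝ ∞ U) (hc : HasCompactSupport U) :
    ∃ K : ℝ≥0, ∀ t : ℝ, LipschitzWith K (fun x : Fin 3 → ℝ => U (t, x)) := by
  obtain ⟨C, hC⟩ := hU.lipschitzWith_of_hasCompactSupport hc (by simp)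
  refine ⟨C, fun t => ?_⟩
  have h1 : LipschitzWith 1 (fun x : Fin 3 → ℝ => ((t, x) : ℝ × (Fin 3 → ℝ))) :=
    LipschitzWith.prodMk_left t
  have h2 := hC.comp h1
  rw [mul_one] at h2
  exact h2

/-- A continuous compactly supported field is bounded. -/
theorem flow_bounded (U : Field) (hU : Continuous U) (hc : HasCompactSupport U) :
    ∃ L : ℝ≥0, ∀ p, ‖U p‖ ≤ L := by
  obtain ⟨C, hC⟩ := hc.exists_bound_of_continuous hU
  exact ⟨⟨max C 0, le_max_right _ _⟩, fun p => (hC p).trans (le_max_left _ _)⟩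

/-- Solutions on `[0,1]` for every starting point. -/
theorem flow_local (U : Field) (hU : ContDiff ℝ ∞ U) (hc : HasCompactSupport U)
    (x : Fin 3 → ℝ) :
    ∃ α : ℝ → (Fin 3 → ℝ), α 0 = x ∧
      ∀ t ∈ Icc (0 : ℝ) 1, HasDerivWithinAt α (U (t, α t)) (Icc (0 : ℝ) 1) t := by
  obtain ⟨K, hK⟩ := flow_lipschitz U hU hc
  obtain ⟨L, hL⟩ := flow_bounded U hU.continuous hc
  have h0 : (0 : ℝ) ∈ Icc (0 : ℝ) 1 := ⟨le_rfl, zero_le_one⟩
  have hPL : IsPicardLindelof (fun (t : ℝ) (y : Fin 3 → ℝ) => U (t, y))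
      (⟨0, h0⟩ : Icc (0 : ℝ) 1) x L 0 L K := by
    refine ⟨fun t _ => (hK t).lipschitzOnWith, fun y _ => ?_, fun t _ y _ => hL _, ?_⟩
    · exact (hU.continuous.comp (by fun_prop : Continuous fun t : ℝ => (t, y))).continuousOn
    · simp
  obtain ⟨α, hα0, hα⟩ := hPL.exists_eq_forall_mem_Icc_hasDerivWithinAt₀
  exact ⟨α, hα0, hα⟩

/-- **Existence of the flow** for a smooth compactly supported field that is switched off for
times outside `[1/4, 3/4]`. -/
theorem flow_exists (U : Field) (hU : ContDiff ℝ ∞ U) (hc : HasCompactSupport U)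
    (h0 : ∀ p : ℝ × (Fin 3 → ℝ), p.1 ∉ Set.Icc (1 / 4 : ℝ) (3 / 4) → U p = 0) :
    ∃ Φ : ℝ → (Fin 3 → ℝ) → (Fin 3 → ℝ), IsFlow U Φ := by
  choose α hα0 hα using flow_local U hU hc
  -- continuity of the local solutions
  have hcont : ∀ x, ContinuousOn (α x) (Icc (0 : ℝ) 1) := fun x t ht =>
    (hα x t ht).continuousWithinAt
  -- right derivative
  have hright : ∀ x, ∀ t ∈ Ico (0 : ℝ) 1, HasDerivWithinAt (α x) (U (t, α x t)) (Ici t) t := by
    intro x t ht
    exact (hα x t ⟨ht.1, ht.2.le⟩).mono_of_mem_nhdsWithin (Icc_mem_nhdsGE_of_mem ht)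
  -- constant before time 1/4
  have hleft : ∀ x, ∀ t ∈ Ico (0 : ℝ) (1 / 4), α x t = x := by
    intro x t ht
    have hc' : ContinuousOn (α x) (Icc (0 : ℝ) t) :=
      (hcont x).mono (Icc_subset_Icc le_rfl (by linarith [ht.2]))
    have hd : ∀ s ∈ Ico (0 : ℝ) t, HasDerivWithinAt (α x) 0 (Ici s) s := by
      intro s hs
      have := hright x s ⟨hs.1, by linarith [hs.2, ht.2]⟩
      rwa [h0 (s, α x s) (fun h => by have := h.1; simp only at this; linarith [hs.2, ht.2])]
        at this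
    have := constant_of_has_deriv_right_zero hc' hd t ⟨ht.1, le_rfl⟩
    rw [this, hα0]
  -- constant after time 3/4
  have hrightc : ∀ x, ∀ t ∈ Ioc (3 / 4 : ℝ) 1, α x t = α x 1 := by
    intro x t ht
    have hc' : ContinuousOn (α x) (Icc t 1) :=
      (hcont x).mono (Icc_subset_Icc (by linarith [ht.1]) le_rfl)
    have hd : ∀ s ∈ Ico t 1, HasDerivWithinAt (α x) 0 (Ici s) s := by
      intro s hs
      have := hright x s ⟨by linarith [hs.1, ht.1], hs.2⟩
      rwa [h0 (s, α x s) (fun h => by have := h.2; simp only at this; linarith [hs.1, ht.1])]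
        at this
    have := constant_of_has_deriv_right_zero hc' hd 1 ⟨ht.2, le_rfl⟩
    exact this.symm
  refine ⟨fun t x => α x (max 0 (min t 1)), fun x => ?_, fun t x => ?_⟩
  · simp [hα0]
  · show HasDerivAt (fun s => α x (max 0 (min s 1))) (U (t, α x (max 0 (min t 1)))) t
    rcases lt_or_ge t (1 / 4) with ht | ht
    · -- locally constant, equal to `x`
      have hU0 : U (t, α x (max 0 (min t 1))) = 0 :=
        h0 _ (fun h => by have := h.1; simp only at this; linarith)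
      rw [hU0]
      have hev : (fun s => α x (max 0 (min s 1))) =ᶠ[𝓝 t] fun _ => x := by
        filter_upwards [Iio_mem_nhds ht] with s hs
        have hs' : s < 1 / 4 := hs
        refine hleft x _ ⟨le_max_left _ _, ?_⟩
        rcases le_total s 0 with h | h
        · rw [max_eq_left ((min_le_left _ _).trans h)]; norm_num
        · rw [max_eq_right (le_min h zero_le_one), min_eq_left (by linarith)]; exact hs'
      exact (hasDerivAt_const t x).congr_of_eventuallyEq hev
    rcases lt_or_ge (3 / 4) t with ht' | ht'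
    · -- locally constant, equal to `α x 1`
      have hU0 : U (t, α x (max 0 (min t 1))) = 0 :=
        h0 _ (fun h => by have := h.2; simp only at this; linarith)
      rw [hU0]
      have hev : (fun s => α x (max 0 (min s 1))) =ᶠ[𝓝 t] fun _ => α x 1 := by
        filter_upwards [Ioi_mem_nhds ht'] with s hs
        have hs' : 3 / 4 < s := hs
        refine hrightc x _ ⟨?_, ?_⟩
        · rcases le_total s 1 with h | h
          · rw [min_eq_left h, max_eq_right (by linarith)]; exact hs'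
          · rw [min_eq_right h, max_eq_right zero_le_one]; norm_num
        · exact max_le zero_le_one (min_le_right _ _)
      exact (hasDerivAt_const t (α x 1)).congr_of_eventuallyEq hev
    · -- interior: the local solution itself
      have ht01 : t ∈ Ioo (0 : ℝ) 1 := ⟨by linarith, by linarith⟩
      have hclamp : max 0 (min t 1) = t := by
        rw [min_eq_left ht01.2.le, max_eq_right ht01.1.le]
      rw [hclamp]
      have hd : HasDerivAt (α x) (U (t, α x t)) t :=
        (hα x t ⟨ht01.1.le, ht01.2.le⟩).hasDerivAt (Icc_mem_nhds ht01.1 ht01.2)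
      have hev : (fun s => α x (max 0 (min s 1))) =ᶠ[𝓝 t] α x := by
        filter_upwards [Ioo_mem_nhds ht01.1 ht01.2] with s hs
        rw [min_eq_left hs.2.le, max_eq_right hs.1.le]
      exact hd.congr_of_eventuallyEq hev

/-- **Uniqueness**: a flow of a smooth compactly supported field agrees with every solution curve
of the ODE on `[t₀, t₁]` that starts on it at time `t₀`. -/
theorem flow_unique (U : Field) (hU : ContDiff ℝ ∞ U) (hc : HasCompactSupport U)
    (Φ : ℝ → (Fin 3 → ℝ) → (Fin 3 → ℝ)) (hΦ : IsFlow U Φ)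
    (x : Fin 3 → ℝ) (t₀ t₁ : ℝ) (h01 : t₀ ≤ t₁) (γ : ℝ → (Fin 3 → ℝ))
    (hγ0 : γ t₀ = Φ t₀ x)
    (hγ : ∀ t ∈ Set.Icc t₀ t₁, HasDerivWithinAt γ (U (t, γ t)) (Set.Icc t₀ t₁) t) :
    γ t₁ = Φ t₁ x := by
  obtain ⟨K, hK⟩ := flow_lipschitz U hU hc
  have key : EqOn γ (fun s => Φ s x) (Icc t₀ t₁) := by
    refine ODE_solution_unique (v := fun (t : ℝ) (y : Fin 3 → ℝ) => U (t, y)) (K := K) hK
      (fun t ht => (hγ t ht).continuousWithinAt) (fun t ht => ?_)
      (fun t _ => (hΦ.2 t x).continuousAt.continuousWithinAt)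
      (fun t _ => (hΦ.2 t x).hasDerivWithinAt) hγ0
    exact (hγ t ⟨ht.1, ht.2.le⟩).mono_of_mem_nhdsWithin (Icc_mem_nhdsGE_of_mem ht)
  exact key ⟨h01, le_rfl⟩

/-- Stage step: an explicit differentiable curve `γ` with derivative `γ'`, which satisfies the ODE
along itself during `[t₀, t₁]` and starts on the flow line of `x`, ends on it. -/
theorem flow_step (U : Field) (hU : ContDiff ℝ ∞ U) (hc : HasCompactSupport U)
    (Φ : ℝ → (Fin 3 → ℝ) → (Fin 3 → ℝ)) (hΦ : IsFlow U Φ)
    (x : Fin 3 → ℝ) (t₀ t₁ : ℝ) (h01 : t₀ ≤ t₁) (γ γ' : ℝ → (Fin 3 → ℝ))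
    (hγ0 : γ t₀ = Φ t₀ x)
    (hγ : ∀ t ∈ Set.Icc t₀ t₁, HasDerivAt γ (γ' t) t)
    (hode : ∀ t ∈ Set.Icc t₀ t₁, U (t, γ t) = γ' t) :
    Φ t₁ x = γ t₁ := by
  refine (flow_unique U hU hc Φ hΦ x t₀ t₁ h01 γ hγ0 fun t ht => ?_).symm
  rw [hode t ht]
  exact (hγ t ht).hasDerivWithinAt

/-- If the field vanishes at the current position of the particle during `[t₀, t₁]`, the particle
does not move. -/
theorem flow_const (U : Field) (hU : ContDiff ℝ ∞ U) (hc : HasCompactSupport U)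
    (Φ : ℝ → (Fin 3 → ℝ) → (Fin 3 → ℝ)) (hΦ : IsFlow U Φ)
    (x : Fin 3 → ℝ) (t₀ t₁ : ℝ) (h01 : t₀ ≤ t₁)
    (hzero : ∀ t ∈ Set.Icc t₀ t₁, U (t, Φ t₀ x) = 0) :
    Φ t₁ x = Φ t₀ x :=
  flow_step U hU hc Φ hΦ x t₀ t₁ h01 (fun _ => Φ t₀ x) (fun _ => 0) rfl
    (fun t _ => hasDerivAt_const t _) hzero

/-- If, during `[t₀, t₁]`, the field equals `τ t • v` along the straight curve
`s ↦ Φ t₀ x + (θ s - θ t₀) • v`, where `θ` is a primitive of `τ`, then the particle is translated
by `(θ t₁ - θ t₀) • v`. -/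
theorem flow_translate (U : Field) (hU : ContDiff ℝ ∞ U) (hc : HasCompactSupport U)
    (Φ : ℝ → (Fin 3 → ℝ) → (Fin 3 → ℝ)) (hΦ : IsFlow U Φ)
    (x : Fin 3 → ℝ) (t₀ t₁ : ℝ) (h01 : t₀ ≤ t₁) (v : Fin 3 → ℝ) (θ τ : ℝ → ℝ)
    (hθ : ∀ t ∈ Set.Icc t₀ t₁, HasDerivAt θ (τ t) t)
    (hode : ∀ t ∈ Set.Icc t₀ t₁, U (t, Φ t₀ x + (θ t - θ t₀) • v) = τ t • v) :
    Φ t₁ x = Φ t₀ x + (θ t₁ - θ t₀) • v := by
  refine flow_step U hU hc Φ hΦ x t₀ t₁ h01 (fun s => Φ t₀ x + (θ s - θ t₀) • v)
    (fun s => τ s • v) (by simp) (fun t ht => ?_) hode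
  have h1 : HasDerivAt (fun s => θ s - θ t₀) (τ t) t := (hθ t ht).sub_const _
  have h2 : HasDerivAt (fun s => (θ s - θ t₀) • v) (τ t • v) t := h1.smul_const v
  exact h2.const_add _

/-- Combined shape: existence of a flow together with stage-wise uniqueness (any curve solving the
ODE on a stage interval `[s₀, s₁]` that starts at `Φ s₀ x` ends at `Φ s₁ x`). -/
theorem flow_exists_unique (U : Field) (hU : ContDiff ℝ ∞ U) (hc : HasCompactSupport U)
    (h0 : ∀ p : ℝ × (Fin 3 → ℝ), p.1 ∉ Set.Icc (1 / 4 : ℝ) (3 / 4) → U p = 0) :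
    ∃ Φ : ℝ → (Fin 3 → ℝ) → (Fin 3 → ℝ), IsFlow U Φ ∧
      ∀ (s₀ s₁ : ℝ) (c : ℝ → (Fin 3 → ℝ)) (x : Fin 3 → ℝ), s₀ ≤ s₁ → c s₀ = Φ s₀ x →
        (∀ t ∈ Set.Icc s₀ s₁, HasDerivWithinAt c (U (t, c t)) (Set.Icc s₀ s₁) t) →
        Φ s₁ x = c s₁ := by
  obtain ⟨Φ, hΦ⟩ := flow_exists U hU hc h0
  exact ⟨Φ, hΦ, fun s₀ s₁ c x h01 hc0 hcd =>
    (flow_unique U hU hc Φ hΦ x s₀ s₁ h01 c hc0 hcd).symm⟩

end Crest.Agent.S0170
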