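import Crest.Prelude.Def_BoxFlow

/-!
# Row 126 (S0170) — WP-TENSOR: tensor-product fields

`tensF F v : Field` is the field `p ↦ (F 0 p.1 * F 1 (p.2 0) * F 2 (p.2 1) * F 3 (p.2 2)) • v`.
All mixed derivatives, the divergence, smoothness, support and bounds of such fields (and of finite
sums of them) are given by closed formulas in the one-dimensional factors.

Owner: helper26.  Nothing here uses `sorry`.
-/

set_option autoImplicit false
open scoped ContDiff
open Crest.AnalysisR.BoxFlow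

namespace Crest.Agent.S0170

/-- The `d`-th coordinate of a space-time point as a continuous linear functional:
index `0` is time, index `j + 1` is the `j`-th space coordinate. -/
noncomputable def crdL (d : Fin 4) : (ℝ × (Fin 3 → ℝ)) →L[ℝ] ℝ :=
  if h : d = 0 then ContinuousLinearMap.fst ℝ ℝ (Fin 3 → ℝ)
  else (ContinuousLinearMap.proj (R := ℝ) (φ := fun _ : Fin 3 => ℝ) (d.pred h)).comp
    (ContinuousLinearMap.snd ℝ ℝ (Fin 3 → ℝ))

@[simp] theorem crdL_zero (p : ℝ × (Fin 3 → ℝ)) : crdL 0 p = p.1 := by simp [crdL]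
@[simp] theorem crdL_one (p : ℝ × (Fin 3 → ℝ)) : crdL 1 p = p.2 0 := by
  simp [crdL]
@[simp] theorem crdL_two (p : ℝ × (Fin 3 → ℝ)) : crdL 2 p = p.2 1 := by
  simp [crdL]
@[simp] theorem crdL_three (p : ℝ × (Fin 3 → ℝ)) : crdL 3 p = p.2 2 := by
  simp [crdL]

theorem crdL_succ (j : Fin 3) (p : ℝ × (Fin 3 → ℝ)) : crdL j.succ p = p.2 j := by
  fin_cases j <;> simp

theorem crdL_direction (i d : Fin 4) : crdL i (direction d) = if i = d then 1 else 0 := by
  fin_cases i <;> fin_cases d <;> simp [crdL, direction]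

/-- The tensor-product field with one-dimensional factors `F 0` (time), `F 1`, `F 2`, `F 3` (space
coordinates `0`, `1`, `2`) and constant direction `v`. -/
noncomputable def tensF (F : Fin 4 → ℝ → ℝ) (v : Fin 3 → ℝ) : Field :=
  fun p => (∏ i : Fin 4, F i (crdL i p)) • v

/-- Explicit four-factor form of `tensF`. -/
noncomputable def tens (f0 f1 f2 f3 : ℝ → ℝ) (v : Fin 3 → ℝ) : Field :=
  fun p => (f0 p.1 * f1 (p.2 0) * f2 (p.2 1) * f3 (p.2 2)) • v

theorem tensF_apply (F : Fin 4 → ℝ → ℝ) (v : Fin 3 → ℝ) (p : ℝ × (Fin 3 → ℝ)) :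
    tensF F v p = (F 0 p.1 * F 1 (p.2 0) * F 2 (p.2 1) * F 3 (p.2 2)) • v := by
  simp [tensF, Fin.prod_univ_four]

theorem tens_eq_tensF (f0 f1 f2 f3 : ℝ → ℝ) (v : Fin 3 → ℝ) :
    tens f0 f1 f2 f3 v = tensF ![f0, f1, f2, f3] v := by
  funext p
  rw [tensF_apply]
  rfl

theorem tensF_eq_tens (F : Fin 4 → ℝ → ℝ) (v : Fin 3 → ℝ) :
    tensF F v = tens (F 0) (F 1) (F 2) (F 3) v := by
  funext p
  rw [tensF_apply]
  rfl

theorem tens_apply (f0 f1 f2 f3 : ℝ → ℝ) (v : Fin 3 → ℝ) (p : ℝ × (Fin 3 → ℝ)) :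
    tens f0 f1 f2 f3 v p = (f0 p.1 * f1 (p.2 0) * f2 (p.2 1) * f3 (p.2 2)) • v := rfl

/-! ### Smoothness -/

theorem tensF_contDiff {F : Fin 4 → ℝ → ℝ} (hF : ∀ i, ContDiff ℝ ∞ (F i)) (v : Fin 3 → ℝ) :
    ContDiff ℝ ∞ (tensF F v) := by
  have h : ContDiff ℝ ∞ (fun p : ℝ × (Fin 3 → ℝ) => ∏ i : Fin 4, F i (crdL i p)) :=
    contDiff_prod (fun i _ => (hF i).comp (ContinuousLinearMap.contDiff (𝕜 := ℝ) (crdL i)))
  exact h.smul contDiff_const

theorem tens_contDiff {f0 f1 f2 f3 : ℝ → ℝ} (h0 : ContDiff ℝ ∞ f0) (h1 : ContDiff ℝ ∞ f1)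
    (h2 : ContDiff ℝ ∞ f2) (h3 : ContDiff ℝ ∞ f3) (v : Fin 3 → ℝ) :
    ContDiff ℝ ∞ (tens f0 f1 f2 f3 v) := by
  rw [tens_eq_tensF]
  refine tensF_contDiff (fun i => ?_) v
  fin_cases i <;> simpa

/-! ### One derivative of a tensor field -/

theorem tensF_hasFDerivAt {F : Fin 4 → ℝ → ℝ} (hF : ∀ i, Differentiable ℝ (F i)) (v : Fin 3 → ℝ)
    (p : ℝ × (Fin 3 → ℝ)) :
    HasFDerivAt (tensF F v)
      ((∑ i : Fin 4, (∏ j ∈ Finset.univ.erase i, F j (crdL j p)) •
        (deriv (F i) (crdL i p) • crdL i)).smulRight v) p := by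
  have h : HasFDerivAt (fun q : ℝ × (Fin 3 → ℝ) => ∏ i : Fin 4, F i (crdL i q))
      (∑ i : Fin 4, (∏ j ∈ Finset.univ.erase i, F j (crdL j p)) •
        (deriv (F i) (crdL i p) • crdL i)) p := by
    refine HasFDerivAt.finsetProd (fun i _ => ?_)
    exact ((hF i (crdL i p)).hasDerivAt.comp_hasFDerivAt p (crdL i).hasFDerivAt)
  exact h.smul_const v

theorem tensF_differentiable {F : Fin 4 → ℝ → ℝ} (hF : ∀ i, Differentiable ℝ (F i))
    (v : Fin 3 → ℝ) : Differentiable ℝ (tensF F v) :=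
  fun p => (tensF_hasFDerivAt hF v p).differentiableAt

/-- Differentiating a tensor field in the coordinate direction `d` differentiates its `d`-th factor. -/
theorem tensF_fderiv_direction {F : Fin 4 → ℝ → ℝ} (hF : ∀ i, Differentiable ℝ (F i))
    (v : Fin 3 → ℝ) (p : ℝ × (Fin 3 → ℝ)) (d : Fin 4) :
    fderiv ℝ (tensF F v) p (direction d) = tensF (Function.update F d (deriv (F d))) v p := by
  rw [(tensF_hasFDerivAt hF v p).fderiv]
  simp only [ContinuousLinearMap.smulRight_apply, FunLike.coe_sum, Finset.sum_apply,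
    FunLike.coe_smul, Pi.smul_apply, crdL_direction, smul_eq_mul]
  rw [Finset.sum_eq_single d]
  · simp only [if_true, mul_one, tensF]
    congr 1
    rw [← Finset.mul_prod_erase Finset.univ _ (Finset.mem_univ d)]
    rw [Function.update_self, mul_comm]
    congr 1
    refine Finset.prod_congr rfl (fun j hj => ?_)
    rw [Function.update_of_ne (Finset.ne_of_mem_erase hj)]
  · intro i _ hi
    simp [hi]
  · intro h
    exact absurd (Finset.mem_univ d) h

/-! ### Mixed derivatives: general facts -/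

theorem mixedDeriv_nil (U : Field) : mixedDeriv [] U = U := rfl

theorem mixedDeriv_cons (d : Fin 4) (ds : List (Fin 4)) (U : Field) :
    mixedDeriv (d :: ds) U = fun p => fderiv ℝ (mixedDeriv ds U) p (direction d) := rfl

theorem mixedDeriv_contDiff {U : Field} (hU : ContDiff ℝ ∞ U) (ds : List (Fin 4)) :
    ContDiff ℝ ∞ (mixedDeriv ds U) := by
  induction ds with
  | nil => exact hU
  | cons d ds ih =>
    rw [mixedDeriv_cons]
    exact (ih.fderiv_right (m := ∞) (by simp)).clm_apply contDiff_const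

theorem mixedDeriv_differentiable {U : Field} (hU : ContDiff ℝ ∞ U) (ds : List (Fin 4)) :
    Differentiable ℝ (mixedDeriv ds U) :=
  (mixedDeriv_contDiff hU ds).differentiable (by simp)

theorem mixedDeriv_add {U V : Field} (hU : ContDiff ℝ ∞ U) (hV : ContDiff ℝ ∞ V)
    (ds : List (Fin 4)) : mixedDeriv ds (U + V) = mixedDeriv ds U + mixedDeriv ds V := by
  induction ds with
  | nil => rfl
  | cons d ds ih =>
    funext p
    simp only [mixedDeriv_cons, ih, Pi.add_apply]
    rw [fderiv_add (mixedDeriv_differentiable hU ds p) (mixedDeriv_differentiable hV ds p)]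
    rfl

theorem mixedDeriv_zero (ds : List (Fin 4)) : mixedDeriv ds (0 : Field) = 0 := by
  induction ds with
  | nil => rfl
  | cons d ds ih =>
    funext p
    simp only [mixedDeriv_cons, ih]
    simp

theorem mixedDeriv_const_smul {U : Field} (hU : ContDiff ℝ ∞ U) (c : ℝ)
    (ds : List (Fin 4)) : mixedDeriv ds (c • U) = c • mixedDeriv ds U := by
  induction ds with
  | nil => rfl
  | cons d ds ih =>
    funext p
    simp only [mixedDeriv_cons, ih, Pi.smul_apply]
    rw [fderiv_const_smul (mixedDeriv_differentiable hU ds p)]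
    rfl

theorem mixedDeriv_neg {U : Field} (ds : List (Fin 4)) :
    mixedDeriv ds (-U) = -mixedDeriv ds U := by
  induction ds with
  | nil => rfl
  | cons d ds ih =>
    funext p
    simp only [mixedDeriv_cons, ih, Pi.neg_apply]
    rw [fderiv_neg]
    rfl

theorem mixedDeriv_sub {U V : Field} (hU : ContDiff ℝ ∞ U) (hV : ContDiff ℝ ∞ V)
    (ds : List (Fin 4)) : mixedDeriv ds (U - V) = mixedDeriv ds U - mixedDeriv ds V := by
  have hV' : ContDiff ℝ ∞ (-V) := hV.neg
  rw [sub_eq_add_neg, mixedDeriv_add hU hV', mixedDeriv_neg, sub_eq_add_neg]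

theorem contDiff_finset_sum_field {ι : Type*} (s : Finset ι) (U : ι → Field)
    (hU : ∀ i ∈ s, ContDiff ℝ ∞ (U i)) : ContDiff ℝ ∞ (∑ i ∈ s, U i) := by
  have : (∑ i ∈ s, U i) = fun p => ∑ i ∈ s, U i p := by
    funext p; simp
  rw [this]
  exact ContDiff.sum hU

theorem mixedDeriv_finset_sum {ι : Type*} (s : Finset ι) (U : ι → Field)
    (hU : ∀ i ∈ s, ContDiff ℝ ∞ (U i)) (ds : List (Fin 4)) :
    mixedDeriv ds (∑ i ∈ s, U i) = ∑ i ∈ s, mixedDeriv ds (U i) := by
  classical
  induction s using Finset.induction_on with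
  | empty => simpa using mixedDeriv_zero ds
  | insert a s ha ih =>
    rw [Finset.sum_insert ha, Finset.sum_insert ha,
      mixedDeriv_add (hU a (Finset.mem_insert_self a s))
        (contDiff_finset_sum_field s U (fun i hi => hU i (Finset.mem_insert_of_mem hi))),
      ih (fun i hi => hU i (Finset.mem_insert_of_mem hi))]

/-! ### Mixed derivatives of tensor fields -/

/-- **Closed formula for all mixed derivatives of a tensor-product field**: the `i`-th factor is
differentiated as many times as `i` occurs in the list of directions. -/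
theorem mixedDeriv_tensF {F : Fin 4 → ℝ → ℝ} (hF : ∀ i, ContDiff ℝ ∞ (F i)) (v : Fin 3 → ℝ)
    (ds : List (Fin 4)) :
    mixedDeriv ds (tensF F v) = tensF (fun i => iteratedDeriv (ds.count i) (F i)) v := by
  induction ds with
  | nil =>
    simp [mixedDeriv_nil]
  | cons d ds ih =>
    funext p
    rw [mixedDeriv_cons, ih]
    have hG : ∀ i, Differentiable ℝ (iteratedDeriv (ds.count i) (F i)) := fun i =>
      (hF i).differentiable_iteratedDeriv (ds.count i) (by exact_mod_cast ENat.natCast_lt_top _)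
    show fderiv ℝ (tensF (fun i => iteratedDeriv (ds.count i) (F i)) v) p (direction d) = _
    rw [tensF_fderiv_direction hG v p d]
    congr 1
    funext i
    by_cases hi : i = d
    · subst hi
      rw [Function.update_self, List.count_cons_self, iteratedDeriv_succ]
    · rw [Function.update_of_ne hi, List.count_cons_of_ne (Ne.symm hi)]

theorem mixedDeriv_tensF_apply {F : Fin 4 → ℝ → ℝ} (hF : ∀ i, ContDiff ℝ ∞ (F i)) (v : Fin 3 → ℝ)
    (ds : List (Fin 4)) (p : ℝ × (Fin 3 → ℝ)) :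
    mixedDeriv ds (tensF F v) p =
      (iteratedDeriv (ds.count 0) (F 0) p.1 * iteratedDeriv (ds.count 1) (F 1) (p.2 0) *
        iteratedDeriv (ds.count 2) (F 2) (p.2 1) * iteratedDeriv (ds.count 3) (F 3) (p.2 2)) • v := by
  rw [mixedDeriv_tensF hF, tensF_apply]

theorem mixedDeriv_tens {f0 f1 f2 f3 : ℝ → ℝ} (h0 : ContDiff ℝ ∞ f0) (h1 : ContDiff ℝ ∞ f1)
    (h2 : ContDiff ℝ ∞ f2) (h3 : ContDiff ℝ ∞ f3) (v : Fin 3 → ℝ) (ds : List (Fin 4)) :
    mixedDeriv ds (tens f0 f1 f2 f3 v) =
      tens (iteratedDeriv (ds.count 0) f0) (iteratedDeriv (ds.count 1) f1)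
        (iteratedDeriv (ds.count 2) f2) (iteratedDeriv (ds.count 3) f3) v := by
  rw [tens_eq_tensF, mixedDeriv_tensF (fun i => by fin_cases i <;> simpa), tensF_eq_tens]
  rfl

theorem mixedDeriv_tens_apply {f0 f1 f2 f3 : ℝ → ℝ} (h0 : ContDiff ℝ ∞ f0) (h1 : ContDiff ℝ ∞ f1)
    (h2 : ContDiff ℝ ∞ f2) (h3 : ContDiff ℝ ∞ f3) (v : Fin 3 → ℝ) (ds : List (Fin 4))
    (p : ℝ × (Fin 3 → ℝ)) :
    mixedDeriv ds (tens f0 f1 f2 f3 v) p =
      (iteratedDeriv (ds.count 0) f0 p.1 * iteratedDeriv (ds.count 1) f1 (p.2 0) *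
        iteratedDeriv (ds.count 2) f2 (p.2 1) * iteratedDeriv (ds.count 3) f3 (p.2 2)) • v := by
  rw [mixedDeriv_tens h0 h1 h2 h3]
  rfl

/-! ### Divergence -/

theorem direction_zero : direction 0 = ((1 : ℝ), (0 : Fin 3 → ℝ)) := by
  simp [direction]

theorem direction_succ (j : Fin 3) : direction j.succ = ((0 : ℝ), (Pi.single j 1 : Fin 3 → ℝ)) := by
  simp [direction, Fin.succ_ne_zero]

theorem spaceDiv_eq (U : Field) (p : ℝ × (Fin 3 → ℝ)) :
    spaceDiv U p = ∑ j : Fin 3, fderiv ℝ U p (direction j.succ) j := by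
  simp only [spaceDiv, direction_succ]

theorem spaceDiv_add {U V : Field} {p : ℝ × (Fin 3 → ℝ)} (hU : DifferentiableAt ℝ U p)
    (hV : DifferentiableAt ℝ V p) : spaceDiv (U + V) p = spaceDiv U p + spaceDiv V p := by
  simp only [spaceDiv, fderiv_add hU hV, add_apply, Pi.add_apply,
    Finset.sum_add_distrib]

theorem spaceDiv_neg (U : Field) (p : ℝ × (Fin 3 → ℝ)) : spaceDiv (-U) p = -spaceDiv U p := by
  simp only [spaceDiv, fderiv_neg, neg_apply, Pi.neg_apply,
    Finset.sum_neg_distrib]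

theorem spaceDiv_sub {U V : Field} {p : ℝ × (Fin 3 → ℝ)} (hU : DifferentiableAt ℝ U p)
    (hV : DifferentiableAt ℝ V p) : spaceDiv (U - V) p = spaceDiv U p - spaceDiv V p := by
  rw [sub_eq_add_neg, spaceDiv_add hU hV.neg, spaceDiv_neg, sub_eq_add_neg]

theorem spaceDiv_zero (p : ℝ × (Fin 3 → ℝ)) : spaceDiv (0 : Field) p = 0 := by
  simp [spaceDiv]

theorem spaceDiv_finset_sum {ι : Type*} (s : Finset ι) (U : ι → Field) (p : ℝ × (Fin 3 → ℝ))
    (hU : ∀ i ∈ s, DifferentiableAt ℝ (U i) p) :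
    spaceDiv (∑ i ∈ s, U i) p = ∑ i ∈ s, spaceDiv (U i) p := by
  classical
  induction s using Finset.induction_on with
  | empty => simpa using spaceDiv_zero p
  | insert a s ha ih =>
    rw [Finset.sum_insert ha, Finset.sum_insert ha,
      spaceDiv_add (hU a (Finset.mem_insert_self a s))
        (DifferentiableAt.sum (fun i hi => hU i (Finset.mem_insert_of_mem hi))),
      ih (fun i hi => hU i (Finset.mem_insert_of_mem hi))]

theorem spaceDiv_tensF {F : Fin 4 → ℝ → ℝ} (hF : ∀ i, Differentiable ℝ (F i)) (v : Fin 3 → ℝ)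
    (p : ℝ × (Fin 3 → ℝ)) :
    spaceDiv (tensF F v) p =
      ∑ j : Fin 3, tensF (Function.update F j.succ (deriv (F j.succ))) v p j := by
  rw [spaceDiv_eq]
  exact Finset.sum_congr rfl (fun j _ => by rw [tensF_fderiv_direction hF v p j.succ])

/-- Divergence of a tensor field pointing in the coordinate direction `a`. -/
theorem spaceDiv_tensF_single {F : Fin 4 → ℝ → ℝ} (hF : ∀ i, Differentiable ℝ (F i)) (a : Fin 3)
    (c : ℝ) (p : ℝ × (Fin 3 → ℝ)) :
    spaceDiv (tensF F (Pi.single a c)) p =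
      (∏ i : Fin 4, (Function.update F a.succ (deriv (F a.succ))) i (crdL i p)) * c := by
  rw [spaceDiv_tensF hF, Finset.sum_eq_single a]
  · simp [tensF]
  · intro j _ hj
    simp [tensF, hj]
  · intro h
    exact absurd (Finset.mem_univ a) h

/-- **Stream-function fields are divergence free**: for `a ≠ b` the field
`(∂_b ψ) e_a − (∂_a ψ) e_b` with `ψ = F 0 (t) F 1 (x 0) F 2 (x 1) F 3 (x 2)`. -/
theorem spaceDiv_stream {F : Fin 4 → ℝ → ℝ} (hF : ∀ i, ContDiff ℝ ∞ (F i)) {a b : Fin 3}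
    (hab : a ≠ b) (c : ℝ) (p : ℝ × (Fin 3 → ℝ)) :
    spaceDiv (tensF (Function.update F b.succ (deriv (F b.succ))) (Pi.single a c) -
      tensF (Function.update F a.succ (deriv (F a.succ))) (Pi.single b c)) p = 0 := by
  have hd : ∀ i, Differentiable ℝ (F i) := fun i => (hF i).differentiable (by simp)
  have hdd : ∀ i, Differentiable ℝ (deriv (F i)) := fun i => by
    have := (hF i).differentiable_iteratedDeriv 1 (by exact_mod_cast ENat.natCast_lt_top _)
    simpa [iteratedDeriv_one] using this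
  have hne : a.succ ≠ b.succ := fun h => hab (Fin.succ_injective _ h)
  have h1 : ∀ i, Differentiable ℝ (Function.update F b.succ (deriv (F b.succ)) i) := by
    intro i
    by_cases hi : i = b.succ
    · subst hi; simpa using hdd _
    · simpa [Function.update_of_ne hi] using hd i
  have h2 : ∀ i, Differentiable ℝ (Function.update F a.succ (deriv (F a.succ)) i) := by
    intro i
    by_cases hi : i = a.succ
    · subst hi; simpa using hdd _
    · simpa [Function.update_of_ne hi] using hd i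
  rw [spaceDiv_sub (tensF_differentiable h1 _ p) (tensF_differentiable h2 _ p),
    spaceDiv_tensF_single h1, spaceDiv_tensF_single h2,
    Function.update_of_ne hne, Function.update_of_ne hne.symm,
    Function.update_comm hne]
  ring

/-! ### Supports -/

theorem tensF_eq_zero_of_factor {F : Fin 4 → ℝ → ℝ} (v : Fin 3 → ℝ) {p : ℝ × (Fin 3 → ℝ)}
    (i : Fin 4) (h : F i (crdL i p) = 0) : tensF F v p = 0 := by
  simp only [tensF]
  rw [Finset.prod_eq_zero (Finset.mem_univ i) h, zero_smul]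

theorem tensF_eq_zero_of_time {F : Fin 4 → ℝ → ℝ} (v : Fin 3 → ℝ) {s : Set ℝ}
    (h : ∀ t, t ∉ s → F 0 t = 0) (p : ℝ × (Fin 3 → ℝ)) (hp : p.1 ∉ s) : tensF F v p = 0 :=
  tensF_eq_zero_of_factor v 0 (by simpa using h p.1 hp)

theorem tensF_hasCompactSupport {F : Fin 4 → ℝ → ℝ} (hF : ∀ i, HasCompactSupport (F i))
    (v : Fin 3 → ℝ) : HasCompactSupport (tensF F v) := by
  refine HasCompactSupport.intro
    (K := (tsupport (F 0)) ×ˢ (Set.pi Set.univ (fun j : Fin 3 => tsupport (F j.succ)))) ?_ ?_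
  · exact (hF 0).isCompact.prod (isCompact_univ_pi (fun j => (hF j.succ).isCompact))
  · intro p hp
    rw [Set.mem_prod, not_and_or] at hp
    rcases hp with hp | hp
    · exact tensF_eq_zero_of_factor v 0 (by simpa using image_eq_zero_of_notMem_tsupport hp)
    · rw [Set.mem_univ_pi, not_forall] at hp
      obtain ⟨j, hj⟩ := hp
      exact tensF_eq_zero_of_factor v j.succ
        (by simpa [crdL_succ] using image_eq_zero_of_notMem_tsupport hj)

theorem hasCompactSupport_finset_sum_field {ι : Type*} (s : Finset ι) (U : ι → Field)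
    (hU : ∀ i ∈ s, HasCompactSupport (U i)) : HasCompactSupport (∑ i ∈ s, U i) := by
  classical
  induction s using Finset.induction_on with
  | empty => simpa using (HasCompactSupport.zero : HasCompactSupport (0 : Field))
  | insert a s ha ih =>
    rw [Finset.sum_insert ha]
    exact (hU a (Finset.mem_insert_self a s)).add (ih (fun i hi => hU i (Finset.mem_insert_of_mem hi)))

/-! ### Bounds -/

/-- Global bounds for the mixed derivatives of a tensor field from bounds of the iterated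
derivatives of its factors. -/
theorem abs_mixedDeriv_tensF_le {F : Fin 4 → ℝ → ℝ} (hF : ∀ i, ContDiff ℝ ∞ (F i)) (v : Fin 3 → ℝ)
    (B : Fin 4 → ℕ → ℝ) (hB : ∀ i k x, |iteratedDeriv k (F i) x| ≤ B i k)
    (ds : List (Fin 4)) (p : ℝ × (Fin 3 → ℝ)) (j : Fin 3) :
    |mixedDeriv ds (tensF F v) p j| ≤ (∏ i : Fin 4, B i (ds.count i)) * |v j| := by
  rw [mixedDeriv_tensF hF]
  simp only [tensF, Pi.smul_apply, smul_eq_mul, abs_mul, Finset.abs_prod]
  refine mul_le_mul_of_nonneg_right ?_ (abs_nonneg _)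
  exact Finset.prod_le_prod (fun i _ => abs_nonneg _) (fun i _ => hB i _ _)

end Crest.Agent.S0170
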