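import Mathlib
import Crest.Prelude.Def_BoxFlow
import Crest.Agent.S0170_Flow
import Crest.Agent.S0170_Tensor

/-!
# Row 126 (S0170) — WP-MOVE: stage fields and the flow of a schedule

* `IsStep S`      : abstract smooth step profile (`0` on `(-∞,0]`, `1` on `[1,∞)`, values in `[0,1]`).
* `Stage`         : rational data of one move `x_α += lam + sig * (x_β - c)` (translation or shear)
                    with plateau box `[lo, hi]` and cut-off margin `ε`.
* `stageField`    : the divergence-free stream-function field of a stage (two `tensF` terms).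
* `schedField`    : sum of the stage fields of a schedule of `N` stages; stage `s` is active in the
                    time slot `[1/4 + s/(2N), 1/4 + (s+1)/(2N)]`.
* `sched_flow`    : smooth, compactly supported, off outside `[1/4,3/4]`, divergence free, and the
                    flow sends every point with a legal itinerary to the end of its itinerary.
* `Gen S`         : the class of one-dimensional factors (closure of the profile under rational
                    affine substitution, sums, products, derivatives); all factors of the schedule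
                    field belong to it (`Stage.upd_gen`).

Owner: helper8.  Nothing here uses `sorry`.
-/

set_option autoImplicit false
open scoped ContDiff
open Crest.AnalysisR.BoxFlow

namespace Crest.Agent.S0170

/-- An abstract smooth step profile: `0` on `(-∞, 0]`, `1` on `[1, ∞)`, values in `[0, 1]`. -/
structure IsStep (S : ℝ → ℝ) : Prop where
  smooth : ContDiff ℝ ∞ S
  zero : ∀ x, x ≤ 0 → S x = 0
  one : ∀ x, 1 ≤ x → S x = 1
  nonneg : ∀ x, 0 ≤ S x
  le_one : ∀ x, S x ≤ 1

theorem IsStep.differentiable {S : ℝ → ℝ} (hS : IsStep S) : Differentiable ℝ S :=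
  hS.smooth.differentiable (by simp)

theorem IsStep.contDiff_deriv {S : ℝ → ℝ} (hS : IsStep S) : ContDiff ℝ ∞ (deriv S) := by
  have := hS.smooth.iterate_deriv 1
  simpa using this

theorem IsStep.deriv_eq_zero {S : ℝ → ℝ} (hS : IsStep S) {x : ℝ} (hx : x ≤ 0 ∨ 1 ≤ x) :
    deriv S x = 0 := by
  have hc : Continuous (deriv S) := hS.contDiff_deriv.continuous
  have hcl : IsClosed {x : ℝ | deriv S x = 0} := isClosed_eq hc continuous_const
  rcases hx with hx | hx
  · have hsub : Set.Iio (0 : ℝ) ⊆ {x : ℝ | deriv S x = 0} := by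
      intro y hy
      have hev : S =ᶠ[nhds y] fun _ => (0 : ℝ) := by
        filter_upwards [Iio_mem_nhds (show y < 0 from hy)] with z hz
        exact hS.zero z (le_of_lt hz)
      show deriv S y = 0
      rw [hev.deriv_eq]
      simp
    have := closure_minimal hsub hcl
    rw [closure_Iio] at this
    exact this hx
  · have hsub : Set.Ioi (1 : ℝ) ⊆ {x : ℝ | deriv S x = 0} := by
      intro y hy
      have hev : S =ᶠ[nhds y] fun _ => (1 : ℝ) := by
        filter_upwards [Ioi_mem_nhds (show 1 < y from hy)] with z hz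
        exact hS.one z (le_of_lt hz)
      show deriv S y = 0
      rw [hev.deriv_eq]
      simp
    have := closure_minimal hsub hcl
    rw [closure_Ioi] at this
    exact this hx

/-! ### The plateau bump -/

/-- The plateau bump: `1` on `[lo, hi]`, `0` outside `(lo - ε, hi + ε)`. -/
noncomputable def mvBump (S : ℝ → ℝ) (lo hi ε : ℝ) (y : ℝ) : ℝ :=
  S ((y - lo + ε) / ε) - S ((y - hi) / ε)

theorem mvBump_contDiff {S : ℝ → ℝ} (hS : IsStep S) (lo hi ε : ℝ) :
    ContDiff ℝ ∞ (mvBump S lo hi ε) := by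
  unfold mvBump
  exact (hS.smooth.comp (by fun_prop)).sub (hS.smooth.comp (by fun_prop))

theorem mvBump_eq_one {S : ℝ → ℝ} (hS : IsStep S) {lo hi ε y : ℝ} (hε : 0 < ε)
    (h1 : lo ≤ y) (h2 : y ≤ hi) : mvBump S lo hi ε y = 1 := by
  unfold mvBump
  rw [hS.one _ (by rw [le_div_iff₀ hε]; linarith),
    hS.zero _ (div_nonpos_of_nonpos_of_nonneg (by linarith) hε.le)]
  ring

theorem mvBump_eq_zero {S : ℝ → ℝ} (hS : IsStep S) {lo hi ε y : ℝ} (hε : 0 < ε) (hlh : lo ≤ hi)
    (h : y ≤ lo - ε ∨ hi + ε ≤ y) : mvBump S lo hi ε y = 0 := by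
  unfold mvBump
  rcases h with h | h
  · rw [hS.zero _ (div_nonpos_of_nonpos_of_nonneg (by linarith) hε.le),
      hS.zero _ (div_nonpos_of_nonpos_of_nonneg (by linarith) hε.le)]
    ring
  · rw [hS.one _ (by rw [le_div_iff₀ hε]; linarith), hS.one _ (by rw [le_div_iff₀ hε]; linarith)]
    ring

theorem mvBump_hasDerivAt {S : ℝ → ℝ} (hS : IsStep S) (lo hi ε y : ℝ) :
    HasDerivAt (mvBump S lo hi ε)
      (deriv S ((y - lo + ε) / ε) * (1 / ε) - deriv S ((y - hi) / ε) * (1 / ε)) y := by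
  unfold mvBump
  have h1 : HasDerivAt (fun y : ℝ => (y - lo + ε) / ε) (1 / ε) y := by
    have := ((hasDerivAt_id y).sub_const lo).add_const ε
    exact this.div_const ε
  have h2 : HasDerivAt (fun y : ℝ => (y - hi) / ε) (1 / ε) y := by
    have := (hasDerivAt_id y).sub_const hi
    exact this.div_const ε
  have d1 := (hS.differentiable _).hasDerivAt.comp y h1
  have d2 := (hS.differentiable _).hasDerivAt.comp y h2
  exact d1.sub d2

theorem mvBump_deriv_eq_zero {S : ℝ → ℝ} (hS : IsStep S) {lo hi ε y : ℝ} (hε : 0 < ε)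
    (hlh : lo ≤ hi) (h : y ≤ lo - ε ∨ hi + ε ≤ y ∨ (lo ≤ y ∧ y ≤ hi)) :
    deriv (mvBump S lo hi ε) y = 0 := by
  rw [(mvBump_hasDerivAt hS lo hi ε y).deriv]
  rcases h with h | h | ⟨h1, h2⟩
  · rw [hS.deriv_eq_zero (Or.inl (div_nonpos_of_nonpos_of_nonneg (by linarith) hε.le)),
      hS.deriv_eq_zero (Or.inl (div_nonpos_of_nonpos_of_nonneg (by linarith) hε.le))]
    ring
  · rw [hS.deriv_eq_zero (Or.inr (by rw [le_div_iff₀ hε]; linarith)),
      hS.deriv_eq_zero (Or.inr (by rw [le_div_iff₀ hε]; linarith))]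
    ring
  · rw [hS.deriv_eq_zero (Or.inr (by rw [le_div_iff₀ hε]; linarith)),
      hS.deriv_eq_zero (Or.inl (div_nonpos_of_nonpos_of_nonneg (by linarith) hε.le))]
    ring

theorem mvBump_hasCompactSupport {S : ℝ → ℝ} (hS : IsStep S) {lo hi ε : ℝ} (hε : 0 < ε)
    (hlh : lo ≤ hi) : HasCompactSupport (mvBump S lo hi ε) := by
  refine HasCompactSupport.intro (K := Set.Icc (lo - ε) (hi + ε)) isCompact_Icc ?_
  intro y hy
  rw [Set.mem_Icc, not_and_or, not_le, not_le] at hy
  exact mvBump_eq_zero hS hε hlh (hy.imp le_of_lt le_of_lt)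

/-! ### The time ramp -/

/-- Start time of slot `s` (of `N`): `1/4 + s/(2N)`. -/
noncomputable def mvT (N s : ℕ) : ℝ := 1 / 4 + (s : ℝ) / (2 * (N : ℝ))

/-- The time ramp of stage `s`: `0` before slot `s`, `1` after it. -/
noncomputable def mvRamp (S : ℝ → ℝ) (N s : ℕ) (t : ℝ) : ℝ :=
  S (2 * (N : ℝ) * t - (N : ℝ) / 2 - (s : ℝ))

theorem mvT_mono (N : ℕ) {s s' : ℕ} (h : s ≤ s') : mvT N s ≤ mvT N s' := by
  unfold mvT
  have : (s : ℝ) ≤ (s' : ℝ) := by exact_mod_cast h
  gcongr

theorem mvT_zero (N : ℕ) : mvT N 0 = 1 / 4 := by simp [mvT]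

theorem mvT_self {N : ℕ} (hN : 0 < N) : mvT N N = 3 / 4 := by
  have : (N : ℝ) ≠ 0 := by exact_mod_cast hN.ne'
  unfold mvT
  field_simp
  ring

theorem mvT_le (N s : ℕ) (hs : s ≤ N) : mvT N s ≤ 3 / 4 := by
  rcases Nat.eq_zero_or_pos N with h | h
  · subst h
    simp [mvT]
    norm_num
  · exact (mvT_mono N hs).trans (mvT_self h).le

theorem mvT_ge (N s : ℕ) : 1 / 4 ≤ mvT N s := by
  unfold mvT
  have : 0 ≤ (s : ℝ) / (2 * (N : ℝ)) := by positivity
  linarith

/-- The argument of the ramp, in terms of the slot start time. -/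
theorem mvRamp_arg {N : ℕ} (hN : 0 < N) (s : ℕ) (t : ℝ) :
    2 * (N : ℝ) * t - (N : ℝ) / 2 - (s : ℝ) = 2 * (N : ℝ) * (t - mvT N s) := by
  have : (N : ℝ) ≠ 0 := by exact_mod_cast hN.ne'
  unfold mvT
  field_simp
  ring

theorem mvRamp_arg_succ {N : ℕ} (hN : 0 < N) (s : ℕ) (t : ℝ) :
    2 * (N : ℝ) * t - (N : ℝ) / 2 - (s : ℝ) = 1 + 2 * (N : ℝ) * (t - mvT N (s + 1)) := by
  have : (N : ℝ) ≠ 0 := by exact_mod_cast hN.ne'
  unfold mvT
  push_cast
  field_simp
  ring

theorem mvRamp_hasDerivAt {S : ℝ → ℝ} (hS : IsStep S) (N s : ℕ) (t : ℝ) :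
    HasDerivAt (mvRamp S N s)
      (deriv S (2 * (N : ℝ) * t - (N : ℝ) / 2 - (s : ℝ)) * (2 * (N : ℝ))) t := by
  unfold mvRamp
  have h1 : HasDerivAt (fun t : ℝ => 2 * (N : ℝ) * t - (N : ℝ) / 2 - (s : ℝ)) (2 * (N : ℝ)) t := by
    have := (((hasDerivAt_id t).const_mul (2 * (N : ℝ))).sub_const ((N : ℝ) / 2)).sub_const (s : ℝ)
    simpa using this
  exact (hS.differentiable _).hasDerivAt.comp t h1

theorem mvRamp_contDiff {S : ℝ → ℝ} (hS : IsStep S) (N s : ℕ) : ContDiff ℝ ∞ (mvRamp S N s) := by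
  unfold mvRamp
  exact hS.smooth.comp (by fun_prop)

theorem mvRamp_deriv_contDiff {S : ℝ → ℝ} (hS : IsStep S) (N s : ℕ) :
    ContDiff ℝ ∞ (deriv (mvRamp S N s)) := by
  have := (mvRamp_contDiff hS N s).iterate_deriv 1
  simpa using this

theorem mvRamp_deriv_eq_zero {S : ℝ → ℝ} (hS : IsStep S) {N : ℕ} (hN : 0 < N) (s : ℕ) {t : ℝ}
    (ht : t ≤ mvT N s ∨ mvT N (s + 1) ≤ t) : deriv (mvRamp S N s) t = 0 := by
  have hN' : (0 : ℝ) < (N : ℝ) := by exact_mod_cast hN
  rw [(mvRamp_hasDerivAt hS N s t).deriv]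
  rcases ht with ht | ht
  · rw [hS.deriv_eq_zero (Or.inl ?_), zero_mul]
    rw [mvRamp_arg hN]
    exact mul_nonpos_of_nonneg_of_nonpos (by positivity) (by linarith)
  · rw [hS.deriv_eq_zero (Or.inr ?_), zero_mul]
    rw [mvRamp_arg_succ hN]
    have : 0 ≤ 2 * (N : ℝ) * (t - mvT N (s + 1)) := mul_nonneg (by positivity) (by linarith)
    linarith

theorem mvRamp_start {S : ℝ → ℝ} (hS : IsStep S) {N : ℕ} (hN : 0 < N) (s : ℕ) :
    mvRamp S N s (mvT N s) = 0 := by
  unfold mvRamp
  rw [mvRamp_arg hN]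
  exact hS.zero _ (by simp)

theorem mvRamp_end {S : ℝ → ℝ} (hS : IsStep S) {N : ℕ} (hN : 0 < N) (s : ℕ) :
    mvRamp S N s (mvT N (s + 1)) = 1 := by
  unfold mvRamp
  rw [mvRamp_arg_succ hN]
  exact hS.one _ (by simp)

theorem mvRamp_deriv_hasCompactSupport {S : ℝ → ℝ} (hS : IsStep S) {N : ℕ} (hN : 0 < N) (s : ℕ) :
    HasCompactSupport (deriv (mvRamp S N s)) := by
  refine HasCompactSupport.intro (K := Set.Icc (mvT N s) (mvT N (s + 1))) isCompact_Icc ?_
  intro t ht
  rw [Set.mem_Icc, not_and_or, not_le, not_le] at ht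
  exact mvRamp_deriv_eq_zero hS hN s (ht.imp le_of_lt le_of_lt)

/-! ### Stages -/

/-- Data of one stage: the move `x_α += lam + sig * (x_β - c)` (a translation if `sig = 0`, a shear
if `lam = 0`), performed on the plateau box `[lo, hi]`, with cut-off margin `ε`. -/
structure Stage where
  α : Fin 3
  β : Fin 3
  hαβ : α ≠ β
  lam : ℚ
  sig : ℚ
  c : ℚ
  lo : Fin 3 → ℚ
  hi : Fin 3 → ℚ
  ε : ℚ
  hε : 0 < ε
  hlh : ∀ j, lo j ≤ hi j

/-- The map performed by the stage on its plateau. -/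
noncomputable def Stage.move (d : Stage) (y : Fin 3 → ℝ) : Fin 3 → ℝ :=
  Function.update y d.α (y d.α + ((d.lam : ℝ) + (d.sig : ℝ) * (y d.β - (d.c : ℝ))))

/-- The point lies in the (closed) plateau box. -/
def Stage.InPlateau (d : Stage) (y : Fin 3 → ℝ) : Prop :=
  ∀ j, (d.lo j : ℝ) ≤ y j ∧ y j ≤ (d.hi j : ℝ)

/-- The point is moved by the stage: it and its image lie in the plateau box. -/
def Stage.Moved (d : Stage) (y : Fin 3 → ℝ) : Prop := d.InPlateau y ∧ d.InPlateau (d.move y)

/-- The point is at rest during the stage: it lies outside the open `ε`-enlarged plateau box. -/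
def Stage.Rest (d : Stage) (y : Fin 3 → ℝ) : Prop :=
  ∃ j, y j ≤ (d.lo j : ℝ) - (d.ε : ℝ) ∨ (d.hi j : ℝ) + (d.ε : ℝ) ≤ y j

/-- The potential polynomial, with derivative `lam + sig * (y - c)`. -/
noncomputable def Stage.pot (d : Stage) (y : ℝ) : ℝ :=
  (d.lam : ℝ) * y + (d.sig : ℝ) * (y - (d.c : ℝ)) ^ 2 / 2

/-- The plateau bump along axis `j`. -/
noncomputable def Stage.bump (d : Stage) (S : ℝ → ℝ) (j : Fin 3) : ℝ → ℝ :=
  mvBump S (d.lo j) (d.hi j) (d.ε)

/-- The space factor of the stream function along axis `j`. -/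
noncomputable def Stage.sfac (d : Stage) (S : ℝ → ℝ) (j : Fin 3) : ℝ → ℝ :=
  if j = d.β then fun y => d.bump S j y * d.pot y else d.bump S j

/-- The four factors of the stream function: time factor (the derivative of the ramp), then the
three space factors. -/
noncomputable def Stage.fac (d : Stage) (S : ℝ → ℝ) (N s : ℕ) : Fin 4 → ℝ → ℝ :=
  Fin.cons (deriv (mvRamp S N s)) (d.sfac S)

/-- The velocity field of stage `s` (of `N`). -/
noncomputable def stageField (S : ℝ → ℝ) (N s : ℕ) (d : Stage) : Field :=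
  tensF (Function.update (d.fac S N s) d.β.succ (deriv (d.fac S N s d.β.succ))) (Pi.single d.α 1) -
  tensF (Function.update (d.fac S N s) d.α.succ (deriv (d.fac S N s d.α.succ))) (Pi.single d.β 1)

/-- The velocity field of a schedule of `N` stages. -/
noncomputable def schedField (S : ℝ → ℝ) (N : ℕ) (st : ℕ → Stage) : Field :=
  ∑ s ∈ Finset.range N, stageField S N s (st s)

theorem Stage.epos (d : Stage) : (0 : ℝ) < (d.ε : ℝ) := by exact_mod_cast d.hε

theorem Stage.lohi (d : Stage) (j : Fin 3) : (d.lo j : ℝ) ≤ (d.hi j : ℝ) := by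
  exact_mod_cast d.hlh j

theorem Stage.pot_hasDerivAt (d : Stage) (y : ℝ) :
    HasDerivAt d.pot ((d.lam : ℝ) + (d.sig : ℝ) * (y - (d.c : ℝ))) y := by
  unfold Stage.pot
  have h1 : HasDerivAt (fun y : ℝ => (d.lam : ℝ) * y) (d.lam : ℝ) y := by
    simpa using (hasDerivAt_id y).const_mul (d.lam : ℝ)
  have h2 : HasDerivAt (fun y : ℝ => (d.sig : ℝ) * (y - (d.c : ℝ)) ^ 2 / 2)
      ((d.sig : ℝ) * (y - (d.c : ℝ))) y := by
    have h := ((((hasDerivAt_id' y).sub_const (d.c : ℝ)).pow 2).const_mul (d.sig : ℝ)).div_const 2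
    have e : (d.sig : ℝ) * (((2 : ℕ) : ℝ) * (y - (d.c : ℝ)) ^ (2 - 1) * 1) / 2 =
        (d.sig : ℝ) * (y - (d.c : ℝ)) := by
      push_cast
      ring
    rw [← e]
    exact h
  exact h1.add h2

theorem Stage.pot_contDiff (d : Stage) : ContDiff ℝ ∞ d.pot := by
  unfold Stage.pot
  fun_prop

theorem Stage.bump_contDiff (d : Stage) {S : ℝ → ℝ} (hS : IsStep S) (j : Fin 3) :
    ContDiff ℝ ∞ (d.bump S j) := mvBump_contDiff hS _ _ _

theorem Stage.sfac_contDiff (d : Stage) {S : ℝ → ℝ} (hS : IsStep S) (j : Fin 3) :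
    ContDiff ℝ ∞ (d.sfac S j) := by
  unfold Stage.sfac
  split_ifs
  · exact (d.bump_contDiff hS j).mul d.pot_contDiff
  · exact d.bump_contDiff hS j

theorem Stage.sfac_hasCompactSupport (d : Stage) {S : ℝ → ℝ} (hS : IsStep S) (j : Fin 3) :
    HasCompactSupport (d.sfac S j) := by
  have hb : HasCompactSupport (d.bump S j) := mvBump_hasCompactSupport hS d.epos (d.lohi j)
  unfold Stage.sfac
  split_ifs
  · exact hb.mul_right
  · exact hb

theorem Stage.fac_contDiff (d : Stage) {S : ℝ → ℝ} (hS : IsStep S) (N s : ℕ) (i : Fin 4) :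
    ContDiff ℝ ∞ (d.fac S N s i) := by
  unfold Stage.fac
  refine Fin.cases ?_ (fun j => ?_) i
  · simpa using mvRamp_deriv_contDiff hS N s
  · simpa using d.sfac_contDiff hS j

theorem Stage.fac_hasCompactSupport (d : Stage) {S : ℝ → ℝ} (hS : IsStep S) {N : ℕ} (hN : 0 < N)
    (s : ℕ) (i : Fin 4) : HasCompactSupport (d.fac S N s i) := by
  unfold Stage.fac
  refine Fin.cases ?_ (fun j => ?_) i
  · simpa using mvRamp_deriv_hasCompactSupport hS hN s
  · simpa using d.sfac_hasCompactSupport hS j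

theorem contDiff_deriv_of_contDiff {f : ℝ → ℝ} (hf : ContDiff ℝ ∞ f) : ContDiff ℝ ∞ (deriv f) := by
  have := hf.iterate_deriv 1
  simpa using this

theorem Stage.upd_contDiff (d : Stage) {S : ℝ → ℝ} (hS : IsStep S) (N s : ℕ) (k i : Fin 4) :
    ContDiff ℝ ∞ (Function.update (d.fac S N s) k (deriv (d.fac S N s k)) i) := by
  by_cases h : i = k
  · subst h
    simpa using contDiff_deriv_of_contDiff (d.fac_contDiff hS N s i)
  · simpa [Function.update_of_ne h] using d.fac_contDiff hS N s i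

theorem Stage.upd_hasCompactSupport (d : Stage) {S : ℝ → ℝ} (hS : IsStep S) {N : ℕ} (hN : 0 < N)
    (s : ℕ) (k i : Fin 4) :
    HasCompactSupport (Function.update (d.fac S N s) k (deriv (d.fac S N s k)) i) := by
  by_cases h : i = k
  · subst h
    simpa using (d.fac_hasCompactSupport hS hN s i).deriv
  · simpa [Function.update_of_ne h] using d.fac_hasCompactSupport hS hN s i

theorem stageField_contDiff {S : ℝ → ℝ} (hS : IsStep S) (N s : ℕ) (d : Stage) :
    ContDiff ℝ ∞ (stageField S N s d) := by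
  unfold stageField
  exact (tensF_contDiff (fun i => d.upd_contDiff hS N s _ i) _).sub
    (tensF_contDiff (fun i => d.upd_contDiff hS N s _ i) _)

theorem stageField_hasCompactSupport {S : ℝ → ℝ} (hS : IsStep S) {N : ℕ} (hN : 0 < N) (s : ℕ)
    (d : Stage) : HasCompactSupport (stageField S N s d) := by
  unfold stageField
  exact (tensF_hasCompactSupport (fun i => d.upd_hasCompactSupport hS hN s _ i) _).sub
    (tensF_hasCompactSupport (fun i => d.upd_hasCompactSupport hS hN s _ i) _)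

theorem stageField_spaceDiv {S : ℝ → ℝ} (hS : IsStep S) (N s : ℕ) (d : Stage)
    (p : ℝ × (Fin 3 → ℝ)) : spaceDiv (stageField S N s d) p = 0 := by
  unfold stageField
  exact spaceDiv_stream (fun i => d.fac_contDiff hS N s i) d.hαβ 1 p

/-! ### Pointwise evaluation of the stage field -/

theorem Stage.fac_zero (d : Stage) (S : ℝ → ℝ) (N s : ℕ) :
    d.fac S N s 0 = deriv (mvRamp S N s) := rfl

theorem Stage.fac_succ (d : Stage) (S : ℝ → ℝ) (N s : ℕ) (j : Fin 3) :
    d.fac S N s j.succ = d.sfac S j := rfl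

theorem Stage.sfac_of_ne (d : Stage) (S : ℝ → ℝ) {j : Fin 3} (h : j ≠ d.β) :
    d.sfac S j = d.bump S j := by
  simp [Stage.sfac, h]

theorem Stage.sfac_beta (d : Stage) (S : ℝ → ℝ) :
    d.sfac S d.β = fun y => d.bump S d.β y * d.pot y := by
  simp [Stage.sfac]

theorem Stage.bump_rest (d : Stage) {S : ℝ → ℝ} (hS : IsStep S) (j : Fin 3) {y : ℝ}
    (h : y ≤ (d.lo j : ℝ) - (d.ε : ℝ) ∨ (d.hi j : ℝ) + (d.ε : ℝ) ≤ y) :
    d.bump S j y = 0 ∧ deriv (d.bump S j) y = 0 :=
  ⟨mvBump_eq_zero hS d.epos (d.lohi j) h,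
    mvBump_deriv_eq_zero hS d.epos (d.lohi j) (by tauto)⟩

theorem Stage.bump_plateau (d : Stage) {S : ℝ → ℝ} (hS : IsStep S) (j : Fin 3) {y : ℝ}
    (h1 : (d.lo j : ℝ) ≤ y) (h2 : y ≤ (d.hi j : ℝ)) :
    d.bump S j y = 1 ∧ deriv (d.bump S j) y = 0 :=
  ⟨mvBump_eq_one hS d.epos h1 h2,
    mvBump_deriv_eq_zero hS d.epos (d.lohi j) (Or.inr (Or.inr ⟨h1, h2⟩))⟩

theorem Stage.sfac_deriv_beta (d : Stage) {S : ℝ → ℝ} (hS : IsStep S) (y : ℝ) :
    deriv (d.sfac S d.β) y = deriv (d.bump S d.β) y * d.pot y +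
      d.bump S d.β y * ((d.lam : ℝ) + (d.sig : ℝ) * (y - (d.c : ℝ))) := by
  rw [d.sfac_beta]
  have hb : HasDerivAt (d.bump S d.β) (deriv (d.bump S d.β) y) y :=
    ((d.bump_contDiff hS d.β).differentiable (by simp) y).hasDerivAt
  exact (hb.mul (d.pot_hasDerivAt y)).deriv

theorem Stage.sfac_rest (d : Stage) {S : ℝ → ℝ} (hS : IsStep S) (j : Fin 3) {y : ℝ}
    (h : y ≤ (d.lo j : ℝ) - (d.ε : ℝ) ∨ (d.hi j : ℝ) + (d.ε : ℝ) ≤ y) :
    d.sfac S j y = 0 ∧ deriv (d.sfac S j) y = 0 := by
  obtain ⟨hb, hb'⟩ := d.bump_rest hS j h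
  by_cases hj : j = d.β
  · subst hj
    refine ⟨?_, ?_⟩
    · rw [d.sfac_beta]; simp [hb]
    · rw [d.sfac_deriv_beta hS, hb, hb']; ring
  · rw [d.sfac_of_ne S hj]; exact ⟨hb, hb'⟩

/-- On the plateau box the stage field is the affine field `τ(t) (lam + sig (y_β - c)) e_α`. -/
theorem stageField_plateau {S : ℝ → ℝ} (hS : IsStep S) (N s : ℕ) (d : Stage) (t : ℝ)
    {y : Fin 3 → ℝ} (hy : d.InPlateau y) :
    stageField S N s d (t, y) =
      (deriv (mvRamp S N s) t * ((d.lam : ℝ) + (d.sig : ℝ) * (y d.β - (d.c : ℝ)))) •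
        (Pi.single d.α 1 : Fin 3 → ℝ) := by
  unfold stageField
  have h2 : tensF (Function.update (d.fac S N s) d.α.succ (deriv (d.fac S N s d.α.succ)))
      (Pi.single d.β 1) (t, y) = 0 := by
    refine tensF_eq_zero_of_factor _ d.α.succ ?_
    rw [Function.update_self, crdL_succ, d.fac_succ, d.sfac_of_ne S d.hαβ]
    exact (d.bump_plateau hS d.α (hy d.α).1 (hy d.α).2).2
  rw [Pi.sub_apply, h2, sub_zero]
  simp only [tensF]
  congr 1
  rw [Fin.prod_univ_succ, Function.update_of_ne (Fin.succ_ne_zero d.β).symm, d.fac_zero, crdL_zero]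
  congr 1
  rw [Finset.prod_eq_single d.β]
  · rw [Function.update_self, crdL_succ, d.fac_succ, d.sfac_deriv_beta hS,
      (d.bump_plateau hS d.β (hy d.β).1 (hy d.β).2).1,
      (d.bump_plateau hS d.β (hy d.β).1 (hy d.β).2).2]
    ring
  · intro j _ hj
    have hne : j.succ ≠ d.β.succ := fun h => hj (Fin.succ_injective _ h)
    rw [Function.update_of_ne hne, crdL_succ, d.fac_succ, d.sfac_of_ne S hj]
    exact (d.bump_plateau hS j (hy j).1 (hy j).2).1
  · intro h
    exact absurd (Finset.mem_univ _) h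

/-- Outside the open `ε`-enlarged plateau box the stage field vanishes. -/
theorem stageField_rest {S : ℝ → ℝ} (hS : IsStep S) (N s : ℕ) (d : Stage) (t : ℝ)
    {y : Fin 3 → ℝ} (hy : d.Rest y) : stageField S N s d (t, y) = 0 := by
  obtain ⟨j, hj⟩ := hy
  obtain ⟨h0, h0'⟩ := d.sfac_rest hS j hj
  unfold stageField
  have key : ∀ k : Fin 4,
      (Function.update (d.fac S N s) k (deriv (d.fac S N s k))) j.succ (y j) = 0 := by
    intro k
    by_cases hk : j.succ = k
    · subst hk
      rw [Function.update_self, d.fac_succ]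
      exact h0'
    · rw [Function.update_of_ne hk, d.fac_succ]
      exact h0
  rw [Pi.sub_apply, tensF_eq_zero_of_factor _ j.succ (by rw [crdL_succ]; exact key _),
    tensF_eq_zero_of_factor _ j.succ (by rw [crdL_succ]; exact key _), sub_zero]

/-- The stage field vanishes whenever its time factor does. -/
theorem stageField_time_zero (S : ℝ → ℝ) (N s : ℕ) (d : Stage) {t : ℝ}
    (ht : deriv (mvRamp S N s) t = 0) (y : Fin 3 → ℝ) : stageField S N s d (t, y) = 0 := by
  unfold stageField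
  have key : ∀ k : Fin 3,
      (Function.update (d.fac S N s) k.succ (deriv (d.fac S N s k.succ))) 0 t = 0 := by
    intro k
    rw [Function.update_of_ne (Fin.succ_ne_zero k).symm, d.fac_zero]
    exact ht
  rw [Pi.sub_apply, tensF_eq_zero_of_factor _ 0 (by rw [crdL_zero]; exact key _),
    tensF_eq_zero_of_factor _ 0 (by rw [crdL_zero]; exact key _), sub_zero]

/-! ### The schedule field -/

theorem schedField_apply (S : ℝ → ℝ) (N : ℕ) (st : ℕ → Stage) (p : ℝ × (Fin 3 → ℝ)) :
    schedField S N st p = ∑ s ∈ Finset.range N, stageField S N s (st s) p := by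
  simp [schedField, Finset.sum_apply]

/-- During the (closed) time slot of stage `s` only the field of stage `s` is active. -/
theorem schedField_in_slot {S : ℝ → ℝ} (hS : IsStep S) {N s : ℕ} (hs : s < N) (st : ℕ → Stage)
    {t : ℝ} (ht : t ∈ Set.Icc (mvT N s) (mvT N (s + 1))) (y : Fin 3 → ℝ) :
    schedField S N st (t, y) = stageField S N s (st s) (t, y) := by
  rw [schedField_apply]
  refine Finset.sum_eq_single s (fun s' _ hne => ?_) (fun h => absurd (Finset.mem_range.2 hs) h)
  have hN : 0 < N := by omega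
  refine stageField_time_zero S N s' (st s') (mvRamp_deriv_eq_zero hS hN s' ?_) y
  rcases lt_or_gt_of_ne hne with h | h
  · right
    exact (mvT_mono N (by omega : s' + 1 ≤ s)).trans ht.1
  · left
    exact ht.2.trans (mvT_mono N (by omega : s + 1 ≤ s'))

/-- Before time `1/4` and after time `3/4` the schedule field vanishes. -/
theorem schedField_time_zero {S : ℝ → ℝ} (hS : IsStep S) (N : ℕ) (st : ℕ → Stage) {t : ℝ}
    (ht : t ≤ 1 / 4 ∨ 3 / 4 ≤ t) (y : Fin 3 → ℝ) : schedField S N st (t, y) = 0 := by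
  rw [schedField_apply]
  refine Finset.sum_eq_zero (fun s hs => ?_)
  have hsN := Finset.mem_range.1 hs
  have hN : 0 < N := by omega
  refine stageField_time_zero S N s (st s) (mvRamp_deriv_eq_zero hS hN s ?_) y
  rcases ht with ht | ht
  · left
    exact ht.trans (mvT_ge N s)
  · right
    exact (mvT_le N (s + 1) (by omega)).trans ht

theorem schedField_contDiff {S : ℝ → ℝ} (hS : IsStep S) (N : ℕ) (st : ℕ → Stage) :
    ContDiff ℝ ∞ (schedField S N st) :=
  contDiff_finset_sum_field _ _ (fun s _ => stageField_contDiff hS N s (st s))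

theorem schedField_hasCompactSupport {S : ℝ → ℝ} (hS : IsStep S) (N : ℕ) (st : ℕ → Stage) :
    HasCompactSupport (schedField S N st) :=
  hasCompactSupport_finset_sum_field _ _ (fun s hs =>
    stageField_hasCompactSupport hS (by have := Finset.mem_range.1 hs; omega) s (st s))

theorem schedField_spaceDiv {S : ℝ → ℝ} (hS : IsStep S) (N : ℕ) (st : ℕ → Stage)
    (p : ℝ × (Fin 3 → ℝ)) : spaceDiv (schedField S N st) p = 0 := by
  unfold schedField
  rw [spaceDiv_finset_sum _ _ _ (fun s _ =>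
    ((stageField_contDiff hS N s (st s)).differentiable (by simp)) p)]
  exact Finset.sum_eq_zero (fun s _ => stageField_spaceDiv hS N s (st s) p)

theorem schedField_off {S : ℝ → ℝ} (hS : IsStep S) (N : ℕ) (st : ℕ → Stage)
    (p : ℝ × (Fin 3 → ℝ)) (hp : p.1 ∉ Set.Icc (1 / 4 : ℝ) (3 / 4)) : schedField S N st p = 0 := by
  rw [Set.mem_Icc, not_and_or, not_le, not_le] at hp
  have := schedField_time_zero hS N st (t := p.1) (hp.imp le_of_lt le_of_lt) p.2
  simpa using this

/-! ### The flow of a schedule -/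

theorem Stage.move_eq (d : Stage) (y : Fin 3 → ℝ) :
    d.move y = y + ((d.lam : ℝ) + (d.sig : ℝ) * (y d.β - (d.c : ℝ))) •
      (Pi.single d.α 1 : Fin 3 → ℝ) := by
  funext j
  unfold Stage.move
  by_cases hj : j = d.α
  · subst hj
    simp
  · simp [Function.update_of_ne hj, Pi.single_eq_of_ne hj]

/-- One stage of the flow, for a point that is moved inside the plateau. -/
theorem sched_stage_moved {S : ℝ → ℝ} (hS : IsStep S) {N s : ℕ} (hs : s < N) (st : ℕ → Stage)
    (Φ : ℝ → (Fin 3 → ℝ) → (Fin 3 → ℝ)) (hΦ : IsFlow (schedField S N st) Φ)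
    (x : Fin 3 → ℝ) (hm : (st s).Moved (Φ (mvT N s) x)) :
    Φ (mvT N (s + 1)) x = (st s).move (Φ (mvT N s) x) := by
  have hN : 0 < N := by omega
  set d := st s with hd
  set y := Φ (mvT N s) x with hy
  set v : ℝ := (d.lam : ℝ) + (d.sig : ℝ) * (y d.β - (d.c : ℝ)) with hv
  have hstep := flow_step (schedField S N st) (schedField_contDiff hS N st)
    (schedField_hasCompactSupport hS N st) Φ hΦ x (mvT N s) (mvT N (s + 1))
    (mvT_mono N (Nat.le_succ s))
    (fun t => y + (mvRamp S N s t * v) • (Pi.single d.α 1 : Fin 3 → ℝ))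
    (fun t => (deriv (mvRamp S N s) t * v) • (Pi.single d.α 1 : Fin 3 → ℝ))
    (by simp [mvRamp_start hS hN s, hy]) ?_ ?_
  · rw [hstep, mvRamp_end hS hN s, one_mul, d.move_eq]
  · intro t _
    have h1 : HasDerivAt (mvRamp S N s) (deriv (mvRamp S N s) t) t :=
      ((mvRamp_contDiff hS N s).differentiable (by simp) t).hasDerivAt
    exact ((h1.mul_const v).smul_const _).const_add y
  · intro t ht
    have hθ0 : 0 ≤ mvRamp S N s t := hS.nonneg _
    have hθ1 : mvRamp S N s t ≤ 1 := hS.le_one _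
    have hβ : (y + (mvRamp S N s t * v) • (Pi.single d.α 1 : Fin 3 → ℝ)) d.β = y d.β := by
      simp [Pi.single_eq_of_ne d.hαβ.symm]
    have hin : d.InPlateau (y + (mvRamp S N s t * v) • (Pi.single d.α 1 : Fin 3 → ℝ)) := by
      intro j
      by_cases hj : j = d.α
      · subst hj
        have h0 := hm.1 d.α
        have h1 := hm.2 d.α
        rw [d.move_eq] at h1
        simp only [Pi.add_apply, Pi.smul_apply, Pi.single_eq_same, smul_eq_mul, mul_one] at h1 ⊢
        rw [← hv] at h1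
        constructor
        · nlinarith [h0.1, h1.1]
        · nlinarith [h0.2, h1.2]
      · have h0 := hm.1 j
        simp only [Pi.add_apply, Pi.smul_apply, Pi.single_eq_of_ne hj, smul_eq_mul, mul_zero,
          add_zero]
        exact h0
    rw [schedField_in_slot hS hs st ht, stageField_plateau hS N s d t hin, hβ]

/-- One stage of the flow, for a point at rest. -/
theorem sched_stage_rest {S : ℝ → ℝ} (hS : IsStep S) {N s : ℕ} (hs : s < N) (st : ℕ → Stage)
    (Φ : ℝ → (Fin 3 → ℝ) → (Fin 3 → ℝ)) (hΦ : IsFlow (schedField S N st) Φ)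
    (x : Fin 3 → ℝ) (hr : (st s).Rest (Φ (mvT N s) x)) :
    Φ (mvT N (s + 1)) x = Φ (mvT N s) x := by
  refine flow_const (schedField S N st) (schedField_contDiff hS N st)
    (schedField_hasCompactSupport hS N st) Φ hΦ x (mvT N s) (mvT N (s + 1))
    (mvT_mono N (Nat.le_succ s)) (fun t ht => ?_)
  rw [schedField_in_slot hS hs st ht, stageField_rest hS N s (st s) t hr]

/-- **Main theorem of the move package.** The schedule field is smooth, compactly supported,
switched off outside `[1/4, 3/4]` and divergence free, and it has a flow `Φ` such that every point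
`x` whose itinerary `A` is, at each stage, either moved inside the plateau box or at rest outside
the enlarged plateau box, satisfies `Φ 1 x = A N`. -/
theorem sched_flow {S : ℝ → ℝ} (hS : IsStep S) (N : ℕ) (st : ℕ → Stage) :
    ContDiff ℝ ∞ (schedField S N st) ∧ HasCompactSupport (schedField S N st) ∧
    (∀ p : ℝ × (Fin 3 → ℝ), p.1 ∉ Set.Icc (1 / 4 : ℝ) (3 / 4) → schedField S N st p = 0) ∧
    (∀ p : ℝ × (Fin 3 → ℝ), spaceDiv (schedField S N st) p = 0) ∧
    ∃ Φ : ℝ → (Fin 3 → ℝ) → (Fin 3 → ℝ), IsFlow (schedField S N st) Φ ∧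
      ∀ (x : Fin 3 → ℝ) (A : ℕ → Fin 3 → ℝ), A 0 = x →
        (∀ s < N, (A (s + 1) = (st s).move (A s) ∧ (st s).Moved (A s)) ∨
          (A (s + 1) = A s ∧ (st s).Rest (A s))) → Φ 1 x = A N := by
  have hU := schedField_contDiff hS N st
  have hc := schedField_hasCompactSupport hS N st
  refine ⟨hU, hc, schedField_off hS N st, schedField_spaceDiv hS N st, ?_⟩
  obtain ⟨Φ, hΦ⟩ := flow_exists (schedField S N st) hU hc (schedField_off hS N st)
  refine ⟨Φ, hΦ, fun x A hA0 hA => ?_⟩
  -- the flow is the identity up to time `1/4`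
  have h14 : Φ (1 / 4) x = x := by
    have := flow_const (schedField S N st) hU hc Φ hΦ x 0 (1 / 4) (by norm_num)
      (fun t ht => schedField_time_zero hS N st (Or.inl ht.2) _)
    rw [this, hΦ.1]
  -- stage by stage
  have key : ∀ s, s ≤ N → Φ (mvT N s) x = A s := by
    intro s
    induction s with
    | zero =>
      intro _
      rw [mvT_zero, h14, hA0]
    | succ s ih =>
      intro hs
      have hs' : s < N := hs
      have ihs := ih hs'.le
      rcases hA s hs' with ⟨h1, h2⟩ | ⟨h1, h2⟩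
      · rw [sched_stage_moved hS hs' st Φ hΦ x (by rw [ihs]; exact h2), ihs, h1]
      · rw [sched_stage_rest hS hs' st Φ hΦ x (by rw [ihs]; exact h2), ihs, h1]
  -- the flow is constant after the last stage
  have hlast : Φ 1 x = Φ (mvT N N) x := by
    refine flow_const (schedField S N st) hU hc Φ hΦ x (mvT N N) 1
      ((mvT_le N N le_rfl).trans (by norm_num)) (fun t ht => ?_)
    rcases Nat.eq_zero_or_pos N with h | h
    · subst h
      simp [schedField]
    · refine schedField_time_zero hS N st (Or.inr ?_) _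
      rw [← mvT_self h]
      exact ht.1
  rw [hlast, key N le_rfl]

/-! ### The class of one-dimensional factors -/

/-- The class of one-dimensional functions generated from the profile `S` by rational affine
substitution, rational constants, the identity, sums, products and derivatives. -/
inductive Gen (S : ℝ → ℝ) : (ℝ → ℝ) → Prop
  | aff (a b : ℚ) : Gen S (fun x => S ((a : ℝ) * x + (b : ℝ)))
  | const (c : ℚ) : Gen S (fun _ => (c : ℝ))
  | id : Gen S (fun x => x)
  | add {f g : ℝ → ℝ} : Gen S f → Gen S g → Gen S (fun x => f x + g x)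
  | mul {f g : ℝ → ℝ} : Gen S f → Gen S g → Gen S (fun x => f x * g x)
  | der {f : ℝ → ℝ} : Gen S f → Gen S (deriv f)

theorem Gen.contDiff {S : ℝ → ℝ} (hS : ContDiff ℝ ∞ S) {f : ℝ → ℝ} (hf : Gen S f) :
    ContDiff ℝ ∞ f := by
  induction hf with
  | aff a b => exact hS.comp (by fun_prop)
  | const c => exact contDiff_const
  | id => exact contDiff_id
  | add _ _ ihf ihg => exact ihf.add ihg
  | mul _ _ ihf ihg => exact ihf.mul ihg
  | der _ ih => exact contDiff_deriv_of_contDiff ih

theorem Gen.sub {S : ℝ → ℝ} {f g : ℝ → ℝ} (hf : Gen S f) (hg : Gen S g) :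
    Gen S (fun x => f x - g x) := by
  have h := Gen.add hf (Gen.mul (Gen.const (S := S) (-1)) hg)
  have e : (fun x => f x + ((-1 : ℚ) : ℝ) * g x) = fun x => f x - g x := by
    funext x
    push_cast
    ring
  rw [← e]
  exact h

theorem mvBump_gen (S : ℝ → ℝ) (lo hi ε : ℚ) :
    Gen S (mvBump S (lo : ℝ) (hi : ℝ) (ε : ℝ)) := by
  have h := Gen.sub (Gen.aff (S := S) ε⁻¹ ((ε - lo) / ε)) (Gen.aff (S := S) ε⁻¹ (-hi / ε))
  have e : (fun x : ℝ => S (((ε⁻¹ : ℚ) : ℝ) * x + (((ε - lo) / ε : ℚ) : ℝ)) -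
      S (((ε⁻¹ : ℚ) : ℝ) * x + ((-hi / ε : ℚ) : ℝ))) = mvBump S (lo : ℝ) (hi : ℝ) (ε : ℝ) := by
    funext x
    unfold mvBump
    congr 2
    · push_cast
      ring
    · push_cast
      ring
  rw [← e]
  exact h

theorem mvRamp_gen (S : ℝ → ℝ) (N s : ℕ) : Gen S (mvRamp S N s) := by
  have h := Gen.aff (S := S) (2 * (N : ℚ)) (-(N : ℚ) / 2 - (s : ℚ))
  have e : (fun x : ℝ => S (((2 * (N : ℚ) : ℚ) : ℝ) * x + ((-(N : ℚ) / 2 - (s : ℚ) : ℚ) : ℝ))) =
      mvRamp S N s := by
    funext x
    unfold mvRamp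
    congr 1
    push_cast
    ring
  rw [← e]
  exact h

theorem Stage.pot_gen (d : Stage) (S : ℝ → ℝ) : Gen S d.pot := by
  have hy : Gen S (fun y : ℝ => y - ((d.c : ℚ) : ℝ)) := Gen.sub Gen.id (Gen.const d.c)
  have h := Gen.add (Gen.mul (Gen.const (S := S) d.lam) Gen.id)
    (Gen.mul (Gen.const (S := S) (d.sig / 2)) (Gen.mul hy hy))
  have e : (fun y : ℝ => ((d.lam : ℚ) : ℝ) * y +
      ((d.sig / 2 : ℚ) : ℝ) * ((y - ((d.c : ℚ) : ℝ)) * (y - ((d.c : ℚ) : ℝ)))) = d.pot := by
    funext y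
    unfold Stage.pot
    push_cast
    ring
  rw [← e]
  exact h

theorem Stage.bump_gen (d : Stage) (S : ℝ → ℝ) (j : Fin 3) : Gen S (d.bump S j) :=
  mvBump_gen S _ _ _

theorem Stage.sfac_gen (d : Stage) (S : ℝ → ℝ) (j : Fin 3) : Gen S (d.sfac S j) := by
  unfold Stage.sfac
  split_ifs
  · exact Gen.mul (d.bump_gen S j) (d.pot_gen S)
  · exact d.bump_gen S j

theorem Stage.fac_gen (d : Stage) (S : ℝ → ℝ) (N s : ℕ) (i : Fin 4) : Gen S (d.fac S N s i) := by
  refine Fin.cases ?_ (fun j => ?_) i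
  · rw [d.fac_zero]
    exact Gen.der (mvRamp_gen S N s)
  · rw [d.fac_succ]
    exact d.sfac_gen S j

/-- Every one-dimensional factor occurring in `stageField` (hence in `schedField`) is in the class
generated by the profile. -/
theorem Stage.upd_gen (d : Stage) (S : ℝ → ℝ) (N s : ℕ) (k i : Fin 4) :
    Gen S (Function.update (d.fac S N s) k (deriv (d.fac S N s k)) i) := by
  by_cases h : i = k
  · subst h
    rw [Function.update_self]
    exact Gen.der (d.fac_gen S N s i)
  · rw [Function.update_of_ne h]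
    exact d.fac_gen S N s i

/-- The schedule field as an explicit finite sum of differences of tensor fields. -/
theorem schedField_eq (S : ℝ → ℝ) (N : ℕ) (st : ℕ → Stage) :
    schedField S N st = ∑ s ∈ Finset.range N,
      (tensF (Function.update ((st s).fac S N s) (st s).β.succ
          (deriv ((st s).fac S N s (st s).β.succ))) (Pi.single (st s).α 1) -
        tensF (Function.update ((st s).fac S N s) (st s).α.succ
          (deriv ((st s).fac S N s (st s).α.succ))) (Pi.single (st s).β 1)) := rfl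

end Crest.Agent.S0170
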