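import Mathlib

/-!
# Row 126 (S0170), WP-PROFILE-JET: jets and derivative bounds of `Real.smoothTransition`

Pure real analysis (no computability except one `Primrec` bound on `ℕ`).

With `a = x⁻¹`, `b = (1 - x)⁻¹`, `s = Real.smoothTransition x` one has on `(0,1)`
`a' = -a²`, `b' = b²`, `s' = s (1 - s) (a² + b²)`, so every derivative of the profile is an
integer-coefficient polynomial in `a, b, s, 1 - s`.  `profJet n` is an explicit list of monomials
for the `(n+1)`-st derivative.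
-/

set_option autoImplicit false

open Real Set Filter
open scoped Topology Nat

namespace Crest.Agent.S0170

/-- The monomial `a^i b^j s^k (1-s)^l` with `a = x⁻¹`, `b = (1-x)⁻¹`, `s = smoothTransition x`,
`e = (i, j, k, l)`. -/
noncomputable def profMono (e : ℕ × ℕ × ℕ × ℕ) (x : ℝ) : ℝ :=
  (x⁻¹) ^ e.1 * ((1 - x)⁻¹) ^ e.2.1 * Real.smoothTransition x ^ e.2.2.1 *
    (1 - Real.smoothTransition x) ^ e.2.2.2

/-- The derivation `a' = -a²`, `b' = b²`, `s' = s(1-s)(a²+b²)` applied to one monomial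
`c · a^i b^j s^k (1-s)^l`, as a list of six monomials. -/
def profStep (t : ℤ × ℕ × ℕ × ℕ × ℕ) : List (ℤ × ℕ × ℕ × ℕ × ℕ) :=
  [(-(t.2.1 : ℤ) * t.1, t.2.1 + 1, t.2.2.1, t.2.2.2.1, t.2.2.2.2),
   ((t.2.2.1 : ℤ) * t.1, t.2.1, t.2.2.1 + 1, t.2.2.2.1, t.2.2.2.2),
   ((t.2.2.2.1 : ℤ) * t.1, t.2.1 + 2, t.2.2.1, t.2.2.2.1, t.2.2.2.2 + 1),
   ((t.2.2.2.1 : ℤ) * t.1, t.2.1, t.2.2.1 + 2, t.2.2.2.1, t.2.2.2.2 + 1),
   (-(t.2.2.2.2 : ℤ) * t.1, t.2.1 + 2, t.2.2.1, t.2.2.2.1 + 1, t.2.2.2.2),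
   (-(t.2.2.2.2 : ℤ) * t.1, t.2.1, t.2.2.1 + 2, t.2.2.2.1 + 1, t.2.2.2.2)]

/-- Monomial list of the `(n+1)`-st derivative of `Real.smoothTransition` on `(0,1)`:
entries `(c, i, j, k, l)` stand for `c · a^i b^j s^k (1-s)^l`. -/
def profJet : ℕ → List (ℤ × ℕ × ℕ × ℕ × ℕ)
  | 0 => [(1, 2, 0, 1, 1), (1, 0, 2, 1, 1)]
  | n + 1 => (profJet n).flatMap profStep

/-- Evaluation of a monomial list at `x`. -/
noncomputable def profEval (L : List (ℤ × ℕ × ℕ × ℕ × ℕ)) (x : ℝ) : ℝ :=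
  (L.map fun t => (t.1 : ℝ) * profMono t.2 x).sum

/-! ### The profile on `(0,1)` -/

theorem prof_eq_exp {x : ℝ} (hx : x ∈ Ioo (0 : ℝ) 1) :
    Real.smoothTransition x = exp (-x⁻¹) / (exp (-x⁻¹) + exp (-(1 - x)⁻¹)) := by
  have h1 : ¬ x ≤ 0 := not_le.2 hx.1
  have h2 : ¬ 1 - x ≤ 0 := not_le.2 (sub_pos.2 hx.2)
  simp [Real.smoothTransition, expNegInvGlue, h1, h2]

/-- Value form: on `(0,1)` the profile is the logistic function of `(1-x)⁻¹ - x⁻¹`. -/
theorem prof_eq_logistic {x : ℝ} (hx : x ∈ Ioo (0 : ℝ) 1) :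
    Real.smoothTransition x = 1 / (1 + exp (x⁻¹ - (1 - x)⁻¹)) := by
  rw [prof_eq_exp hx]
  have hN : exp (-x⁻¹) ≠ 0 := (exp_pos _).ne'
  have h : exp (x⁻¹ - (1 - x)⁻¹) = exp (-(1 - x)⁻¹) / exp (-x⁻¹) := by
    rw [← exp_sub]; congr 1; ring
  rw [h]
  have hpos : 0 < exp (-x⁻¹) + exp (-(1 - x)⁻¹) := by positivity
  field_simp

theorem prof_S_le_exp {x : ℝ} (hx : x ∈ Ioo (0 : ℝ) 1) :
    Real.smoothTransition x ≤ exp ((1 - x)⁻¹ - x⁻¹) := by
  rw [prof_eq_exp hx]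
  have hN : 0 < exp (-x⁻¹) := exp_pos _
  have hM : 0 < exp (-(1 - x)⁻¹) := exp_pos _
  have h : exp ((1 - x)⁻¹ - x⁻¹) = exp (-x⁻¹) / exp (-(1 - x)⁻¹) := by
    rw [← exp_sub]; congr 1; ring
  rw [h]
  exact div_le_div_of_nonneg_left hN.le hM (by linarith)

theorem prof_one_sub_S_le_exp {x : ℝ} (hx : x ∈ Ioo (0 : ℝ) 1) :
    1 - Real.smoothTransition x ≤ exp (x⁻¹ - (1 - x)⁻¹) := by
  rw [prof_eq_exp hx]
  have hN : 0 < exp (-x⁻¹) := exp_pos _
  have hM : 0 < exp (-(1 - x)⁻¹) := exp_pos _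
  have h : exp (x⁻¹ - (1 - x)⁻¹) = exp (-(1 - x)⁻¹) / exp (-x⁻¹) := by
    rw [← exp_sub]; congr 1; ring
  have h2 : 1 - exp (-x⁻¹) / (exp (-x⁻¹) + exp (-(1 - x)⁻¹))
      = exp (-(1 - x)⁻¹) / (exp (-x⁻¹) + exp (-(1 - x)⁻¹)) := by
    field_simp; ring
  rw [h, h2]
  exact div_le_div_of_nonneg_left hM.le hN (by linarith)

/-- The ODE `s' = (a² + b²) s (1 - s)` of the profile on `(0,1)`. -/
theorem prof_hasDerivAt {x : ℝ} (hx : x ∈ Ioo (0 : ℝ) 1) :
    HasDerivAt Real.smoothTransition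
      (((x⁻¹) ^ 2 + ((1 - x)⁻¹) ^ 2) * Real.smoothTransition x * (1 - Real.smoothTransition x)) x := by
  have hx0 : x ≠ 0 := hx.1.ne'
  have hx1 : 1 - x ≠ 0 := (sub_pos.2 hx.2).ne'
  have hN : HasDerivAt (fun y : ℝ => exp (-y⁻¹)) (exp (-x⁻¹) * (x ^ 2)⁻¹) x := by
    have h0 : HasDerivAt (fun y : ℝ => -y⁻¹) (-(-(x ^ 2)⁻¹)) x := (hasDerivAt_inv hx0).neg
    have := h0.exp
    simpa using this
  have hM : HasDerivAt (fun y : ℝ => exp (-(1 - y)⁻¹)) (exp (-(1 - x)⁻¹) * (-((1 - x) ^ 2)⁻¹)) x := by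
    have h1 : HasDerivAt (fun y : ℝ => 1 - y) (-1) x := by
      simpa using (hasDerivAt_id x).const_sub 1
    have h2 : HasDerivAt (fun y : ℝ => (1 - y)⁻¹) (-(-1) / (1 - x) ^ 2) x := h1.inv hx1
    have h3 : HasDerivAt (fun y : ℝ => -(1 - y)⁻¹) (-(-(-1) / (1 - x) ^ 2)) x := h2.neg
    have h4 := h3.exp
    convert h4 using 1
    field_simp
  have hpos : exp (-x⁻¹) + exp (-(1 - x)⁻¹) ≠ 0 := by positivity
  have hD : HasDerivAt (fun y : ℝ => exp (-y⁻¹) / (exp (-y⁻¹) + exp (-(1 - y)⁻¹)))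
      (((exp (-x⁻¹) * (x ^ 2)⁻¹) * (exp (-x⁻¹) + exp (-(1 - x)⁻¹))
        - exp (-x⁻¹) * (exp (-x⁻¹) * (x ^ 2)⁻¹ + exp (-(1 - x)⁻¹) * (-((1 - x) ^ 2)⁻¹)))
        / (exp (-x⁻¹) + exp (-(1 - x)⁻¹)) ^ 2) x := hN.div (hN.add hM) hpos
  have hev : Real.smoothTransition =ᶠ[𝓝 x]
      fun y => exp (-y⁻¹) / (exp (-y⁻¹) + exp (-(1 - y)⁻¹)) := by
    filter_upwards [isOpen_Ioo.mem_nhds hx] with y hy using prof_eq_exp hy
  refine (hD.congr_of_eventuallyEq hev).congr_deriv ?_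
  rw [prof_eq_exp hx]
  generalize exp (-x⁻¹) = N at hpos ⊢
  generalize exp (-(1 - x)⁻¹) = M at hpos ⊢
  field_simp
  ring

/-! ### Derivative of a monomial -/

theorem prof_hasDerivAt_inv_pow (i : ℕ) {x : ℝ} (hx : x ≠ 0) :
    HasDerivAt (fun y : ℝ => (y⁻¹) ^ i) (-(i : ℝ) * (x⁻¹) ^ (i + 1)) x := by
  have h := (hasDerivAt_inv hx).pow i
  refine h.congr_deriv ?_
  cases i with
  | zero => simp
  | succ m =>
    have e : (x ^ 2)⁻¹ = x⁻¹ * x⁻¹ := by rw [sq, mul_inv]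
    simp only [Nat.add_sub_cancel]
    rw [e]
    ring

theorem prof_hasDerivAt_inv_one_sub_pow (j : ℕ) {x : ℝ} (hx : 1 - x ≠ 0) :
    HasDerivAt (fun y : ℝ => ((1 - y)⁻¹) ^ j) ((j : ℝ) * ((1 - x)⁻¹) ^ (j + 1)) x := by
  have h1 : HasDerivAt (fun y : ℝ => 1 - y) (-1) x := by
    simpa using (hasDerivAt_id x).const_sub 1
  have h2 : HasDerivAt (fun y : ℝ => (1 - y)⁻¹) (-(-1) / (1 - x) ^ 2) x := h1.inv hx
  have h := h2.pow j
  refine h.congr_deriv ?_
  cases j with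
  | zero => simp
  | succ m =>
    have e : -(-1 : ℝ) / (1 - x) ^ 2 = (1 - x)⁻¹ * (1 - x)⁻¹ := by
      rw [neg_neg, one_div, sq, mul_inv]
    simp only [Nat.add_sub_cancel]
    rw [e]
    ring

theorem prof_hasDerivAt_S_pow (k : ℕ) {x : ℝ} (hx : x ∈ Ioo (0 : ℝ) 1) :
    HasDerivAt (fun y : ℝ => Real.smoothTransition y ^ k)
      ((k : ℝ) * Real.smoothTransition x ^ k * (1 - Real.smoothTransition x) *
        ((x⁻¹) ^ 2 + ((1 - x)⁻¹) ^ 2)) x := by
  have h := (prof_hasDerivAt hx).pow k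
  refine h.congr_deriv ?_
  cases k with
  | zero => simp
  | succ m =>
    simp only [Nat.add_sub_cancel]
    ring

theorem prof_hasDerivAt_one_sub_S_pow (l : ℕ) {x : ℝ} (hx : x ∈ Ioo (0 : ℝ) 1) :
    HasDerivAt (fun y : ℝ => (1 - Real.smoothTransition y) ^ l)
      (-(l : ℝ) * Real.smoothTransition x * (1 - Real.smoothTransition x) ^ l *
        ((x⁻¹) ^ 2 + ((1 - x)⁻¹) ^ 2)) x := by
  have h0 : HasDerivAt (fun y : ℝ => 1 - Real.smoothTransition y)
      (-(((x⁻¹) ^ 2 + ((1 - x)⁻¹) ^ 2) * Real.smoothTransition x *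
        (1 - Real.smoothTransition x))) x := by
    simpa using (prof_hasDerivAt hx).const_sub 1
  have h := h0.pow l
  refine h.congr_deriv ?_
  cases l with
  | zero => simp
  | succ m =>
    simp only [Nat.add_sub_cancel]
    ring

/-- Derivative of one term `c · a^i b^j s^k (1-s)^l` on `(0,1)`: the six terms of `profStep`. -/
theorem prof_hasDerivAt_term (t : ℤ × ℕ × ℕ × ℕ × ℕ) {x : ℝ} (hx : x ∈ Ioo (0 : ℝ) 1) :
    HasDerivAt (fun y : ℝ => (t.1 : ℝ) * profMono t.2 y) (profEval (profStep t) x) x := by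
  obtain ⟨c, i, j, k, l⟩ := t
  have hx0 : x ≠ 0 := hx.1.ne'
  have hx1 : 1 - x ≠ 0 := (sub_pos.2 hx.2).ne'
  have hA := prof_hasDerivAt_inv_pow i hx0
  have hB := prof_hasDerivAt_inv_one_sub_pow j hx1
  have hC := prof_hasDerivAt_S_pow k hx
  have hD := prof_hasDerivAt_one_sub_S_pow l hx
  have h := (((hA.mul hB).mul hC).mul hD).const_mul (c : ℝ)
  refine h.congr_deriv ?_
  simp only [profEval, profStep, profMono, List.map_cons, List.map_nil, List.sum_cons,
    List.sum_nil, Pi.mul_apply]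
  push_cast
  ring

theorem prof_hasDerivAt_eval (L : List (ℤ × ℕ × ℕ × ℕ × ℕ)) {x : ℝ} (hx : x ∈ Ioo (0 : ℝ) 1) :
    HasDerivAt (fun y : ℝ => profEval L y) (profEval (L.flatMap profStep) x) x := by
  induction L with
  | nil => simpa [profEval] using hasDerivAt_const x (0 : ℝ)
  | cons t L ih =>
    have h := (prof_hasDerivAt_term t hx).add ih
    have e : profEval ((t :: L).flatMap profStep) x
        = profEval (profStep t) x + profEval (L.flatMap profStep) x := by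
      simp [profEval, List.flatMap_cons, List.map_append, List.sum_append]
    rw [e]
    refine h.congr_of_eventuallyEq (Eventually.of_forall fun y => ?_)
    simp [profEval]

/-- (J1) Jet formula: the `(n+1)`-st derivative of the profile on `(0,1)`. -/
theorem prof_iteratedDeriv_eq (n : ℕ) {x : ℝ} (hx : x ∈ Ioo (0 : ℝ) 1) :
    iteratedDeriv (n + 1) Real.smoothTransition x = profEval (profJet n) x := by
  induction n generalizing x with
  | zero =>
    rw [iteratedDeriv_one, (prof_hasDerivAt hx).deriv]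
    simp [profEval, profJet, profMono]
    ring
  | succ n ih =>
    rw [iteratedDeriv_succ]
    have hev : iteratedDeriv (n + 1) Real.smoothTransition =ᶠ[𝓝 x] fun y => profEval (profJet n) y := by
      filter_upwards [isOpen_Ioo.mem_nhds hx] with y hy using ih hy
    rw [hev.deriv_eq, (prof_hasDerivAt_eval (profJet n) hx).deriv]
    rfl

/-- (J2) Outside `(0,1)` all derivatives of positive order vanish. -/
theorem prof_iteratedDeriv_eq_zero (n : ℕ) {x : ℝ} (hx : x ∉ Ioo (0 : ℝ) 1) :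
    iteratedDeriv (n + 1) Real.smoothTransition x = 0 := by
  have hcont : Continuous (iteratedDeriv (n + 1) Real.smoothTransition) :=
    (Real.smoothTransition.contDiff (n := ⊤)).continuous_iteratedDeriv (n + 1)
      (by exact_mod_cast le_top)
  have hlt : ∀ y : ℝ, y < 0 → iteratedDeriv (n + 1) Real.smoothTransition y = 0 := by
    intro y hy
    have hev : Real.smoothTransition =ᶠ[𝓝 y] fun _ => (0 : ℝ) := by
      filter_upwards [isOpen_Iio.mem_nhds hy] with z hz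
      exact Real.smoothTransition.zero_of_nonpos (le_of_lt hz)
    rw [hev.iteratedDeriv_eq (n + 1)]
    simp
  have hgt : ∀ y : ℝ, 1 < y → iteratedDeriv (n + 1) Real.smoothTransition y = 0 := by
    intro y hy
    have hev : Real.smoothTransition =ᶠ[𝓝 y] fun _ => (1 : ℝ) := by
      filter_upwards [isOpen_Ioi.mem_nhds hy] with z hz
      exact Real.smoothTransition.one_of_one_le (le_of_lt hz)
    rw [hev.iteratedDeriv_eq (n + 1)]
    simp [iteratedDeriv_succ']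
  have hclosed : IsClosed {y : ℝ | iteratedDeriv (n + 1) Real.smoothTransition y = 0} :=
    isClosed_eq hcont continuous_const
  rcases not_and_or.1 hx with h | h
  · have h0 : x ≤ 0 := not_lt.1 h
    have hsub : Iic (0 : ℝ) ⊆ {y : ℝ | iteratedDeriv (n + 1) Real.smoothTransition y = 0} := by
      rw [← closure_Iio]
      exact closure_minimal (fun y hy => hlt y hy) hclosed
    exact hsub h0
  · have h1 : 1 ≤ x := not_lt.1 h
    have hsub : Ici (1 : ℝ) ⊆ {y : ℝ | iteratedDeriv (n + 1) Real.smoothTransition y = 0} := by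
      rw [← closure_Ioi]
      exact closure_minimal (fun y hy => hgt y hy) hclosed
    exact hsub h1

/-! ### Exponent and coefficient bookkeeping for `profJet` -/

/-- Exponent constraints satisfied by the monomials `(c, i, j, k, l)` of `profJet n`:
`i + j ≤ 2n+2`, `1 ≤ k`, `1 ≤ l`, `k + l ≤ n+2`. -/
def profGood (n : ℕ) (t : ℤ × ℕ × ℕ × ℕ × ℕ) : Prop :=
  t.2.1 + t.2.2.1 ≤ 2 * n + 2 ∧ 1 ≤ t.2.2.2.1 ∧ 1 ≤ t.2.2.2.2 ∧ t.2.2.2.1 + t.2.2.2.2 ≤ n + 2

theorem profStep_good {n : ℕ} {t : ℤ × ℕ × ℕ × ℕ × ℕ} (ht : profGood n t) :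
    ∀ u ∈ profStep t, profGood (n + 1) u := by
  obtain ⟨c, i, j, k, l⟩ := t
  obtain ⟨h1, h2, h3, h4⟩ := ht
  simp only [] at h1 h2 h3 h4
  intro u hu
  simp only [profStep, List.mem_cons, List.not_mem_nil, or_false] at hu
  rcases hu with rfl | rfl | rfl | rfl | rfl | rfl <;>
    (refine ⟨?_, ?_, ?_, ?_⟩ <;> simp only [] <;> omega)

/-- (J4) exponent bounds for the jet lists. -/
theorem profJet_good (n : ℕ) : ∀ t ∈ profJet n, profGood n t := by
  induction n with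
  | zero =>
    intro t ht
    simp only [profJet, List.mem_cons, List.not_mem_nil, or_false] at ht
    rcases ht with rfl | rfl <;> (refine ⟨?_, ?_, ?_, ?_⟩ <;> simp)
  | succ n ih =>
    intro u hu
    simp only [profJet, List.mem_flatMap] at hu
    obtain ⟨t, ht, hu⟩ := hu
    exact profStep_good (ih t ht) u hu

/-- Sum of the absolute values of the coefficients of a monomial list. -/
def profCoeffSum (L : List (ℤ × ℕ × ℕ × ℕ × ℕ)) : ℕ := (L.map fun t => t.1.natAbs).sum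

theorem profStep_coeffSum {n : ℕ} {t : ℤ × ℕ × ℕ × ℕ × ℕ} (ht : profGood n t) :
    profCoeffSum (profStep t) ≤ (4 * n + 6) * t.1.natAbs := by
  obtain ⟨c, i, j, k, l⟩ := t
  obtain ⟨h1, h2, h3, h4⟩ := ht
  simp only [] at h1 h2 h3 h4
  simp only [profCoeffSum, profStep, List.map_cons, List.map_nil, List.sum_cons, List.sum_nil,
    Int.natAbs_mul, Int.natAbs_neg, Int.natAbs_natCast]
  have : (i + j + 2 * k + 2 * l) * c.natAbs ≤ (4 * n + 6) * c.natAbs :=
    Nat.mul_le_mul_right _ (by omega)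
  nlinarith [this]

theorem profCoeffSum_flatMap {n : ℕ} (L : List (ℤ × ℕ × ℕ × ℕ × ℕ))
    (hL : ∀ t ∈ L, profGood n t) :
    profCoeffSum (L.flatMap profStep) ≤ (4 * n + 6) * profCoeffSum L := by
  induction L with
  | nil => simp [profCoeffSum]
  | cons t L ih =>
    have h1 := profStep_coeffSum (hL t (List.mem_cons_self))
    have h2 := ih (fun u hu => hL u (List.mem_cons_of_mem _ hu))
    have e1 : profCoeffSum ((t :: L).flatMap profStep)
        = profCoeffSum (profStep t) + profCoeffSum (L.flatMap profStep) := by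
      simp [profCoeffSum, List.flatMap_cons, List.map_append, List.sum_append]
    have e2 : profCoeffSum (t :: L) = t.1.natAbs + profCoeffSum L := by
      simp [profCoeffSum]
    rw [e1, e2]
    nlinarith [h1, h2]

/-- Bound for the coefficient sums: `profC 0 = 2`, `profC (n+1) = (4n+6) · profC n`. -/
def profC : ℕ → ℕ
  | 0 => 2
  | n + 1 => (4 * n + 6) * profC n

/-- (J4) coefficient bound for the jet lists. -/
theorem profJet_coeffSum (n : ℕ) : profCoeffSum (profJet n) ≤ profC n := by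
  induction n with
  | zero => simp [profJet, profCoeffSum, profC]
  | succ n ih =>
    calc profCoeffSum (profJet (n + 1))
        ≤ (4 * n + 6) * profCoeffSum (profJet n) := profCoeffSum_flatMap _ (profJet_good n)
      _ ≤ (4 * n + 6) * profC n := Nat.mul_le_mul_left _ ih

/-! ### Bounds -/

theorem prof_exp_two_le : exp 2 ≤ 8 := by
  have h : exp 2 = exp 1 * exp 1 := by rw [← exp_add]; norm_num
  have h1 := exp_one_lt_d9
  have h0 : 0 < exp 1 := exp_pos 1
  rw [h]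
  nlinarith

theorem prof_pow_mul_exp_le {a : ℝ} (ha : 0 ≤ a) (i : ℕ) :
    a ^ i * exp (2 - a) ≤ 8 * (i ! : ℝ) := by
  have h1 : a ^ i / (i ! : ℝ) ≤ exp a := Real.pow_div_factorial_le_exp a ha i
  have hfac : (0 : ℝ) < (i ! : ℝ) := by exact_mod_cast Nat.factorial_pos i
  have h2 : a ^ i ≤ exp a * (i ! : ℝ) := (div_le_iff₀ hfac).1 h1
  have h3 : exp (2 - a) = exp 2 * exp (-a) := by rw [← exp_add]; congr 1
  have h4 : exp a * exp (-a) = 1 := by rw [← exp_add]; simp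
  have h5 : 0 < exp (-a) := exp_pos _
  calc a ^ i * exp (2 - a) ≤ (exp a * (i ! : ℝ)) * exp (2 - a) :=
        mul_le_mul_of_nonneg_right h2 (exp_pos _).le
    _ = exp 2 * (i ! : ℝ) * (exp a * exp (-a)) := by rw [h3]; ring
    _ = exp 2 * (i ! : ℝ) := by rw [h4, mul_one]
    _ ≤ 8 * (i ! : ℝ) := mul_le_mul_of_nonneg_right prof_exp_two_le hfac.le

theorem prof_mono_nonneg (e : ℕ × ℕ × ℕ × ℕ) {x : ℝ} (hx : x ∈ Ioo (0 : ℝ) 1) :
    0 ≤ profMono e x := by
  have h1 : 0 ≤ x⁻¹ := inv_nonneg.2 hx.1.le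
  have h2 : 0 ≤ (1 - x)⁻¹ := inv_nonneg.2 (sub_nonneg.2 hx.2.le)
  have h3 : 0 ≤ Real.smoothTransition x := Real.smoothTransition.nonneg x
  have h4 : 0 ≤ 1 - Real.smoothTransition x := sub_nonneg.2 (Real.smoothTransition.le_one x)
  unfold profMono
  positivity

/-- Bound of a monomial with `k, l ≥ 1` on `(0,1)`. -/
theorem prof_mono_le {i j k l : ℕ} (hk : 1 ≤ k) (hl : 1 ≤ l) {x : ℝ} (hx : x ∈ Ioo (0 : ℝ) 1) :
    profMono (i, j, k, l) x ≤ 8 * 2 ^ (i + j) * ((i + j) ! : ℝ) := by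
  have ha0 : 0 ≤ x⁻¹ := inv_nonneg.2 hx.1.le
  have hb0 : 0 ≤ (1 - x)⁻¹ := inv_nonneg.2 (sub_nonneg.2 hx.2.le)
  have hs0 : 0 ≤ Real.smoothTransition x := Real.smoothTransition.nonneg x
  have hs1 : Real.smoothTransition x ≤ 1 := Real.smoothTransition.le_one x
  have ht0 : 0 ≤ 1 - Real.smoothTransition x := sub_nonneg.2 hs1
  have ht1 : 1 - Real.smoothTransition x ≤ 1 := by linarith
  have hsk : Real.smoothTransition x ^ k ≤ Real.smoothTransition x :=
    pow_le_of_le_one hs0 hs1 (by omega)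
  have htl : (1 - Real.smoothTransition x) ^ l ≤ 1 - Real.smoothTransition x :=
    pow_le_of_le_one ht0 ht1 (by omega)
  have hsk1 : Real.smoothTransition x ^ k ≤ 1 := pow_le_one₀ hs0 hs1
  have htl1 : (1 - Real.smoothTransition x) ^ l ≤ 1 := pow_le_one₀ ht0 ht1
  have hfi : ((i ! : ℕ) : ℝ) ≤ ((i + j) ! : ℝ) := by
    exact_mod_cast Nat.factorial_le (Nat.le_add_right i j)
  have hfj : ((j ! : ℕ) : ℝ) ≤ ((i + j) ! : ℝ) := by
    exact_mod_cast Nat.factorial_le (Nat.le_add_left j i)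
  have hpi : (2 : ℝ) ^ i ≤ 2 ^ (i + j) := pow_le_pow_right₀ (by norm_num) (Nat.le_add_right i j)
  have hpj : (2 : ℝ) ^ j ≤ 2 ^ (i + j) := pow_le_pow_right₀ (by norm_num) (Nat.le_add_left j i)
  have hfac0 : (0 : ℝ) ≤ ((i + j) ! : ℝ) := by positivity
  have hfi0 : (0 : ℝ) ≤ (i ! : ℝ) := by positivity
  have hfj0 : (0 : ℝ) ≤ (j ! : ℝ) := by positivity
  unfold profMono
  simp only []
  rcases le_total x (1 / 2) with hx2 | hx2
  · -- `b ≤ 2`, `s ≤ exp (2 - a)`
    have hb2 : (1 - x)⁻¹ ≤ 2 := by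
      rw [inv_le_comm₀ (sub_pos.2 hx.2) (by norm_num)]; linarith
    have hs : Real.smoothTransition x ≤ exp (2 - x⁻¹) :=
      (prof_S_le_exp hx).trans (exp_le_exp.2 (by linarith))
    have hbj : ((1 - x)⁻¹) ^ j ≤ 2 ^ j := pow_le_pow_left₀ hb0 hb2 j
    have hai : 0 ≤ (x⁻¹) ^ i := pow_nonneg ha0 i
    have hbj0 : 0 ≤ ((1 - x)⁻¹) ^ j := pow_nonneg hb0 j
    have hsk0 : 0 ≤ Real.smoothTransition x ^ k := pow_nonneg hs0 k
    have htl0 : 0 ≤ (1 - Real.smoothTransition x) ^ l := pow_nonneg ht0 l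
    calc (x⁻¹) ^ i * ((1 - x)⁻¹) ^ j * Real.smoothTransition x ^ k *
          (1 - Real.smoothTransition x) ^ l
        ≤ (x⁻¹) ^ i * 2 ^ j * exp (2 - x⁻¹) * 1 := by gcongr; exact hsk.trans hs
      _ = 2 ^ j * ((x⁻¹) ^ i * exp (2 - x⁻¹)) := by ring
      _ ≤ 2 ^ j * (8 * (i ! : ℝ)) :=
        mul_le_mul_of_nonneg_left (prof_pow_mul_exp_le ha0 i) (by positivity)
      _ ≤ 2 ^ (i + j) * (8 * ((i + j) ! : ℝ)) := by gcongr
      _ = 8 * 2 ^ (i + j) * ((i + j) ! : ℝ) := by ring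
  · -- `a ≤ 2`, `1 - s ≤ exp (2 - b)`
    have ha2 : x⁻¹ ≤ 2 := by
      rw [inv_le_comm₀ hx.1 (by norm_num)]; linarith
    have ht : 1 - Real.smoothTransition x ≤ exp (2 - (1 - x)⁻¹) :=
      (prof_one_sub_S_le_exp hx).trans (exp_le_exp.2 (by linarith))
    have hai : (x⁻¹) ^ i ≤ 2 ^ i := pow_le_pow_left₀ ha0 ha2 i
    have hai0 : 0 ≤ (x⁻¹) ^ i := pow_nonneg ha0 i
    have hbj0 : 0 ≤ ((1 - x)⁻¹) ^ j := pow_nonneg hb0 j
    have hsk0 : 0 ≤ Real.smoothTransition x ^ k := pow_nonneg hs0 k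
    have htl0 : 0 ≤ (1 - Real.smoothTransition x) ^ l := pow_nonneg ht0 l
    calc (x⁻¹) ^ i * ((1 - x)⁻¹) ^ j * Real.smoothTransition x ^ k *
          (1 - Real.smoothTransition x) ^ l
        ≤ 2 ^ i * ((1 - x)⁻¹) ^ j * 1 * exp (2 - (1 - x)⁻¹) := by gcongr; exact htl.trans ht
      _ = 2 ^ i * (((1 - x)⁻¹) ^ j * exp (2 - (1 - x)⁻¹)) := by ring
      _ ≤ 2 ^ i * (8 * (j ! : ℝ)) :=
        mul_le_mul_of_nonneg_left (prof_pow_mul_exp_le hb0 j) (by positivity)
      _ ≤ 2 ^ (i + j) * (8 * ((i + j) ! : ℝ)) := by gcongr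
      _ = 8 * 2 ^ (i + j) * ((i + j) ! : ℝ) := by ring

/-- Uniform bound for all monomials of `profJet n` on `(0,1)`. -/
theorem prof_mono_le_of_good {n : ℕ} {t : ℤ × ℕ × ℕ × ℕ × ℕ} (ht : profGood n t) {x : ℝ}
    (hx : x ∈ Ioo (0 : ℝ) 1) :
    |profMono t.2 x| ≤ 8 * 2 ^ (2 * n + 2) * ((2 * n + 2) ! : ℝ) := by
  obtain ⟨c, i, j, k, l⟩ := t
  obtain ⟨h1, h2, h3, h4⟩ := ht
  simp only [] at h1 h2 h3 h4
  rw [abs_of_nonneg (prof_mono_nonneg _ hx)]
  refine (prof_mono_le h2 h3 hx).trans ?_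
  have hp : (2 : ℝ) ^ (i + j) ≤ 2 ^ (2 * n + 2) := pow_le_pow_right₀ (by norm_num) h1
  have hf : (((i + j) ! : ℕ) : ℝ) ≤ ((2 * n + 2) ! : ℝ) := by
    exact_mod_cast Nat.factorial_le h1
  have hf0 : (0 : ℝ) ≤ ((i + j) ! : ℝ) := by positivity
  gcongr

theorem prof_eval_abs_le (L : List (ℤ × ℕ × ℕ × ℕ × ℕ)) (x K : ℝ)
    (hK : ∀ t ∈ L, |profMono t.2 x| ≤ K) :
    |profEval L x| ≤ (profCoeffSum L : ℝ) * K := by
  induction L with
  | nil => simp [profEval, profCoeffSum]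
  | cons t L ih =>
    have h1 := hK t List.mem_cons_self
    have h2 := ih (fun u hu => hK u (List.mem_cons_of_mem _ hu))
    have e1 : profEval (t :: L) x = (t.1 : ℝ) * profMono t.2 x + profEval L x := by
      simp [profEval]
    have e2 : (profCoeffSum (t :: L) : ℝ) = (t.1.natAbs : ℝ) + (profCoeffSum L : ℝ) := by
      simp [profCoeffSum]
    have e3 : ((t.1.natAbs : ℕ) : ℝ) = |(t.1 : ℝ)| := by
      rw [Nat.cast_natAbs, Int.cast_abs]
    rw [e1, e2, add_mul]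
    refine (abs_add_le _ _).trans (add_le_add ?_ h2)
    rw [abs_mul, e3]
    exact mul_le_mul_of_nonneg_left h1 (abs_nonneg _)

/-- Explicit global bound for the derivatives of the profile:
`profBound n = 8 · profC n · 2^(2n+2) · (2n+2)!`, defined by primitive recursion. -/
def profBound : ℕ → ℕ :=
  Nat.rec 128 fun n r => (4 * n + 6) * 4 * ((2 * n + 3) * (2 * n + 4)) * r

theorem profBound_zero : profBound 0 = 128 := rfl

theorem profBound_succ (n : ℕ) :
    profBound (n + 1) = (4 * n + 6) * 4 * ((2 * n + 3) * (2 * n + 4)) * profBound n := rfl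

theorem profBound_eq (n : ℕ) : profBound n = 8 * profC n * 2 ^ (2 * n + 2) * (2 * n + 2) ! := by
  induction n with
  | zero => simp [profBound_zero, profC, Nat.factorial]
  | succ n ih =>
    rw [profBound_succ, ih]
    have e1 : 2 * (n + 1) + 2 = (2 * n + 2) + 2 := by ring
    have e2 : ((2 * n + 2) + 2) ! = (2 * n + 4) * ((2 * n + 3) * (2 * n + 2) !) := by
      rw [show (2 * n + 2) + 2 = (2 * n + 3) + 1 by ring, Nat.factorial_succ,
        show 2 * n + 3 = (2 * n + 2) + 1 by ring, Nat.factorial_succ]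
    rw [e1, e2, pow_add]
    simp only [profC]
    ring

theorem profBound_mono : Monotone profBound := by
  refine monotone_nat_of_le_succ fun n => ?_
  rw [profBound_succ]
  have h : 1 ≤ (4 * n + 6) * 4 * ((2 * n + 3) * (2 * n + 4)) := by
    have : 0 < (4 * n + 6) * 4 * ((2 * n + 3) * (2 * n + 4)) := by positivity
    omega
  calc profBound n = 1 * profBound n := (one_mul _).symm
    _ ≤ _ := Nat.mul_le_mul_right _ h

/-- (J3) the bound is primitive recursive. -/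
theorem prof_bound_primrec : Primrec profBound := by
  unfold profBound
  refine Primrec.nat_rec₁ 128 ?_
  have hfst : Primrec₂ fun (n r : ℕ) => n := Primrec.fst
  have hsnd : Primrec₂ fun (n r : ℕ) => r := Primrec.snd
  have c : ∀ m : ℕ, Primrec₂ fun (_ _ : ℕ) => m := fun m => Primrec.const m
  have mul : ∀ {f g : ℕ → ℕ → ℕ}, Primrec₂ f → Primrec₂ g → Primrec₂ fun n r => f n r * g n r :=
    fun hf hg => Primrec.nat_mul.comp₂ hf hg
  have add : ∀ {f g : ℕ → ℕ → ℕ}, Primrec₂ f → Primrec₂ g → Primrec₂ fun n r => f n r + g n r :=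
    fun hf hg => Primrec.nat_add.comp₂ hf hg
  exact mul (mul (mul (add (mul (c 4) hfst) (c 6)) (c 4))
    (mul (add (mul (c 2) hfst) (c 3)) (add (mul (c 2) hfst) (c 4)))) hsnd

theorem prof_bound_computable : Computable profBound := prof_bound_primrec.to_comp

/-- Bound of the `(n+1)`-st derivative in terms of `profBound n`. -/
theorem prof_bound_succ (n : ℕ) (x : ℝ) :
    |iteratedDeriv (n + 1) Real.smoothTransition x| ≤ (profBound n : ℝ) := by
  by_cases hx : x ∈ Ioo (0 : ℝ) 1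
  · rw [prof_iteratedDeriv_eq n hx]
    have h1 := prof_eval_abs_le (profJet n) x (8 * 2 ^ (2 * n + 2) * ((2 * n + 2) ! : ℝ))
      (fun t ht => prof_mono_le_of_good (profJet_good n t ht) hx)
    refine h1.trans ?_
    have h2 : (profCoeffSum (profJet n) : ℝ) ≤ (profC n : ℝ) := by
      exact_mod_cast profJet_coeffSum n
    have h3 : (profBound n : ℝ) = (profC n : ℝ) * (8 * 2 ^ (2 * n + 2) * ((2 * n + 2) ! : ℝ)) := by
      rw [profBound_eq]; push_cast; ring
    rw [h3]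
    exact mul_le_mul_of_nonneg_right h2 (by positivity)
  · rw [prof_iteratedDeriv_eq_zero n hx, abs_zero]
    positivity

/-- (J3) Global derivative bounds of the profile. -/
theorem prof_bound (k : ℕ) (x : ℝ) :
    |iteratedDeriv k Real.smoothTransition x| ≤ (profBound k : ℝ) := by
  cases k with
  | zero =>
    rw [iteratedDeriv_zero, abs_of_nonneg (Real.smoothTransition.nonneg x), profBound_zero]
    exact (Real.smoothTransition.le_one x).trans (by norm_num)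
  | succ n =>
    refine (prof_bound_succ n x).trans ?_
    exact_mod_cast profBound_mono (Nat.le_succ n)

end Crest.Agent.S0170
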