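import Crest.Agent.S0170_QBridge
import Crest.Agent.S0170_CR

/-!
# WP-Q glue: the bundled facts `QTool` (WP-CR) proved from the ℚ bridge

Also the unbundled two-variable forms of the ℚ operations.
-/

namespace Crest.Agent.S0170

theorem q_add₂ : Computable₂ ((· + ·) : ℚ → ℚ → ℚ) := qadd Computable.fst Computable.snd

theorem q_sub₂ : Computable₂ (fun a b : ℚ => a - b) := qsub Computable.fst Computable.snd

theorem q_mul₂ : Computable₂ ((· * ·) : ℚ → ℚ → ℚ) := qmul Computable.fst Computable.snd

theorem q_div₂ : Computable₂ (fun a b : ℚ => a / b) := qdiv Computable.fst Computable.snd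

theorem q_neg₁ : Computable (Neg.neg : ℚ → ℚ) := qneg Computable.id

theorem q_inv₁ : Computable (Inv.inv : ℚ → ℚ) := qinv Computable.id

theorem q_abs₁ : Computable (fun q : ℚ => |q|) := qabs Computable.id

theorem q_le₂ : Computable₂ (fun a b : ℚ => decide (a ≤ b)) := qle Computable.fst Computable.snd

theorem q_lt₂ : Computable₂ (fun a b : ℚ => decide (a < b)) := qlt Computable.fst Computable.snd

theorem q_ceil₁ : Computable (fun q : ℚ => ⌈q⌉₊) := qceil Computable.id

theorem q_floor₁ : Computable (fun q : ℚ => ⌊q⌋₊) := qfloor Computable.id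

theorem q_natCast₁ : Computable (fun n : ℕ => (n : ℚ)) := qofNat Computable.id

theorem q_pow₂ : Computable₂ (fun (q : ℚ) (n : ℕ) => q ^ n) := qpow Computable.fst Computable.snd

/-- a computable natural-number bound for the absolute value of a rational -/
theorem q_bd : ∃ N : ℚ → ℕ, Computable N ∧ ∀ q : ℚ, |q| ≤ (N q : ℚ) :=
  ⟨fun q => ⌈|q|⌉₊, qceil (qabs Computable.id), fun _ => Nat.le_ceil _⟩

/-- The six facts about `Primcodable ℚ` required by WP-CR. -/
theorem qTool : QTool := ⟨q_add₂, q_mul₂, q_neg₁, q_inv₁, q_le₂, q_ceil₁⟩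

end Crest.Agent.S0170
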