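import Mathlib
import Crest.Agent.S0170_CR
import Crest.Agent.S0170_EffDefs
import Crest.Agent.S0170_ProfJet
import Crest.Agent.S0170_Eff1
import Crest.Agent.S0170_QTool
import Crest.Agent.S0170_Move

/-!
# Row 126 (S0170), PROFILE-EFF: `Eff1 Real.smoothTransition` (owner: helper7)

The profile `S = Real.smoothTransition` is an `Eff1` function and an `IsStep`:

* bounds: `profBound` (helper6's `S0170_ProfJet`);
* values at rationals: `S q = 0` for `q ≤ 0`, `= 1` for `1 ≤ q` and
  `= 1 / (1 + exp (q⁻¹ - (1 - q)⁻¹))` in between — computable from `exp` at computable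
  rationals (`profEff_val`, using helper13's `IsCR.exp_rat`);
* derivatives at rationals: numerical differentiation, i.e. helper11's `eff1_of_values`
  (computable values + computable derivative bounds ⇒ `Eff1`).
-/

set_option autoImplicit false

namespace Crest.Agent.S0170

section

variable {α : Type*} [Primcodable α]

/-- `1 / (1 + E)` is a computable real family if `E ≥ 0` is. -/
theorem profEff_logistic (Q : QTool) {E : α → ℝ} (hE : IsCR E) (hE0 : ∀ a, 0 ≤ E a) :
    IsCR fun a => 1 / (1 + E a) := by
  obtain ⟨A, hA, hAE⟩ := hE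
  have hmax : Computable fun p : α × ℕ => if decide ((0 : ℚ) ≤ A p) = true then A p else 0 :=
    Q.cIte (Q.cLe (Computable.const 0) hA) hA (Computable.const 0)
  refine ⟨fun p => 1 / (1 + (if decide ((0 : ℚ) ≤ A p) = true then A p else 0)),
    Q.cDiv (Computable.const 1) (Q.cAdd (Computable.const 1) hmax), fun a n => ?_⟩
  have h1 := hAE a n
  have hu := hE0 a
  obtain ⟨v, hv0, huv⟩ : ∃ v : ℚ, (if decide ((0 : ℚ) ≤ A (a, n)) = true then A (a, n) else 0) = v ∧
      (0 : ℝ) ≤ (v : ℝ) ∧ |E a - (v : ℝ)| ≤ |E a - (A (a, n) : ℝ)| := by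
    by_cases h : (0 : ℚ) ≤ A (a, n)
    · refine ⟨A (a, n), by simp [h], by exact_mod_cast h, le_refl _⟩
    · refine ⟨0, by simp [h], by simp, ?_⟩
      have h' : (A (a, n) : ℝ) < 0 := by exact_mod_cast not_le.1 h
      rw [Rat.cast_zero, sub_zero, abs_of_nonneg hu, abs_of_nonneg (by linarith)]
      linarith
  simp only [hv0]
  obtain ⟨hv0, huv⟩ := huv
  have h2 : 1 / (1 + E a) - ((1 / (1 + v) : ℚ) : ℝ) =
      ((v : ℝ) - E a) / ((1 + E a) * (1 + (v : ℝ))) := by
    push_cast
    field_simp
    ring
  rw [h2, abs_div, abs_sub_comm]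
  have h3 : (1 : ℝ) ≤ |(1 + E a) * (1 + (v : ℝ))| := by
    rw [abs_of_nonneg (by positivity)]
    nlinarith
  exact (div_le_self (abs_nonneg _) h3).trans (huv.trans h1)

end

/-- Values of the profile at rational points are uniformly computable. -/
theorem profEff_val (Q : QTool)
    (hexp : ∀ f : ℚ → ℚ, Computable f → IsCR fun a : ℚ => Real.exp ((f a : ℚ) : ℝ)) :
    IsCR fun q : ℚ => Real.smoothTransition (q : ℝ) := by
  have hg : Computable fun q : ℚ => q⁻¹ - (1 - q)⁻¹ :=
    Q.cSub (Q.cInv Computable.id) (Q.cInv (Q.cSub (Computable.const 1) Computable.id))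
  have hL := profEff_logistic Q (hexp _ hg) (fun q => (Real.exp_pos _).le)
  have h1 := IsCR.ite Q (Q.cLe (Computable.const (1 : ℚ)) Computable.id) (IsCR.one (α := ℚ)) hL
  have h2 := IsCR.ite Q (Q.cLe Computable.id (Computable.const (0 : ℚ))) (IsCR.zero (α := ℚ)) h1
  refine h2.congr fun q => ?_
  by_cases h0 : q ≤ 0
  · have h0' : ((q : ℚ) : ℝ) ≤ 0 := by exact_mod_cast h0
    simp only [id, decide_eq_true_eq, h0, if_true]
    exact (Real.smoothTransition.zero_of_nonpos h0').symm
  · by_cases h1' : 1 ≤ q
    · have h1'' : (1 : ℝ) ≤ ((q : ℚ) : ℝ) := by exact_mod_cast h1'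
      simp only [id, decide_eq_true_eq, h0, h1', if_true, if_false]
      exact (Real.smoothTransition.one_of_one_le h1'').symm
    · have hq0 : (0 : ℝ) < ((q : ℚ) : ℝ) := by exact_mod_cast not_le.1 h0
      have hq1 : ((q : ℚ) : ℝ) < 1 := by exact_mod_cast not_le.1 h1'
      simp only [id, decide_eq_true_eq, h0, h1', if_false]
      rw [prof_eq_logistic ⟨hq0, hq1⟩]
      push_cast
      rfl

/-- Values of the profile: the `EffV` form consumed by `eff1_of_values`. -/
theorem profEff_effV : EffV Real.smoothTransition :=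
  profEff_val qTool fun _ hf => IsCR.exp_rat qTool hf

/-- **The profile `Real.smoothTransition` is `Eff1`.** -/
theorem profEff : Eff1 Real.smoothTransition :=
  eff1_of_values Real.smoothTransition.contDiff profEff_effV
    ⟨profBound, prof_bound_computable, prof_bound⟩

/-- The profile `Real.smoothTransition` is a step function in the sense of `S0170_Move`. -/
theorem profEff_isStep : IsStep Real.smoothTransition :=
  ⟨Real.smoothTransition.contDiff, fun _ hx => Real.smoothTransition.zero_of_nonpos hx,
    fun _ hx => Real.smoothTransition.one_of_one_le hx, Real.smoothTransition.nonneg,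
    Real.smoothTransition.le_one⟩

end Crest.Agent.S0170
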