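import Crest.Agent.S0170_EffSched
import Crest.Agent.S0170_Eff1
import Crest.Agent.S0170_ProfEff

/-!
# S0170 (row 126) : the schedule field of the profile `Real.smoothTransition` is effective

`EffClosure S` (the four closure facts used by `effSched`) follows from the `Eff1` closure lemmas of
`S0170_Eff1`, and `Eff1 Real.smoothTransition`, `IsStep Real.smoothTransition` are in
`S0170_ProfEff`.  Owner: helper3.
-/

set_option autoImplicit false
open scoped ContDiff
open Crest.AnalysisR.BoxFlow

namespace Crest.Agent.S0170

/-- The `Eff1` closure package for any `Eff1` profile. -/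
theorem effFinal_closure {S : ℝ → ℝ} (hS : Eff1 S) : EffClosure S :=
  ⟨fun a b => eff1_comp_affine a b hS, fun _ h => eff1_deriv h,
    fun _ _ hf hg => eff1_sub hf hg, fun f lam sig c hf hc => eff1_pot f lam sig c hf hc⟩

/-- The schedule field built on `Real.smoothTransition` is effective. -/
theorem effFinal_sched (N : ℕ) (st : ℕ → Stage) :
    Effective (schedField Real.smoothTransition N st) :=
  effSched profEff_isStep (effFinal_closure profEff) N st

end Crest.Agent.S0170
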