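import Mathlib
import Crest.Prelude.Def_BoxFlow
import Crest.Agent.S0170_Flow

/-!
# S0170, work package ASM (top-down assembly)

The statement of S0170 is reduced to an abstract chain of "moves":

* `Carries V t₀ t₁ y z` : the field `V` carries the point `y` to the point `z` during `[t₀, t₁]`
  (there is a solution curve of the ODE on `[t₀, t₁]` from `y` to `z`);
* `thick ε c w`   : the open box with centre `c` and half-widths `(1 + ε) * w`
  (proportional thickening: preserved by translations and by diagonal rescalings);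
* `aff c w c' w'` : the affine map carrying the box `(c, w)` onto the box `(c', w')`
  coordinatewise;
* `asm_main`      : if a sequence of configurations `(C m, W m)`, `m ≤ N`, from the source
  configuration to the target configuration is given, and every step `m → m + 1` can be realised
  in every rational time slot by a smooth, compactly supported, effective, divergence-free field
  which vanishes outside the open slot and carries the thickened boxes affinely, then the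
  conclusion of S0170 holds.

All names are prefixed `asm_` except the three interface definitions `Carries`, `thick`, `aff`.
-/

open scoped ContDiff NNReal Topology
open Set
open Crest.AnalysisR.BoxFlow

namespace Crest.Agent.S0170

/-- The field `V` carries the point `y` to the point `z` during the time interval `[t₀, t₁]`. -/
def Carries (V : Field) (t₀ t₁ : ℝ) (y z : Fin 3 → ℝ) : Prop :=
  ∃ γ : ℝ → (Fin 3 → ℝ), γ t₀ = y ∧ γ t₁ = z ∧
    ∀ t ∈ Set.Icc t₀ t₁, HasDerivWithinAt γ (V (t, γ t)) (Set.Icc t₀ t₁) t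

/-- Open box with centre `c` and half-widths `(1 + ε) * w`. -/
def thick (ε : ℝ) (c w : Fin 3 → ℚ) : Set (Fin 3 → ℝ) :=
  {x | ∀ j : Fin 3, |x j - (c j : ℝ)| < (1 + ε) * (w j : ℝ)}

/-- The coordinatewise affine map carrying the box `(c, w)` onto the box `(c', w')`. -/
def aff (c w c' w' : Fin 3 → ℚ) (y : Fin 3 → ℝ) : Fin 3 → ℝ :=
  fun j => (c' j : ℝ) + ((w' j / w j : ℚ) : ℝ) * (y j - (c j : ℝ))

/-! ### `Carries` -/

/-- A point where the field vanishes during the whole slot is carried to itself. -/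
theorem Carries.of_zero {V : Field} {t₀ t₁ : ℝ} {y : Fin 3 → ℝ}
    (h : ∀ t ∈ Set.Icc t₀ t₁, V (t, y) = 0) : Carries V t₀ t₁ y y :=
  ⟨fun _ => y, rfl, rfl, fun t ht => by rw [h t ht]; exact hasDerivWithinAt_const _ _ _⟩

/-- `Carries` only depends on the field during the slot. -/
theorem Carries.congr {U V : Field} {t₀ t₁ : ℝ} {y z : Fin 3 → ℝ}
    (h : ∀ t ∈ Set.Icc t₀ t₁, ∀ x, U (t, x) = V (t, x)) (hV : Carries V t₀ t₁ y z) :
    Carries U t₀ t₁ y z := by
  obtain ⟨γ, h0, h1, hγ⟩ := hV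
  exact ⟨γ, h0, h1, fun t ht => by rw [h t ht]; exact hγ t ht⟩

/-- Explicit differentiable curve, ODE satisfied along the curve during the slot. -/
theorem Carries.of_curve {V : Field} {t₀ t₁ : ℝ} (γ γ' : ℝ → (Fin 3 → ℝ))
    (hγ : ∀ t ∈ Set.Icc t₀ t₁, HasDerivAt γ (γ' t) t)
    (hode : ∀ t ∈ Set.Icc t₀ t₁, V (t, γ t) = γ' t) :
    Carries V t₀ t₁ (γ t₀) (γ t₁) :=
  ⟨γ, rfl, rfl, fun t ht => by rw [hode t ht]; exact (hγ t ht).hasDerivWithinAt⟩

/-- Concatenation of two consecutive slots. -/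
theorem Carries.trans {V : Field} {t₀ t₁ t₂ : ℝ} {y z w : Fin 3 → ℝ}
    (h01 : t₀ ≤ t₁) (h12 : t₁ ≤ t₂)
    (h1 : Carries V t₀ t₁ y z) (h2 : Carries V t₁ t₂ z w) : Carries V t₀ t₂ y w := by
  obtain ⟨γ₁, h10, h11, hγ₁⟩ := h1
  obtain ⟨γ₂, h20, h21, hγ₂⟩ := h2
  let γ : ℝ → (Fin 3 → ℝ) := fun t => if t ≤ t₁ then γ₁ t else γ₂ t
  have e1 : ∀ t ∈ Icc t₀ t₁, γ t = γ₁ t := fun t ht => if_pos ht.2
  have e2 : ∀ t ∈ Icc t₁ t₂, γ t = γ₂ t := by
    intro t ht
    rcases eq_or_lt_of_le ht.1 with h | h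
    · subst h
      simp only [γ, le_refl, if_true]
      rw [h11, h20]
    · exact if_neg (not_le.mpr h)
  -- derivative within each of the two pieces
  have d1 : ∀ t ∈ Icc t₀ t₁, HasDerivWithinAt γ (V (t, γ t)) (Icc t₀ t₁) t := by
    intro t ht
    rw [e1 t ht]
    exact (hγ₁ t ht).congr (fun s hs => e1 s hs) (e1 t ht)
  have d2 : ∀ t ∈ Icc t₁ t₂, HasDerivWithinAt γ (V (t, γ t)) (Icc t₁ t₂) t := by
    intro t ht
    rw [e2 t ht]
    exact (hγ₂ t ht).congr (fun s hs => e2 s hs) (e2 t ht)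
  refine ⟨γ, ?_, ?_, fun t ht => ?_⟩
  · rw [e1 t₀ ⟨le_rfl, h01⟩, h10]
  · rw [e2 t₂ ⟨h12, le_rfl⟩, h21]
  · rcases lt_trichotomy t t₁ with h | h | h
    · -- left piece is a neighbourhood within the whole interval
      have hmem : Icc t₀ t₁ ∈ 𝓝[Icc t₀ t₂] t := by
        have : Iio t₁ ∈ 𝓝 t := Iio_mem_nhds h
        refine Filter.mem_of_superset (inter_mem_nhdsWithin _ this) ?_
        rintro s ⟨hs1, hs2⟩
        exact ⟨hs1.1, le_of_lt hs2⟩
      exact (d1 t ⟨ht.1, h.le⟩).mono_of_mem_nhdsWithin hmem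
    · subst h
      have hu : Icc t₀ t₂ = Icc t₀ t ∪ Icc t t₂ := (Icc_union_Icc_eq_Icc h01 h12).symm
      rw [hu]
      exact (d1 t ⟨h01, le_rfl⟩).union (d2 t ⟨le_rfl, h12⟩)
    · have hmem : Icc t₁ t₂ ∈ 𝓝[Icc t₀ t₂] t := by
        have : Ioi t₁ ∈ 𝓝 t := Ioi_mem_nhds h
        refine Filter.mem_of_superset (inter_mem_nhdsWithin _ this) ?_
        rintro s ⟨hs1, hs2⟩
        exact ⟨le_of_lt hs2, hs1.2⟩
      exact (d2 t ⟨h.le, ht.2⟩).mono_of_mem_nhdsWithin hmem

/-- A flow follows every `Carries` of its field. -/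
theorem Carries.flow {U : Field} (hU : ContDiff ℝ ∞ U) (hc : HasCompactSupport U)
    {Φ : ℝ → (Fin 3 → ℝ) → (Fin 3 → ℝ)} (hΦ : IsFlow U Φ) {t₀ t₁ : ℝ} (h01 : t₀ ≤ t₁)
    {x z : Fin 3 → ℝ} (h : Carries U t₀ t₁ (Φ t₀ x) z) : Φ t₁ x = z := by
  obtain ⟨γ, h0, h1, hγ⟩ := h
  rw [← h1]
  exact (flow_unique U hU hc Φ hΦ x t₀ t₁ h01 γ h0 hγ).symm

/-! ### `thick` and `aff` -/

theorem asm_isOpen_thick (ε : ℝ) (c w : Fin 3 → ℚ) : IsOpen (thick ε c w) := by
  have : thick ε c w = ⋂ j : Fin 3, {x : Fin 3 → ℝ | |x j - (c j : ℝ)| < (1 + ε) * (w j : ℝ)} := by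
    ext x; simp [thick]
  rw [this]
  exact isOpen_iInter_of_finite fun j =>
    isOpen_lt (by fun_prop) continuous_const

theorem asm_box_subset_thick {ε : ℝ} (hε : 0 < ε) (c w : Fin 3 → ℚ) (hw : ∀ j, 0 < w j) :
    box c w ⊆ thick ε c w := by
  intro x hx j
  have h1 : |x j - (c j : ℝ)| ≤ (w j : ℝ) := hx j
  have h2 : (0 : ℝ) < w j := by exact_mod_cast hw j
  nlinarith

theorem asm_aff_self (c w : Fin 3 → ℚ) (hw : ∀ j, 0 < w j) (y : Fin 3 → ℝ) :
    aff c w c w y = y := by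
  funext j
  have h2 : (w j : ℝ) ≠ 0 := by exact_mod_cast (hw j).ne'
  simp only [aff, Rat.cast_div]
  rw [div_self h2]; ring

theorem asm_aff_comp (c w c' w' c'' w'' : Fin 3 → ℚ) (hw' : ∀ j, 0 < w' j) (y : Fin 3 → ℝ) :
    aff c' w' c'' w'' (aff c w c' w' y) = aff c w c'' w'' y := by
  funext j
  have h2 : (w' j : ℝ) ≠ 0 := by exact_mod_cast (hw' j).ne'
  simp only [aff, Rat.cast_div]
  field_simp
  ring

theorem asm_aff_mem_thick {ε : ℝ} (c w c' w' : Fin 3 → ℚ) (hw : ∀ j, 0 < w j)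
    (hw' : ∀ j, 0 < w' j) {y : Fin 3 → ℝ} (hy : y ∈ thick ε c w) :
    aff c w c' w' y ∈ thick ε c' w' := by
  intro j
  have h1 : (0 : ℝ) < w j := by exact_mod_cast hw j
  have h2 : (0 : ℝ) < w' j := by exact_mod_cast hw' j
  have h3 := hy j
  simp only [aff, Rat.cast_div, add_sub_cancel_left]
  rw [abs_mul, abs_of_pos (div_pos h2 h1), div_mul_eq_mul_div, div_lt_iff₀ h1]
  nlinarith

/-! ### Finite sums of fields -/

theorem asm_spaceDiv_add (U V : Field) (hU : Differentiable ℝ U) (hV : Differentiable ℝ V)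
    (p : ℝ × (Fin 3 → ℝ)) : spaceDiv (U + V) p = spaceDiv U p + spaceDiv V p := by
  simp only [spaceDiv]
  rw [fderiv_add (hU p) (hV p)]
  simp [Finset.sum_add_distrib]

theorem asm_mixedDeriv_zero (ds : List (Fin 4)) : mixedDeriv ds (0 : Field) = 0 := by
  induction ds with
  | nil => rfl
  | cons d ds ih =>
    funext p
    simp only [mixedDeriv, ih]
    simp

theorem asm_effective_zero : Effective (0 : Field) := by
  refine ⟨fun _ => 0, fun _ => 0, Computable.const _, Computable.const _, ?_, ?_⟩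
  · intro ds t q n j
    rw [asm_mixedDeriv_zero]
    simp only [Pi.zero_apply, Rat.cast_zero, sub_zero, abs_zero]
    positivity
  · intro ds p j
    rw [asm_mixedDeriv_zero]
    simp

/-- The smooth, compactly supported, effective, divergence-free fields are closed under finite
sums, provided `Effective` is closed under addition of smooth fields. -/
theorem asm_sum_good
    (heff_add : ∀ U V : Field, ContDiff ℝ ∞ U → ContDiff ℝ ∞ V → Effective U → Effective V →
      Effective (U + V))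
    {ι : Type*} (s : Finset ι) (V : ι → Field)
    (h : ∀ m ∈ s, ContDiff ℝ ∞ (V m) ∧ HasCompactSupport (V m) ∧ Effective (V m) ∧
      ∀ p, spaceDiv (V m) p = 0) :
    ContDiff ℝ ∞ (∑ m ∈ s, V m) ∧ HasCompactSupport (∑ m ∈ s, V m) ∧
      Effective (∑ m ∈ s, V m) ∧ ∀ p, spaceDiv (∑ m ∈ s, V m) p = 0 := by
  classical
  induction s using Finset.induction_on with
  | empty =>
    simp only [Finset.sum_empty]
    refine ⟨contDiff_const, HasCompactSupport.zero, asm_effective_zero, fun p => ?_⟩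
    simp [spaceDiv]
  | insert m s hm ih =>
    rw [Finset.sum_insert hm]
    obtain ⟨a1, a2, a3, a4⟩ := h m (Finset.mem_insert_self m s)
    obtain ⟨b1, b2, b3, b4⟩ := ih fun m' hm' => h m' (Finset.mem_insert_of_mem hm')
    refine ⟨a1.add b1, a2.add b2, heff_add _ _ a1 b1 a3 b3, fun p => ?_⟩
    rw [asm_spaceDiv_add _ _ (a1.differentiable (by simp)) (b1.differentiable (by simp)),
      a4 p, b4 p, add_zero]

/-! ### The assembly -/

/-- **Assembly.** A chain of configurations `(C m, W m)`, `m ≤ N`, from the source boxes to the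
target boxes, each step of which is realisable in every rational time slot by a good field carrying
the thickened boxes affinely, yields the conclusion of S0170. -/
theorem asm_main (n : ℕ) (a b h k : Fin n → Fin 3 → ℚ)
    (N : ℕ) (C W : ℕ → Fin n → Fin 3 → ℚ)
    (hC0 : C 0 = a) (hW0 : W 0 = h) (hCN : C N = b) (hWN : W N = k)
    (hWpos : ∀ m ≤ N, ∀ i j, 0 < W m i j)
    (ε : ℝ) (hε : 0 < ε)
    (hmove : ∀ m < N, ∀ t₀ t₁ : ℚ, t₀ < t₁ → ∃ V : Field,
      ContDiff ℝ ∞ V ∧ HasCompactSupport V ∧ Effective V ∧ (∀ p, spaceDiv V p = 0) ∧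
      (∀ p : ℝ × (Fin 3 → ℝ), p.1 ∉ Set.Ioo (t₀ : ℝ) t₁ → V p = 0) ∧
      ∀ i, ∀ y ∈ thick ε (C m i) (W m i),
        Carries V t₀ t₁ y (aff (C m i) (W m i) (C (m + 1) i) (W (m + 1) i) y))
    (heff_add : ∀ U V : Field, ContDiff ℝ ∞ U → ContDiff ℝ ∞ V → Effective U → Effective V →
      Effective (U + V)) :
    ∃ (U : Field) (Φ : ℝ → (Fin 3 → ℝ) → (Fin 3 → ℝ)),
      ContDiff ℝ ∞ U ∧ HasCompactSupport U ∧ Effective U ∧
      (∀ p : ℝ × (Fin 3 → ℝ), p.1 ∉ Set.Icc (1 / 4 : ℝ) (3 / 4) → U p = 0) ∧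
      (∀ p : ℝ × (Fin 3 → ℝ), spaceDiv U p = 0) ∧ IsFlow U Φ ∧
      ∀ i : Fin n, ∃ O : Set (Fin 3 → ℝ), IsOpen O ∧ box (a i) (h i) ⊆ O ∧
        ∀ x ∈ O, Φ 1 x = fun j => (b i j : ℝ) + ((k i j / h i j : ℚ) : ℝ) * (x j - (a i j : ℝ)) := by
  classical
  -- the time slots
  set τ : ℕ → ℚ := fun m => 1 / 4 + (m : ℚ) / (2 * N) with hτ
  have hτ0 : τ 0 = 1 / 4 := by simp [hτ]
  have hτmono : Monotone τ := by
    intro m m' hmm
    simp only [hτ]
    have : (m : ℚ) ≤ m' := by exact_mod_cast hmm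
    gcongr
  have hτlt : ∀ m < N, τ m < τ (m + 1) := by
    intro m hm
    have hN : (0 : ℚ) < N := by exact_mod_cast (Nat.zero_lt_of_lt hm)
    simp only [hτ]
    have : (m : ℚ) < ((m + 1 : ℕ) : ℚ) := by exact_mod_cast Nat.lt_succ_self m
    gcongr
  have hτN : τ N ≤ 3 / 4 := by
    simp only [hτ]
    rcases Nat.eq_zero_or_pos N with h0 | h0
    · subst h0; norm_num
    · have hN : (0 : ℚ) < N := by exact_mod_cast h0
      have : (N : ℚ) / (2 * N) = 1 / 2 := by field_simp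
      rw [this]; norm_num
  -- real versions
  have hτ0R : ((τ 0 : ℚ) : ℝ) = 1 / 4 := by rw [hτ0]; norm_num
  have hτmonoR : ∀ m m', m ≤ m' → ((τ m : ℚ) : ℝ) ≤ ((τ m' : ℚ) : ℝ) := by
    intro m m' hmm; exact_mod_cast hτmono hmm
  have hτNR : ((τ N : ℚ) : ℝ) ≤ 3 / 4 := by
    have := hτN
    have h2 : ((τ N : ℚ) : ℝ) ≤ ((3 / 4 : ℚ) : ℝ) := by exact_mod_cast this
    simpa using h2
  -- the stage fields
  choose V hV1 hV2 hV3 hV4 hV5 hV6 using
    fun m : Fin N => hmove m m.2 (τ m) (τ (m + 1)) (hτlt m m.2)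
  set U : Field := ∑ m : Fin N, V m with hU
  obtain ⟨hUsm, hUc, hUeff, hUdiv⟩ :=
    asm_sum_good heff_add Finset.univ V fun m _ => ⟨hV1 m, hV2 m, hV3 m, hV4 m⟩
  -- `U` outside all slots
  have hUout : ∀ (t : ℝ) (y : Fin 3 → ℝ), (t ≤ ((τ 0 : ℚ) : ℝ) ∨ ((τ N : ℚ) : ℝ) ≤ t) →
      U (t, y) = 0 := by
    intro t y ht
    rw [hU, Finset.sum_apply]
    refine Finset.sum_eq_zero fun m _ => hV5 m (t, y) ?_
    rintro ⟨h1, h2⟩
    rcases ht with ht | ht
    · have := hτmonoR 0 m (Nat.zero_le _)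
      simp only at h1; linarith
    · have := hτmonoR (m + 1) N m.2
      simp only at h2; linarith
  -- `U` on a slot
  have hUslot : ∀ (m : Fin N) (t : ℝ),
      t ∈ Icc ((τ m : ℚ) : ℝ) ((τ (m + 1) : ℚ) : ℝ) → ∀ y, U (t, y) = V m (t, y) := by
    intro m t ht y
    rw [hU, Finset.sum_apply]
    refine Finset.sum_eq_single m (fun m' _ hne => hV5 m' (t, y) ?_) (fun h => absurd (Finset.mem_univ m) h)
    rintro ⟨h1, h2⟩
    simp only at h1 h2
    rcases lt_or_gt_of_ne (fun h => hne (Fin.ext h) : (m' : ℕ) ≠ m) with hlt | hgt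
    · have := hτmonoR (m' + 1) m hlt
      linarith [ht.1]
    · have := hτmonoR (m + 1) m' hgt
      linarith [ht.2]
  have hUtime : ∀ p : ℝ × (Fin 3 → ℝ), p.1 ∉ Set.Icc (1 / 4 : ℝ) (3 / 4) → U p = 0 := by
    rintro ⟨t, y⟩ ht
    refine hUout t y ?_
    by_contra hcon
    rw [not_or, not_le, not_le] at hcon
    exact ht ⟨by rw [← hτ0R]; exact hcon.1.le, hcon.2.le.trans hτNR⟩
  obtain ⟨Φ, hΦ⟩ := flow_exists U hUsm hUc hUtime
  refine ⟨U, Φ, hUsm, hUc, hUeff, hUtime, hUdiv, hΦ, fun i => ?_⟩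
  have hhpos : ∀ i j, 0 < h i j := fun i j => by rw [← hW0]; exact hWpos 0 (Nat.zero_le _) i j
  refine ⟨thick ε (a i) (h i), asm_isOpen_thick _ _ _,
    asm_box_subset_thick hε _ _ (hhpos i), fun x hx => ?_⟩
  -- stage induction
  have key : ∀ m ≤ N, Φ ((τ m : ℚ) : ℝ) x = aff (a i) (h i) (C m i) (W m i) x := by
    intro m
    induction m with
    | zero =>
      intro _
      have h1 : Φ ((τ 0 : ℚ) : ℝ) x = Φ 0 x :=
        flow_const U hUsm hUc Φ hΦ x 0 _ (by rw [hτ0R]; norm_num)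
          (fun t ht => hUout t _ (Or.inl ht.2))
      rw [h1, hΦ.1 x, hC0, hW0, asm_aff_self _ _ (hhpos i)]
    | succ m ih =>
      intro hm
      have hm' : m < N := hm
      have ih' := ih hm'.le
      have hy : aff (a i) (h i) (C m i) (W m i) x ∈ thick ε (C m i) (W m i) :=
        asm_aff_mem_thick _ _ _ _ (hhpos i) (hWpos m hm'.le i) hx
      have hcar := hV6 ⟨m, hm'⟩ i _ hy
      have hcarU : Carries U ((τ m : ℚ) : ℝ) ((τ (m + 1) : ℚ) : ℝ) (Φ ((τ m : ℚ) : ℝ) x)
          (aff (C m i) (W m i) (C (m + 1) i) (W (m + 1) i)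
            (aff (a i) (h i) (C m i) (W m i) x)) := by
        rw [ih']
        exact Carries.congr (fun t ht y => hUslot ⟨m, hm'⟩ t ht y) hcar
      rw [Carries.flow hUsm hUc hΦ (hτmonoR m (m + 1) (Nat.le_succ m)) hcarU,
        asm_aff_comp _ _ _ _ _ _ (hWpos m hm'.le i)]
  have hend : Φ 1 x = Φ ((τ N : ℚ) : ℝ) x :=
    flow_const U hUsm hUc Φ hΦ x _ 1 (by linarith)
      (fun t ht => hUout t _ (Or.inr ht.1))
  rw [hend, key N le_rfl, hCN, hWN]
  rfl

/-! ### Pointwise chain (itinerary form) -/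

/-- The `s`-th of `M` equal time slots inside `[1/4, 3/4]` starts at `asm_slot M s`. -/
noncomputable def asm_slot (M s : ℕ) : ℝ := 1 / 4 + (s : ℝ) / (2 * M)

theorem asm_slot_zero (M : ℕ) : asm_slot M 0 = 1 / 4 := by simp [asm_slot]

theorem asm_slot_mono (M : ℕ) : Monotone (asm_slot M) := by
  intro s s' h
  simp only [asm_slot]
  have : (s : ℝ) ≤ s' := by exact_mod_cast h
  gcongr

theorem asm_slot_le (M : ℕ) : asm_slot M M ≤ 3 / 4 := by
  simp only [asm_slot]
  rcases Nat.eq_zero_or_pos M with h0 | h0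
  · subst h0; norm_num
  · have hM : (0 : ℝ) < M := by exact_mod_cast h0
    have : (M : ℝ) / (2 * M) = 1 / 2 := by field_simp
    rw [this]; norm_num

/-- **Pointwise chain.** Stage fields `V s`, `s < M`, each smooth, compactly supported,
divergence-free and switched off outside its open time slot
`(asm_slot M s, asm_slot M (s+1))`. Then their sum `U` is smooth, compactly supported,
divergence-free, vanishes for times outside `[1/4, 3/4]`, and has a flow `Φ` such that every point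
`x` with an itinerary `A 0 = x, A 1, …, A M`, where stage `s` carries `A s` to `A (s+1)`, ends at
`Φ 1 x = A M`. -/
theorem asm_chain (M : ℕ) (V : ℕ → Field)
    (hV : ∀ s < M, ContDiff ℝ ∞ (V s) ∧ HasCompactSupport (V s) ∧ (∀ p, spaceDiv (V s) p = 0) ∧
      ∀ p : ℝ × (Fin 3 → ℝ), p.1 ∉ Set.Ioo (asm_slot M s) (asm_slot M (s + 1)) → V s p = 0) :
    ContDiff ℝ ∞ (∑ s ∈ Finset.range M, V s) ∧
    HasCompactSupport (∑ s ∈ Finset.range M, V s) ∧
    (∀ p : ℝ × (Fin 3 → ℝ), p.1 ∉ Set.Icc (1 / 4 : ℝ) (3 / 4) →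
      (∑ s ∈ Finset.range M, V s) p = 0) ∧
    (∀ p, spaceDiv (∑ s ∈ Finset.range M, V s) p = 0) ∧
    ∃ Φ : ℝ → (Fin 3 → ℝ) → (Fin 3 → ℝ), IsFlow (∑ s ∈ Finset.range M, V s) Φ ∧
      ∀ (x : Fin 3 → ℝ) (A : ℕ → Fin 3 → ℝ), A 0 = x →
        (∀ s < M, Carries (V s) (asm_slot M s) (asm_slot M (s + 1)) (A s) (A (s + 1))) →
        Φ 1 x = A M := by
  classical
  set U : Field := ∑ s ∈ Finset.range M, V s with hU
  have hUsm : ContDiff ℝ ∞ U := by
    have e : U = fun x => ∑ i ∈ Finset.range M, V i x := by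
      funext x; rw [hU, Finset.sum_apply]
    rw [e]
    exact ContDiff.sum fun s hs => (hV s (Finset.mem_range.mp hs)).1
  have hUc : HasCompactSupport U := by
    rw [hU]
    refine Finset.sum_induction V HasCompactSupport (fun _ _ ha hb => ha.add hb)
      HasCompactSupport.zero fun s hs => (hV s (Finset.mem_range.mp hs)).2.1
  have hUdiv : ∀ p, spaceDiv U p = 0 := by
    have : ∀ T : Finset ℕ, (∀ s ∈ T, s < M) →
        Differentiable ℝ (∑ s ∈ T, V s) ∧ ∀ p, spaceDiv (∑ s ∈ T, V s) p = 0 := by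
      intro T
      induction T using Finset.induction_on with
      | empty =>
        intro _
        simp only [Finset.sum_empty]
        exact ⟨differentiable_const _, fun p => by simp [spaceDiv]⟩
      | insert m T hm ih =>
        intro hT
        rw [Finset.sum_insert hm]
        obtain ⟨a1, -, a4, -⟩ := hV m (hT m (Finset.mem_insert_self m T))
        obtain ⟨b1, b4⟩ := ih fun s hs => hT s (Finset.mem_insert_of_mem hs)
        have a1' : Differentiable ℝ (V m) := a1.differentiable (by simp)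
        exact ⟨a1'.add b1, fun p => by rw [asm_spaceDiv_add _ _ a1' b1, a4 p, b4 p, add_zero]⟩
    exact (this (Finset.range M) fun s hs => Finset.mem_range.mp hs).2
  -- `U` outside all slots
  have hUout : ∀ (t : ℝ) (y : Fin 3 → ℝ), (t ≤ asm_slot M 0 ∨ asm_slot M M ≤ t) →
      U (t, y) = 0 := by
    intro t y ht
    rw [hU, Finset.sum_apply]
    refine Finset.sum_eq_zero fun m hm => (hV m (Finset.mem_range.mp hm)).2.2.2 (t, y) ?_
    rintro ⟨h1, h2⟩
    rcases ht with ht | ht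
    · have := asm_slot_mono M (Nat.zero_le m)
      simp only at h1; linarith
    · have := asm_slot_mono M (Nat.succ_le_of_lt (Finset.mem_range.mp hm))
      simp only at h2; linarith
  -- `U` on a slot
  have hUslot : ∀ m < M, ∀ t ∈ Icc (asm_slot M m) (asm_slot M (m + 1)),
      ∀ y, U (t, y) = V m (t, y) := by
    intro m hm t ht y
    rw [hU, Finset.sum_apply]
    refine Finset.sum_eq_single m
      (fun m' hm' hne => (hV m' (Finset.mem_range.mp hm')).2.2.2 (t, y) ?_)
      (fun h => absurd (Finset.mem_range.mpr hm) h)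
    rintro ⟨h1, h2⟩
    simp only at h1 h2
    rcases lt_or_gt_of_ne hne with hlt | hgt
    · have := asm_slot_mono M (Nat.succ_le_of_lt hlt)
      linarith [ht.1]
    · have := asm_slot_mono M (Nat.succ_le_of_lt hgt)
      linarith [ht.2]
  have hUtime : ∀ p : ℝ × (Fin 3 → ℝ), p.1 ∉ Set.Icc (1 / 4 : ℝ) (3 / 4) → U p = 0 := by
    rintro ⟨t, y⟩ ht
    refine hUout t y ?_
    by_contra hcon
    rw [not_or, not_le, not_le] at hcon
    exact ht ⟨by rw [← asm_slot_zero M]; exact hcon.1.le, hcon.2.le.trans (asm_slot_le M)⟩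
  obtain ⟨Φ, hΦ⟩ := flow_exists U hUsm hUc hUtime
  refine ⟨hUsm, hUc, hUtime, hUdiv, Φ, hΦ, fun x A hA0 hA => ?_⟩
  have key : ∀ m ≤ M, Φ (asm_slot M m) x = A m := by
    intro m
    induction m with
    | zero =>
      intro _
      have h1 : Φ (asm_slot M 0) x = Φ 0 x :=
        flow_const U hUsm hUc Φ hΦ x 0 _ (by rw [asm_slot_zero]; norm_num)
          (fun t ht => hUout t _ (Or.inl ht.2))
      rw [h1, hΦ.1 x, hA0]
    | succ m ih =>
      intro hm
      have hm' : m < M := hm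
      have hcarU : Carries U (asm_slot M m) (asm_slot M (m + 1)) (Φ (asm_slot M m) x)
          (A (m + 1)) := by
        rw [ih hm'.le]
        exact Carries.congr (fun t ht y => hUslot m hm' t ht y) (hA m hm')
      exact Carries.flow hUsm hUc hΦ (asm_slot_mono M (Nat.le_succ m)) hcarU
  have hend : Φ 1 x = Φ (asm_slot M M) x :=
    flow_const U hUsm hUc Φ hΦ x _ 1 (by linarith [asm_slot_le M])
      (fun t ht => hUout t _ (Or.inr ht.1))
  rw [hend, key M le_rfl]

end Crest.Agent.S0170
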