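import Crest.Agent.S0170_CR
import Crest.Agent.S0170_EffDefs

/-!
# Row 126 (S0170), WP-CR: bridge between `IsCR` and `Eff1`

`Eff1 f` ⟺ `f` smooth, the family `(k, q) ↦ iteratedDeriv k f q` is uniformly computable
(`IsCR`), and there is a computable bound for all derivatives.
-/

open scoped ContDiff

namespace Crest.Agent.S0170

theorem Eff1.isCR {f : ℝ → ℝ} (hf : Eff1 f) :
    IsCR fun p : ℕ × ℚ => iteratedDeriv p.1 f (p.2 : ℝ) := by
  obtain ⟨-, A, _, hA, -, hAf, -⟩ := hf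
  exact ⟨fun p => A (p.1.1, p.1.2, p.2),
    hA.comp ((Computable.fst.comp Computable.fst).pair
      ((Computable.snd.comp Computable.fst).pair Computable.snd)),
    fun p n => hAf p.1 p.2 n⟩

theorem Eff1.exists_bound {f : ℝ → ℝ} (hf : Eff1 f) :
    ∃ B : ℕ → ℕ, Computable B ∧ ∀ (k : ℕ) (x : ℝ), |iteratedDeriv k f x| ≤ (B k : ℝ) := by
  obtain ⟨-, A, B, -, hB, -, hBf⟩ := hf
  exact ⟨B, hB, hBf⟩

theorem eff1_of_isCR {f : ℝ → ℝ} (hf : ContDiff ℝ ∞ f)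
    (h : IsCR fun p : ℕ × ℚ => iteratedDeriv p.1 f (p.2 : ℝ))
    {B : ℕ → ℕ} (hB : Computable B) (hb : ∀ (k : ℕ) (x : ℝ), |iteratedDeriv k f x| ≤ (B k : ℝ)) :
    Eff1 f := by
  obtain ⟨A, hA, hAf⟩ := h
  exact ⟨hf, fun p => A ((p.1, p.2.1), p.2.2), B,
    hA.comp ((Computable.fst.pair (Computable.fst.comp Computable.snd)).pair
      (Computable.snd.comp Computable.snd)), hB,
    fun k q n => hAf (k, q) n, hb⟩

/-- `Eff1` in terms of `IsCR`. -/
theorem eff1_iff_isCR {f : ℝ → ℝ} :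
    Eff1 f ↔ ContDiff ℝ ∞ f ∧ IsCR (fun p : ℕ × ℚ => iteratedDeriv p.1 f (p.2 : ℝ)) ∧
      ∃ B : ℕ → ℕ, Computable B ∧ ∀ (k : ℕ) (x : ℝ), |iteratedDeriv k f x| ≤ (B k : ℝ) :=
  ⟨fun h => ⟨h.1, h.isCR, h.exists_bound⟩,
    fun ⟨h1, h2, B, hB, hb⟩ => eff1_of_isCR h1 h2 hB hb⟩

/-- The family of derivatives of an `Eff1` function, evaluated at a computable rational point
with a computable order, is uniformly computable. -/
theorem Eff1.isCR_comp {α : Type*} [Primcodable α] {f : ℝ → ℝ} (hf : Eff1 f)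
    {k : α → ℕ} {q : α → ℚ} (hk : Computable k) (hq : Computable q) :
    IsCR fun a => iteratedDeriv (k a) f ((q a : ℚ) : ℝ) :=
  hf.isCR.comp (hk.pair hq)

end Crest.Agent.S0170
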