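import Mathlib
import Crest.Prelude.Def_BoxFlow

set_option autoImplicit false
open Crest.AnalysisR.BoxFlow

namespace Crest.Agent.S0170

/-- A configuration of `n` axis-parallel rational boxes: centres `c i` and half-widths `w i`. -/
structure Conf (n : ℕ) where
  c : Fin n → Fin 3 → ℚ
  w : Fin n → Fin 3 → ℚ

@[ext] theorem Conf.ext' {n : ℕ} {s s' : Conf n} (hc : s.c = s'.c) (hw : s.w = s'.w) : s = s' := by
  cases s; cases s'; simp_all

/-- Two boxes (centre, half-widths) are separated with margin `μ` along some coordinate axis. -/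
def BSep (μ : ℚ) (c w c' w' : Fin 3 → ℚ) : Prop := ∃ j, w j + w' j + μ ≤ |c j - c' j|

/-- Translation step: box `i` is translated by `δ` along axis `j`; the swept hull is `μ`-separated
from every other box. -/
def TStep {n : ℕ} (μ : ℚ) (s s' : Conf n) : Prop :=
  ∃ (i : Fin n) (j : Fin 3) (δ : ℚ), s'.w = s.w ∧
    s'.c = Function.update s.c i (Function.update (s.c i) j (s.c i j + δ)) ∧
    ∀ i', i' ≠ i → BSep μ (Function.update (s.c i) j (s.c i j + δ / 2))
      (Function.update (s.w i) j (s.w i j + |δ| / 2)) (s.c i') (s.w i')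

/-- In-place planar rescale step `diag(r, 1/r)` of box `i` in the `(α, β)`-plane; the cube of radius
`ρ (s.w i) r` about the centre is `μ`-separated from every other box. -/
def RStep {n : ℕ} (μ : ℚ) (ρ : (Fin 3 → ℚ) → ℚ → ℚ) (s s' : Conf n) : Prop :=
  ∃ (i : Fin n) (α β : Fin 3) (r : ℚ), α ≠ β ∧ 0 < r ∧ s'.c = s.c ∧
    s'.w = Function.update s.w i
      (Function.update (Function.update (s.w i) α (r * s.w i α)) β (s.w i β / r)) ∧
    ∀ i', i' ≠ i → BSep μ (s.c i) (fun _ => ρ (s.w i) r) (s.c i') (s.w i')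

/-- A configuration is good: positive half-widths bounded by `B` and pairwise `μ`-separated
boxes. -/
def ChorGood {n : ℕ} (μ B : ℚ) (s : Conf n) : Prop :=
  (∀ i j, 0 < s.w i j) ∧ (∀ i j, s.w i j ≤ B) ∧
    ∀ i i', i ≠ i' → BSep μ (s.c i) (s.w i) (s.c i') (s.w i')

theorem BSep.symm {μ : ℚ} {c w c' w' : Fin 3 → ℚ} (h : BSep μ c w c' w') : BSep μ c' w' c w := by
  obtain ⟨j, hj⟩ := h
  exact ⟨j, by rw [abs_sub_comm]; linarith⟩

theorem BSep.mono {μ μ' : ℚ} {c w c' w' : Fin 3 → ℚ} (h : BSep μ c w c' w') (hμ : μ' ≤ μ) :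
    BSep μ' c w c' w' := by
  obtain ⟨j, hj⟩ := h
  exact ⟨j, by linarith⟩

/-- Disjoint closed boxes with nonnegative half-widths are strictly separated along an axis. -/
theorem chor_sep_of_disjoint (c w c' w' : Fin 3 → ℚ) (hw : ∀ j, 0 ≤ w j) (hw' : ∀ j, 0 ≤ w' j)
    (hd : Disjoint (box c w) (box c' w')) : ∃ j, w j + w' j < |c j - c' j| := by
  by_contra hcon
  simp only [not_exists, not_lt] at hcon
  have hR : ∀ j, |(c j : ℝ) - (c' j : ℝ)| ≤ (w j : ℝ) + (w' j : ℝ) := by
    intro j
    have := hcon j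
    exact_mod_cast this
  have hwR : ∀ j, (0 : ℝ) ≤ (w j : ℝ) := fun j => by exact_mod_cast hw j
  have hwR' : ∀ j, (0 : ℝ) ≤ (w' j : ℝ) := fun j => by exact_mod_cast hw' j
  let x : Fin 3 → ℝ := fun j => max ((c j : ℝ) - w j) ((c' j : ℝ) - w' j)
  have hx1 : x ∈ box c w := by
    intro j
    have h1 := hR j
    have h2 := hwR j
    have h3 := hwR' j
    rw [abs_le] at h1 ⊢
    simp only [x]
    constructor
    · have := le_max_left ((c j : ℝ) - w j) ((c' j : ℝ) - w' j)
      linarith
    · have : max ((c j : ℝ) - w j) ((c' j : ℝ) - w' j) ≤ (c j : ℝ) + w j :=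
        max_le (by linarith) (by linarith [h1.1])
      linarith
  have hx2 : x ∈ box c' w' := by
    intro j
    have h1 := hR j
    have h2 := hwR j
    have h3 := hwR' j
    rw [abs_le] at h1 ⊢
    simp only [x]
    constructor
    · have := le_max_right ((c j : ℝ) - w j) ((c' j : ℝ) - w' j)
      linarith
    · have : max ((c j : ℝ) - w j) ((c' j : ℝ) - w' j) ≤ (c' j : ℝ) + w' j :=
        max_le (by linarith [h1.2]) (by linarith)
      linarith
  exact (Set.disjoint_left.mp hd hx1) hx2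

/-- A uniform positive margin for finitely many strictly separated boxes. -/
theorem chor_exists_margin {n : ℕ} (c w : Fin n → Fin 3 → ℚ)
    (hsep : ∀ i i', i ≠ i' → ∃ j, w i j + w i' j < |c i j - c i' j|) :
    ∃ μ : ℚ, 0 < μ ∧ ∀ i i', i ≠ i' → BSep μ (c i) (w i) (c i') (w i') := by
  classical
  choose J hJ using hsep
  let g : Option (Fin n × Fin n) → ℚ := fun o =>
    match o with
    | none => 1
    | some p => if h : p.1 ≠ p.2 then
        |c p.1 (J p.1 p.2 h) - c p.2 (J p.1 p.2 h)| - w p.1 (J p.1 p.2 h) - w p.2 (J p.1 p.2 h)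
        else 1
  have hg : ∀ o, 0 < g o := by
    intro o
    match o with
    | none => simp [g]
    | some p =>
      simp only [g]
      split_ifs with h
      · have := hJ p.1 p.2 h
        linarith
      · norm_num
  obtain ⟨o₀, ho₀⟩ := Finite.exists_min g
  refine ⟨g o₀, hg o₀, ?_⟩
  intro i i' hii
  refine ⟨J i i' hii, ?_⟩
  have := ho₀ (some (i, i'))
  simp only [g, dif_pos hii] at this
  simp only [g] at *
  linarith


/-! ### Basic facts about translation steps -/

/-- Move box `i` to the new centre `p` (all else unchanged). -/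
def Conf.move {n : ℕ} (s : Conf n) (i : Fin n) (p : Fin 3 → ℚ) : Conf n :=
  ⟨Function.update s.c i p, s.w⟩

@[simp] theorem Conf.move_w {n : ℕ} (s : Conf n) (i : Fin n) (p : Fin 3 → ℚ) :
    (s.move i p).w = s.w := rfl

@[simp] theorem Conf.move_c_self {n : ℕ} (s : Conf n) (i : Fin n) (p : Fin 3 → ℚ) :
    (s.move i p).c i = p := by simp [Conf.move]

theorem Conf.move_c_ne {n : ℕ} (s : Conf n) {i i' : Fin n} (h : i' ≠ i) (p : Fin 3 → ℚ) :
    (s.move i p).c i' = s.c i' := by simp [Conf.move, Function.update_of_ne h]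

@[simp] theorem Conf.move_move {n : ℕ} (s : Conf n) (i : Fin n) (p p' : Fin 3 → ℚ) :
    (s.move i p).move i p' = s.move i p' := by simp [Conf.move]

theorem TStep.symm {n : ℕ} {μ : ℚ} {s s' : Conf n} (h : TStep μ s s') : TStep μ s' s := by
  obtain ⟨i, j, δ, hw, hc, hsep⟩ := h
  have hci : s'.c i = Function.update (s.c i) j (s.c i j + δ) := by rw [hc]; simp
  have hcij : s'.c i j = s.c i j + δ := by rw [hci]; simp
  refine ⟨i, j, -δ, hw.symm, ?_, ?_⟩
  · rw [hcij, hci, hc]
    simp
  · intro i' hi'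
    have hci' : s'.c i' = s.c i' := by rw [hc]; simp [Function.update_of_ne hi']
    have e1 : Function.update (s'.c i) j (s'.c i j + -δ / 2)
        = Function.update (s.c i) j (s.c i j + δ / 2) := by
      rw [hcij, hci]
      simp only [Function.update_idem]
      congr 1
      ring
    rw [e1, hw, hci', abs_neg]
    exact hsep i' hi'

/-- The new box lies inside the swept hull, hence inherits its separation. -/
theorem chor_hull_sep {μ : ℚ} (c w c' w' : Fin 3 → ℚ) (j : Fin 3) (δ : ℚ)
    (h : BSep μ (Function.update c j (c j + δ / 2)) (Function.update w j (w j + |δ| / 2)) c' w') :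
    BSep μ (Function.update c j (c j + δ)) w c' w' := by
  obtain ⟨j', hj'⟩ := h
  refine ⟨j', ?_⟩
  by_cases hjj : j' = j
  · subst hjj
    simp only [Function.update_self] at hj' ⊢
    have h1 : |c j' + δ / 2 - c' j'| ≤ |c j' + δ - c' j'| + |δ| / 2 := by
      have := abs_sub (c j' + δ - c' j') (δ / 2)
      have e : c j' + δ - c' j' - δ / 2 = c j' + δ / 2 - c' j' := by ring
      rw [e, abs_div, abs_two] at this
      exact this
    linarith
  · simp only [Function.update_of_ne hjj] at hj' ⊢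
    exact hj'

theorem TStep.good {n : ℕ} {μ B : ℚ} {s s' : Conf n} (hs : ChorGood μ B s) (h : TStep μ s s') :
    ChorGood μ B s' := by
  obtain ⟨i, j, δ, hw, hc, hsep⟩ := h
  refine ⟨fun i' j' => by rw [hw]; exact hs.1 i' j', fun i' j' => by rw [hw]; exact hs.2.1 i' j',
    ?_⟩
  have hci : s'.c i = Function.update (s.c i) j (s.c i j + δ) := by rw [hc]; simp
  have hne : ∀ i', i' ≠ i → s'.c i' = s.c i' := fun i' hi' => by
    rw [hc]; simp [Function.update_of_ne hi']
  have key : ∀ i', i' ≠ i → BSep μ (s'.c i) (s'.w i) (s'.c i') (s'.w i') := by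
    intro i' hi'
    rw [hci, hw, hne i' hi']
    exact chor_hull_sep _ _ _ _ j δ (hsep i' hi')
  intro i1 i2 h12
  by_cases h1 : i1 = i
  · subst h1
    exact key i2 (Ne.symm h12)
  · by_cases h2 : i2 = i
    · subst h2
      exact (key i1 h1).symm
    · rw [hne i1 h1, hne i2 h2, hw]
      exact hs.2.2 i1 i2 h12

/-- T-step with goodness at both ends (a symmetric relation). -/
def ChorTG {n : ℕ} (μ B : ℚ) (s s' : Conf n) : Prop :=
  ChorGood μ B s ∧ ChorGood μ B s' ∧ TStep μ s s'

theorem ChorTG.symm {n : ℕ} {μ B : ℚ} {s s' : Conf n} (h : ChorTG μ B s s') : ChorTG μ B s' s :=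
  ⟨h.2.1, h.1, h.2.2.symm⟩

/-- Moving coordinate `j` of box `i` to the value `v` is a legal step when the hull is separated. -/
theorem chor_tg_move {n : ℕ} {μ B : ℚ} (s : Conf n) (hs : ChorGood μ B s) (i : Fin n) (j : Fin 3)
    (v : ℚ)
    (hsep : ∀ i', i' ≠ i → BSep μ (Function.update (s.c i) j ((s.c i j + v) / 2))
      (Function.update (s.w i) j (s.w i j + |v - s.c i j| / 2)) (s.c i') (s.w i')) :
    ChorTG μ B s (s.move i (Function.update (s.c i) j v)) := by
  have hT : TStep μ s (s.move i (Function.update (s.c i) j v)) := by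
    refine ⟨i, j, v - s.c i j, rfl, ?_, ?_⟩
    · simp [Conf.move]
    · intro i' hi'
      have e : s.c i j + (v - s.c i j) / 2 = (s.c i j + v) / 2 := by ring
      rw [e]
      exact hsep i' hi'
  exact ⟨hs, hT.good hs, hT⟩


/-! ### Parking one box -/

/-- The canonical parking centre of box `i`. -/
def chorP (B : ℚ) {n : ℕ} (i : Fin n) : Fin 3 → ℚ := ![4 * B, 4 * B * (((i : ℕ) : ℚ) + 1), 0]

theorem chor_park_one {n : ℕ} (μ B : ℚ) (hμ : 0 < μ) (hμB : μ ≤ B) (s : Conf n)
    (hs : ChorGood μ B s) (i : Fin n)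
    (hi : ∀ j, |s.c i j| + s.w i j ≤ B)
    (hoth : ∀ i', i' ≠ i →
      ((∀ j, |s.c i' j| + s.w i' j ≤ B) ∧ s.c i' 0 + s.w i' 0 ≤ s.c i 0 + s.w i 0) ∨
      s.c i' = chorP B i') :
    Relation.ReflTransGen (ChorTG μ B) s (s.move i (chorP B i)) := by
  have hB : 0 < B := lt_of_lt_of_le hμ hμB
  have hwB : ∀ i j, s.w i j ≤ B := hs.2.1
  have hY : ∀ i' : Fin n, 4 * B ≤ 4 * B * (((i' : ℕ) : ℚ) + 1) := fun i' => by
    have := mul_nonneg hB.le (Nat.cast_nonneg (α := ℚ) (i' : ℕ))
    linarith
  -- facts used for "source-like" boxes: they are left of the buffer slab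
  have srcsep : ∀ i', (∀ j, |s.c i' j| + s.w i' j ≤ B) →
      s.w i 0 + s.w i' 0 + μ ≤ |4 * B - s.c i' 0| := by
    intro i' h
    have h1 := h 0
    have h2 := le_abs_self (s.c i' 0)
    have h3 := le_abs_self (4 * B - s.c i' 0)
    have h4 := hwB i 0
    linarith
  -- facts used for parked boxes versus a source-like x₁-range
  have parksep : ∀ i' : Fin n,
      s.w i 1 + s.w i' 1 + μ ≤ |s.c i 1 - 4 * B * (((i' : ℕ) : ℚ) + 1)| := by
    intro i'
    have h1 := hi 1
    have h2 := le_abs_self (s.c i 1)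
    have h3 := neg_le_abs (s.c i 1 - 4 * B * (((i' : ℕ) : ℚ) + 1))
    have h4 := hwB i' 1
    have h5 := hY i'
    linarith
  -- step 1: along axis 0 to the buffer slab
  have step1 : ChorTG μ B s (s.move i (Function.update (s.c i) 0 (4 * B))) := by
    apply chor_tg_move s hs i 0 (4 * B)
    intro i' hi'
    rcases hoth i' hi' with ⟨hsrc, hrf⟩ | hpk
    · obtain ⟨j', hj'⟩ := hs.2.2 i i' (Ne.symm hi')
      by_cases hj0 : j' = 0
      · subst hj0
        refine ⟨0, ?_⟩
        simp only [Function.update_self]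
        have h0 := hs.1 i 0
        have h1 := hi 0
        have h2 := le_abs_self (s.c i 0)
        have h3 : |4 * B - s.c i 0| = 4 * B - s.c i 0 := abs_of_nonneg (by linarith)
        have h4 := hs.1 i' 0
        have h5 := le_abs_self ((s.c i 0 + 4 * B) / 2 - s.c i' 0)
        rw [h3]
        rcases abs_cases (s.c i 0 - s.c i' 0) with ⟨h6, _⟩ | ⟨h6, _⟩
        · rw [h6] at hj'; linarith
        · rw [h6] at hj'; linarith
      · refine ⟨j', ?_⟩
        simp only [Function.update_of_ne hj0]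
        exact hj'
    · refine ⟨1, ?_⟩
      rw [hpk]
      simp [chorP]
      exact parksep i'
  have good1 := step1.2.1
  -- step 2: along axis 2 up to the free level
  have step2 : ChorTG μ B (s.move i (Function.update (s.c i) 0 (4 * B)))
      (s.move i (Function.update (Function.update (s.c i) 0 (4 * B)) 2 (4 * B))) := by
    have := chor_tg_move (s.move i (Function.update (s.c i) 0 (4 * B))) good1 i 2 (4 * B) (by
      intro i' hi'
      rw [Conf.move_c_ne _ hi']
      rcases hoth i' hi' with ⟨hsrc, hrf⟩ | hpk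
      · refine ⟨0, ?_⟩
        simp
        exact srcsep i' hsrc
      · refine ⟨1, ?_⟩
        rw [hpk]
        simp [chorP]
        exact parksep i')
    simpa using this
  have good2 := step2.2.1
  -- step 3: along axis 1 to the index lane
  have step3 : ChorTG μ B (s.move i (Function.update (Function.update (s.c i) 0 (4 * B)) 2 (4 * B)))
      (s.move i (Function.update (Function.update (Function.update (s.c i) 0 (4 * B)) 2 (4 * B)) 1
        (4 * B * (((i : ℕ) : ℚ) + 1)))) := by
    have := chor_tg_move (s.move i (Function.update (Function.update (s.c i) 0 (4 * B)) 2 (4 * B)))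
      good2 i 1 (4 * B * (((i : ℕ) : ℚ) + 1)) (by
      intro i' hi'
      rw [Conf.move_c_ne _ hi']
      rcases hoth i' hi' with ⟨hsrc, hrf⟩ | hpk
      · refine ⟨0, ?_⟩
        simp
        exact srcsep i' hsrc
      · refine ⟨2, ?_⟩
        rw [hpk]
        simp [chorP]
        have h1 := hwB i 2
        have h2 := hwB i' 2
        have h3 := le_abs_self (4 * B)
        have h4 : |(4 : ℚ) * B| = 4 * |B| := by rw [abs_mul]; norm_num
        have h5 := le_abs_self B
        linarith)
    simpa using this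
  have good3 := step3.2.1
  -- step 4: along axis 2 down to level 0
  have step4 : ChorTG μ B (s.move i (Function.update (Function.update (Function.update (s.c i) 0 (4 * B))
        2 (4 * B)) 1 (4 * B * (((i : ℕ) : ℚ) + 1))))
      (s.move i (Function.update (Function.update (Function.update (Function.update (s.c i) 0
        (4 * B)) 2 (4 * B)) 1 (4 * B * (((i : ℕ) : ℚ) + 1))) 2 0)) := by
    have := chor_tg_move (s.move i (Function.update (Function.update (Function.update (s.c i) 0
      (4 * B)) 2 (4 * B)) 1 (4 * B * (((i : ℕ) : ℚ) + 1)))) good3 i 2 0 (by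
      intro i' hi'
      rw [Conf.move_c_ne _ hi']
      rcases hoth i' hi' with ⟨hsrc, hrf⟩ | hpk
      · refine ⟨0, ?_⟩
        simp
        exact srcsep i' hsrc
      · refine ⟨1, ?_⟩
        rw [hpk]
        simp [chorP]
        have h1 := hwB i 1
        have h2 := hwB i' 1
        rcases lt_or_gt_of_ne (Fin.val_ne_of_ne hi') with hlt | hgt
        · have h3 : ((i' : ℕ) : ℚ) + 1 ≤ ((i : ℕ) : ℚ) := by exact_mod_cast hlt
          have h4 := le_abs_self (4 * B * (((i : ℕ) : ℚ) + 1) - 4 * B * (((i' : ℕ) : ℚ) + 1))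
          have h5 : 4 * B * (((i : ℕ) : ℚ) + 1) - 4 * B * (((i' : ℕ) : ℚ) + 1)
              = 4 * B * (((i : ℕ) : ℚ) - ((i' : ℕ) : ℚ)) := by ring
          have h6 : 4 * B * 1 ≤ 4 * B * (((i : ℕ) : ℚ) - ((i' : ℕ) : ℚ)) :=
            mul_le_mul_of_nonneg_left (by linarith) (by linarith)
          linarith
        · have h3 : ((i : ℕ) : ℚ) + 1 ≤ ((i' : ℕ) : ℚ) := by exact_mod_cast hgt
          have h4 := neg_le_abs (4 * B * (((i : ℕ) : ℚ) + 1) - 4 * B * (((i' : ℕ) : ℚ) + 1))
          have h5 : -(4 * B * (((i : ℕ) : ℚ) + 1) - 4 * B * (((i' : ℕ) : ℚ) + 1))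
              = 4 * B * (((i' : ℕ) : ℚ) - ((i : ℕ) : ℚ)) := by ring
          have h6 : 4 * B * 1 ≤ 4 * B * (((i' : ℕ) : ℚ) - ((i : ℕ) : ℚ)) :=
            mul_le_mul_of_nonneg_left (by linarith) (by linarith)
          linarith)
    simpa using this
  have hfin : Function.update (Function.update (Function.update (Function.update (s.c i) 0
        (4 * B)) 2 (4 * B)) 1 (4 * B * (((i : ℕ) : ℚ) + 1))) 2 0 = chorP B i := by
    ext j
    fin_cases j <;> simp [chorP]
  rw [hfin] at step4
  exact Relation.ReflTransGen.single step1 |>.tail step2 |>.tail step3 |>.tail step4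


/-! ### Parking all boxes -/

theorem chor_good_of_chain {n : ℕ} {μ B : ℚ} {s s' : Conf n} (hs : ChorGood μ B s)
    (h : Relation.ReflTransGen (ChorTG μ B) s s') : ChorGood μ B s' := by
  induction h with
  | refl => exact hs
  | tail _ h _ => exact h.2.1

theorem chor_chain_symm {α : Type*} {r : α → α → Prop} (hr : ∀ x y, r x y → r y x) {s s' : α}
    (h : Relation.ReflTransGen r s s') : Relation.ReflTransGen r s' s := by
  induction h with
  | refl => exact Relation.ReflTransGen.refl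
  | tail _ h ih => exact Relation.ReflTransGen.head (hr _ _ h) ih

/-- All boxes of a "source-like" good configuration can be parked at their canonical centres. -/
theorem chor_park_all {n : ℕ} (μ B : ℚ) (hμ : 0 < μ) (hμB : μ ≤ B) (c w : Fin n → Fin 3 → ℚ)
    (hs : ChorGood μ B ⟨c, w⟩) (hcB : ∀ i j, |c i j| + w i j ≤ B) :
    Relation.ReflTransGen (ChorTG μ B) ⟨c, w⟩ ⟨fun i => chorP B i, w⟩ := by
  classical
  set f : Fin n → ℚ := fun i => -(c i 0 + w i 0) with hf
  set σ : Equiv.Perm (Fin n) := Tuple.sort f with hσ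
  have hmono : Monotone (f ∘ σ) := Tuple.monotone_sort f
  let S : ℕ → Conf n := fun m =>
    ⟨fun i' => if ((σ.symm i' : Fin n) : ℕ) < m then chorP B i' else c i', w⟩
  have hS0 : S 0 = ⟨c, w⟩ := by
    apply Conf.ext'
    · funext i'; simp [S]
    · rfl
  have hSn : S n = ⟨fun i => chorP B i, w⟩ := by
    apply Conf.ext'
    · funext i'; simp [S]
    · rfl
  have key : ∀ m, m ≤ n → Relation.ReflTransGen (ChorTG μ B) (S 0) (S m) := by
    intro m
    induction m with
    | zero => intro _; exact Relation.ReflTransGen.refl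
    | succ m ih =>
      intro hm
      have hm' : m < n := hm
      have ih' := ih hm'.le
      have hgood : ChorGood μ B (S m) := chor_good_of_chain (by rw [hS0]; exact hs) ih'
      set i : Fin n := σ ⟨m, hm'⟩ with hi
      have hsi : σ.symm i = ⟨m, hm'⟩ := by simp [hi]
      have hSm1 : S (m + 1) = (S m).move i (chorP B i) := by
        apply Conf.ext'
        · funext i'
          by_cases hii : i' = i
          · subst hii
            simp [S, Conf.move, hsi]
          · have hne : σ.symm i' ≠ ⟨m, hm'⟩ := by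
              intro h
              apply hii
              rw [hi, ← h]
              simp
            have hne' : ((σ.symm i' : Fin n) : ℕ) ≠ m := fun h => hne (Fin.ext h)
            have hiff : ((σ.symm i' : Fin n) : ℕ) < m + 1 ↔ ((σ.symm i' : Fin n) : ℕ) < m := by
              omega
            simp [S, Conf.move, Function.update_of_ne hii, hiff]
        · rfl
      rw [hSm1]
      refine ih'.trans (chor_park_one μ B hμ hμB (S m) hgood i ?_ ?_)
      · intro j
        have : (S m).c i = c i := by simp [S, hsi]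
        rw [this]
        exact hcB i j
      · intro i' hii
        by_cases hlt : ((σ.symm i' : Fin n) : ℕ) < m
        · right
          simp [S, hlt]
        · left
          have hci' : (S m).c i' = c i' := by simp [S, hlt]
          have hci : (S m).c i = c i := by simp [S, hsi]
          rw [hci', hci]
          refine ⟨fun j => hcB i' j, ?_⟩
          have hle : (⟨m, hm'⟩ : Fin n) ≤ σ.symm i' := by
            rw [Fin.le_def]
            simp only
            omega
          have := hmono hle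
          simp only [Function.comp_apply, Equiv.apply_symm_apply] at this
          rw [← hi] at this
          simp only [hf] at this
          show c i' 0 + w i' 0 ≤ c i 0 + w i 0
          linarith
  have := key n le_rfl
  rw [hS0, hSn] at this
  exact this


/-! ### Rescaling in the canonical position -/

/-- The canonical configuration with half-widths `w`: box `i` is centred at `chorP B i`. -/
def chorC (B : ℚ) {n : ℕ} (w : Fin n → Fin 3 → ℚ) : Conf n := ⟨fun i => chorP B i, w⟩

theorem chorP_sep {n : ℕ} (B : ℚ) (hB : 0 ≤ B) {i i' : Fin n} (h : i ≠ i') :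
    4 * B ≤ |chorP B i 1 - chorP B i' 1| := by
  simp [chorP]
  rcases lt_or_gt_of_ne (Fin.val_ne_of_ne h) with hlt | hgt
  · have h3 : ((i : ℕ) : ℚ) + 1 ≤ ((i' : ℕ) : ℚ) := by exact_mod_cast hlt
    have h4 := neg_le_abs (4 * B * (((i : ℕ) : ℚ) + 1) - 4 * B * (((i' : ℕ) : ℚ) + 1))
    have h5 : -(4 * B * (((i : ℕ) : ℚ) + 1) - 4 * B * (((i' : ℕ) : ℚ) + 1))
        = 4 * B * (((i' : ℕ) : ℚ) - ((i : ℕ) : ℚ)) := by ring
    have h6 : 4 * B * 1 ≤ 4 * B * (((i' : ℕ) : ℚ) - ((i : ℕ) : ℚ)) :=
      mul_le_mul_of_nonneg_left (by linarith) (by linarith)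
    linarith
  · have h3 : ((i' : ℕ) : ℚ) + 1 ≤ ((i : ℕ) : ℚ) := by exact_mod_cast hgt
    have h4 := le_abs_self (4 * B * (((i : ℕ) : ℚ) + 1) - 4 * B * (((i' : ℕ) : ℚ) + 1))
    have h5 : 4 * B * (((i : ℕ) : ℚ) + 1) - 4 * B * (((i' : ℕ) : ℚ) + 1)
        = 4 * B * (((i : ℕ) : ℚ) - ((i' : ℕ) : ℚ)) := by ring
    have h6 : 4 * B * 1 ≤ 4 * B * (((i : ℕ) : ℚ) - ((i' : ℕ) : ℚ)) :=
      mul_le_mul_of_nonneg_left (by linarith) (by linarith)
    linarith

theorem chor_good_canon {n : ℕ} (μ B : ℚ) (hμ : 0 < μ) (hμB : μ ≤ B) (w : Fin n → Fin 3 → ℚ)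
    (hw0 : ∀ i j, 0 < w i j) (hwB : ∀ i j, w i j ≤ B) : ChorGood μ B (chorC B w) := by
  refine ⟨hw0, hwB, fun i i' hii => ⟨1, ?_⟩⟩
  have h1 := chorP_sep B (by linarith) hii
  have h2 := hwB i 1
  have h3 := hwB i' 1
  show w i 1 + w i' 1 + μ ≤ |chorP B i 1 - chorP B i' 1|
  linarith

theorem chor_rstep_canon {n : ℕ} (μ B : ℚ) (hμ : 0 < μ) (hμB : μ ≤ B)
    (ρ : (Fin 3 → ℚ) → ℚ → ℚ) (w : Fin n → Fin 3 → ℚ) (hwB : ∀ i j, w i j ≤ B) (i : Fin n)
    (α β : Fin 3) (r : ℚ) (hαβ : α ≠ β) (hr : 0 < r) (hρ : ρ (w i) r ≤ B) :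
    RStep μ ρ (chorC B w) (chorC B (Function.update w i
      (Function.update (Function.update (w i) α (r * w i α)) β (w i β / r)))) := by
  refine ⟨i, α, β, r, hαβ, hr, rfl, rfl, fun i' hi' => ⟨1, ?_⟩⟩
  have h1 := chorP_sep B (by linarith) (Ne.symm hi')
  have h3 := hwB i' 1
  show ρ (w i) r + w i' 1 + μ ≤ |chorP B i 1 - chorP B i' 1|
  linarith

/-- Ratio of the first planar rescale (plane `(0,1)`). -/
def chorR1 (h k : Fin 3 → ℚ) : ℚ := k 0 / h 0

/-- Half-widths after the first planar rescale. -/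
def chorW1 (h k : Fin 3 → ℚ) : Fin 3 → ℚ :=
  Function.update (Function.update h 0 (chorR1 h k * h 0)) 1 (h 1 / chorR1 h k)

/-- Ratio of the second planar rescale (plane `(1,2)`). -/
def chorR2 (h k : Fin 3 → ℚ) : ℚ := k 1 / chorW1 h k 1

theorem chorW1_zero (h k : Fin 3 → ℚ) (hh : ∀ j, 0 < h j) : chorW1 h k 0 = k 0 := by
  have := (hh 0).ne'
  simp [chorW1, chorR1]
  field_simp

theorem chorW1_one (h k : Fin 3 → ℚ) : chorW1 h k 1 = h 1 / (k 0 / h 0) := by
  simp [chorW1, chorR1]

theorem chorW1_two (h k : Fin 3 → ℚ) : chorW1 h k 2 = h 2 := by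
  simp [chorW1]

theorem chorW1_pos (h k : Fin 3 → ℚ) (hh : ∀ j, 0 < h j) (hk : ∀ j, 0 < k j) (j : Fin 3) :
    0 < chorW1 h k j := by
  fin_cases j
  · show 0 < chorW1 h k 0
    rw [chorW1_zero h k hh]; exact hk 0
  · show 0 < chorW1 h k 1
    rw [chorW1_one]; exact div_pos (hh 1) (div_pos (hk 0) (hh 0))
  · show 0 < chorW1 h k 2
    rw [chorW1_two]; exact hh 2

theorem chorW2_eq (h k : Fin 3 → ℚ) (hh : ∀ j, 0 < h j) (hk : ∀ j, 0 < k j)
    (hvol : ∏ j : Fin 3, k j / h j = 1) :
    Function.update (Function.update (chorW1 h k) 1 (chorR2 h k * chorW1 h k 1)) 2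
      (chorW1 h k 2 / chorR2 h k) = k := by
  have h0 := (hh 0).ne'
  have h1 := (hh 1).ne'
  have h2 := (hh 2).ne'
  have k0 := (hk 0).ne'
  have k1 := (hk 1).ne'
  have k2 := (hk 2).ne'
  rw [Fin.prod_univ_three] at hvol
  have hW1 : chorW1 h k 1 ≠ 0 := (chorW1_pos h k hh hk 1).ne'
  ext j
  fin_cases j
  · show Function.update (Function.update (chorW1 h k) 1 _) 2 _ 0 = k 0
    simp [chorW1_zero h k hh]
  · show Function.update (Function.update (chorW1 h k) 1 _) 2 _ 1 = k 1
    simp [chorR2]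
    field_simp
  · show Function.update (Function.update (chorW1 h k) 1 _) 2 _ 2 = k 2
    simp only [Function.update_self, chorR2, chorW1_two, chorW1_one]
    field_simp at hvol ⊢
    linarith

/-- The step relation of the final chain. -/
def ChorStep {n : ℕ} (μ B : ℚ) (ρ : (Fin 3 → ℚ) → ℚ → ℚ) (s s' : Conf n) : Prop :=
  ChorGood μ B s ∧ ChorGood μ B s' ∧ (TStep μ s s' ∨ RStep μ ρ s s')

theorem chor_rescale_one {n : ℕ} (μ B : ℚ) (hμ : 0 < μ) (hμB : μ ≤ B)
    (ρ : (Fin 3 → ℚ) → ℚ → ℚ) (w : Fin n → Fin 3 → ℚ) (hw0 : ∀ i j, 0 < w i j)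
    (hwB : ∀ i j, w i j ≤ B) (i : Fin n) (k : Fin 3 → ℚ) (hk0 : ∀ j, 0 < k j)
    (hkB : ∀ j, k j ≤ B) (hvol : ∏ j : Fin 3, k j / w i j = 1)
    (hW1 : chorW1 (w i) k 1 ≤ B) (hρ1 : ρ (w i) (chorR1 (w i) k) ≤ B)
    (hρ2 : ρ (chorW1 (w i) k) (chorR2 (w i) k) ≤ B) :
    Relation.ReflTransGen (ChorStep μ B ρ) (chorC B w) (chorC B (Function.update w i k)) := by
  classical
  set w' : Fin n → Fin 3 → ℚ := Function.update w i (chorW1 (w i) k) with hw'
  have hw'i : w' i = chorW1 (w i) k := by simp [hw']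
  have hw'0 : ∀ i' j, 0 < w' i' j := by
    intro i' j
    by_cases hii : i' = i
    · subst hii; rw [hw'i]; exact chorW1_pos _ _ (hw0 i') hk0 j
    · simp only [hw', Function.update_of_ne hii]; exact hw0 i' j
  have hw'B : ∀ i' j, w' i' j ≤ B := by
    intro i' j
    by_cases hii : i' = i
    · subst hii
      rw [hw'i]
      fin_cases j
      · show chorW1 (w i') k 0 ≤ B
        rw [chorW1_zero _ _ (hw0 i')]; exact hkB 0
      · exact hW1
      · show chorW1 (w i') k 2 ≤ B
        rw [chorW1_two]; exact hwB i' 2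
    · simp only [hw', Function.update_of_ne hii]; exact hwB i' j
  have hk0' : ∀ i' j, 0 < Function.update w i k i' j := by
    intro i' j
    by_cases hii : i' = i
    · subst hii; simp; exact hk0 j
    · simp only [Function.update_of_ne hii]; exact hw0 i' j
  have hkB' : ∀ i' j, Function.update w i k i' j ≤ B := by
    intro i' j
    by_cases hii : i' = i
    · subst hii; simp; exact hkB j
    · simp only [Function.update_of_ne hii]; exact hwB i' j
  have g0 := chor_good_canon μ B hμ hμB w hw0 hwB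
  have g1 := chor_good_canon μ B hμ hμB w' hw'0 hw'B
  have g2 := chor_good_canon μ B hμ hμB (Function.update w i k) hk0' hkB'
  have hr1 : 0 < chorR1 (w i) k := div_pos (hk0 0) (hw0 i 0)
  have hr2 : 0 < chorR2 (w i) k := div_pos (hk0 1) (chorW1_pos _ _ (hw0 i) hk0 1)
  have s1 : RStep μ ρ (chorC B w) (chorC B w') :=
    chor_rstep_canon μ B hμ hμB ρ w hwB i 0 1 (chorR1 (w i) k) (by decide) hr1 hρ1
  have s2 : RStep μ ρ (chorC B w') (chorC B (Function.update w i k)) := by
    have := chor_rstep_canon μ B hμ hμB ρ w' hw'B i 1 2 (chorR2 (w i) k) (by decide) hr2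
      (by rw [hw'i]; exact hρ2)
    rw [hw'i, chorW2_eq (w i) k (hw0 i) hk0 hvol] at this
    simpa [hw'] using this
  exact (Relation.ReflTransGen.single ⟨g0, g1, Or.inr s1⟩).tail ⟨g1, g2, Or.inr s2⟩

/-- All boxes are rescaled from half-widths `h` to half-widths `k` in the canonical position. -/
theorem chor_rescale_all {n : ℕ} (μ B : ℚ) (hμ : 0 < μ) (hμB : μ ≤ B)
    (ρ : (Fin 3 → ℚ) → ℚ → ℚ) (h k : Fin n → Fin 3 → ℚ) (hh0 : ∀ i j, 0 < h i j)
    (hhB : ∀ i j, h i j ≤ B) (hk0 : ∀ i j, 0 < k i j) (hkB : ∀ i j, k i j ≤ B)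
    (hvol : ∀ i, ∏ j : Fin 3, k i j / h i j = 1)
    (hW1 : ∀ i, chorW1 (h i) (k i) 1 ≤ B) (hρ1 : ∀ i, ρ (h i) (chorR1 (h i) (k i)) ≤ B)
    (hρ2 : ∀ i, ρ (chorW1 (h i) (k i)) (chorR2 (h i) (k i)) ≤ B) :
    Relation.ReflTransGen (ChorStep μ B ρ) (chorC B h) (chorC B k) := by
  classical
  let W : ℕ → Fin n → Fin 3 → ℚ := fun m i => if (i : ℕ) < m then k i else h i
  have hW0 : W 0 = h := by funext i; simp [W]
  have hWn : W n = k := by funext i; simp [W]
  have hWpos : ∀ m i j, 0 < W m i j := by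
    intro m i j; simp only [W]; split_ifs
    · exact hk0 i j
    · exact hh0 i j
  have hWB : ∀ m i j, W m i j ≤ B := by
    intro m i j; simp only [W]; split_ifs
    · exact hkB i j
    · exact hhB i j
  have key : ∀ m, m ≤ n → Relation.ReflTransGen (ChorStep μ B ρ) (chorC B (W 0)) (chorC B (W m)) := by
    intro m
    induction m with
    | zero => intro _; exact Relation.ReflTransGen.refl
    | succ m ih =>
      intro hm
      have hm' : m < n := hm
      have hWi : W m ⟨m, hm'⟩ = h ⟨m, hm'⟩ := by simp [W]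
      have hstep : W (m + 1) = Function.update (W m) ⟨m, hm'⟩ (k ⟨m, hm'⟩) := by
        funext i
        by_cases hi : i = ⟨m, hm'⟩
        · subst hi; simp [W]
        · have hne : (i : ℕ) ≠ m := fun h => hi (Fin.ext h)
          have hiff : (i : ℕ) < m + 1 ↔ (i : ℕ) < m := by omega
          simp [W, Function.update_of_ne hi, hiff]
      rw [hstep]
      refine (ih hm'.le).trans (chor_rescale_one μ B hμ hμB ρ (W m) (hWpos m) (hWB m) ⟨m, hm'⟩
        (k ⟨m, hm'⟩) (hk0 _) (hkB _) ?_ ?_ ?_ ?_)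
      · rw [hWi]; exact hvol _
      · rw [hWi]; exact hW1 _
      · rw [hWi]; exact hρ1 _
      · rw [hWi]; exact hρ2 _
  have := key n le_rfl
  rw [hW0, hWn] at this
  exact this


/-! ### Assembly -/

theorem chor_seq_of_chain {α : Type*} {r : α → α → Prop} {s s' : α}
    (h : Relation.ReflTransGen r s s') :
    ∃ (N : ℕ) (S : ℕ → α), S 0 = s ∧ S N = s' ∧ ∀ m < N, r (S m) (S (m + 1)) := by
  induction h with
  | refl => exact ⟨0, fun _ => s, rfl, rfl, fun m hm => absurd hm (Nat.not_lt_zero m)⟩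
  | @tail b c _ hbc ih =>
    obtain ⟨N, S, h0, hN, hstep⟩ := ih
    refine ⟨N + 1, fun m => if m ≤ N then S m else c, ?_, ?_, ?_⟩
    · simp [h0]
    · simp
    · intro m hm
      by_cases hmN : m < N
      · have h1 : m ≤ N := hmN.le
        have h2 : m + 1 ≤ N := hmN
        simp only [h1, h2, if_true]
        exact hstep m hmN
      · have hmeq : m = N := by omega
        subst hmeq
        simp [hN]
        exact hbc

/-- Strong form of the choreography: a chain of legal steps from the source configuration to the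
target configuration, all of whose configurations are good (positive half-widths bounded by `B`,
pairwise `μ`-separated boxes). -/
theorem chor_exists_bdd (n : ℕ) (a h b k : Fin n → Fin 3 → ℚ)
    (hh : ∀ i j, 0 < h i j) (hk : ∀ i j, 0 < k i j)
    (ha : Pairwise fun i i' => Disjoint (box (a i) (h i)) (box (a i') (h i')))
    (hb : Pairwise fun i i' => Disjoint (box (b i) (k i)) (box (b i') (k i')))
    (hvol : ∀ i, ∏ j : Fin 3, k i j / h i j = 1) (ρ : (Fin 3 → ℚ) → ℚ → ℚ) :
    ∃ (μ B : ℚ) (N : ℕ) (S : ℕ → Conf n), 0 < μ ∧ S 0 = ⟨a, h⟩ ∧ S N = ⟨b, k⟩ ∧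
      (∀ m < N, TStep μ (S m) (S (m + 1)) ∨ RStep μ ρ (S m) (S (m + 1))) ∧
      (∀ m ≤ N, ChorGood μ B (S m)) := by
  classical
  -- margins
  obtain ⟨μ₁, hμ₁, hsep₁⟩ := chor_exists_margin a h (fun i i' hii =>
    chor_sep_of_disjoint _ _ _ _ (fun j => (hh i j).le) (fun j => (hh i' j).le) (ha hii))
  obtain ⟨μ₂, hμ₂, hsep₂⟩ := chor_exists_margin b k (fun i i' hii =>
    chor_sep_of_disjoint _ _ _ _ (fun j => (hk i j).le) (fun j => (hk i' j).le) (hb hii))
  set μ : ℚ := min μ₁ μ₂ with hμdef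
  have hμ : 0 < μ := lt_min hμ₁ hμ₂
  -- the big constant
  let T : Fin n → ℚ := fun i => (∑ j : Fin 3, (|a i j| + h i j + |b i j| + k i j))
    + |chorW1 (h i) (k i) 1| + |ρ (h i) (chorR1 (h i) (k i))|
    + |ρ (chorW1 (h i) (k i)) (chorR2 (h i) (k i))|
  have hT0 : ∀ i, 0 ≤ T i := by
    intro i
    have : 0 ≤ ∑ j : Fin 3, (|a i j| + h i j + |b i j| + k i j) :=
      Finset.sum_nonneg (fun j _ => by
        have := abs_nonneg (a i j); have := abs_nonneg (b i j)
        have := (hh i j).le; have := (hk i j).le; linarith)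
    have := abs_nonneg (chorW1 (h i) (k i) 1)
    have := abs_nonneg (ρ (h i) (chorR1 (h i) (k i)))
    have := abs_nonneg (ρ (chorW1 (h i) (k i)) (chorR2 (h i) (k i)))
    simp only [T]
    linarith
  set B : ℚ := μ + ∑ i, T i with hBdef
  have hTB : ∀ i, T i ≤ B := by
    intro i
    have := Finset.single_le_sum (f := T) (fun i _ => hT0 i) (Finset.mem_univ i)
    linarith
  have hμB : μ ≤ B := by
    have : 0 ≤ ∑ i, T i := Finset.sum_nonneg (fun i _ => hT0 i)
    linarith
  have hcomp : ∀ i j, |a i j| + h i j + |b i j| + k i j ≤ T i := by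
    intro i j
    have h1 := Finset.single_le_sum (f := fun j => |a i j| + h i j + |b i j| + k i j)
      (fun j _ => by
        have := abs_nonneg (a i j); have := abs_nonneg (b i j)
        have := (hh i j).le; have := (hk i j).le; linarith) (Finset.mem_univ j)
    have := abs_nonneg (chorW1 (h i) (k i) 1)
    have := abs_nonneg (ρ (h i) (chorR1 (h i) (k i)))
    have := abs_nonneg (ρ (chorW1 (h i) (k i)) (chorR2 (h i) (k i)))
    simp only [T]
    linarith
  have haB : ∀ i j, |a i j| + h i j ≤ B := by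
    intro i j
    have := hcomp i j; have := hTB i; have := abs_nonneg (b i j); have := (hk i j).le
    linarith
  have hbB : ∀ i j, |b i j| + k i j ≤ B := by
    intro i j
    have := hcomp i j; have := hTB i; have := abs_nonneg (a i j); have := (hh i j).le
    linarith
  have hhB : ∀ i j, h i j ≤ B := fun i j => by
    have := haB i j; have := abs_nonneg (a i j); linarith
  have hkB : ∀ i j, k i j ≤ B := fun i j => by
    have := hbB i j; have := abs_nonneg (b i j); linarith
  have hsum0 : ∀ i, 0 ≤ ∑ j : Fin 3, (|a i j| + h i j + |b i j| + k i j) := fun i =>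
    Finset.sum_nonneg (fun j _ => by
      have := abs_nonneg (a i j); have := abs_nonneg (b i j)
      have := (hh i j).le; have := (hk i j).le; linarith)
  have hW1B : ∀ i, chorW1 (h i) (k i) 1 ≤ B := by
    intro i
    have := hTB i; have := hsum0 i
    have := le_abs_self (chorW1 (h i) (k i) 1)
    have := abs_nonneg (ρ (h i) (chorR1 (h i) (k i)))
    have := abs_nonneg (ρ (chorW1 (h i) (k i)) (chorR2 (h i) (k i)))
    simp only [T] at *
    linarith
  have hρ1B : ∀ i, ρ (h i) (chorR1 (h i) (k i)) ≤ B := by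
    intro i
    have := hTB i; have := hsum0 i
    have := abs_nonneg (chorW1 (h i) (k i) 1)
    have := le_abs_self (ρ (h i) (chorR1 (h i) (k i)))
    have := abs_nonneg (ρ (chorW1 (h i) (k i)) (chorR2 (h i) (k i)))
    simp only [T] at *
    linarith
  have hρ2B : ∀ i, ρ (chorW1 (h i) (k i)) (chorR2 (h i) (k i)) ≤ B := by
    intro i
    have := hTB i; have := hsum0 i
    have := abs_nonneg (chorW1 (h i) (k i) 1)
    have := abs_nonneg (ρ (h i) (chorR1 (h i) (k i)))
    have := le_abs_self (ρ (chorW1 (h i) (k i)) (chorR2 (h i) (k i)))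
    simp only [T] at *
    linarith
  -- goodness of source and target
  have gsrc : ChorGood μ B (⟨a, h⟩ : Conf n) :=
    ⟨hh, hhB, fun i i' hii => (hsep₁ i i' hii).mono (min_le_left _ _)⟩
  have gtgt : ChorGood μ B (⟨b, k⟩ : Conf n) :=
    ⟨hk, hkB, fun i i' hii => (hsep₂ i i' hii).mono (min_le_right _ _)⟩
  -- the three chains
  have c1 : Relation.ReflTransGen (ChorTG μ B) (⟨a, h⟩ : Conf n) (chorC B h) :=
    chor_park_all μ B hμ hμB a h gsrc haB
  have c3' : Relation.ReflTransGen (ChorTG μ B) (⟨b, k⟩ : Conf n) (chorC B k) :=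
    chor_park_all μ B hμ hμB b k gtgt hbB
  have c3 : Relation.ReflTransGen (ChorTG μ B) (chorC B k) (⟨b, k⟩ : Conf n) :=
    chor_chain_symm (fun _ _ hxy => ChorTG.symm hxy) c3'
  have c2 : Relation.ReflTransGen (ChorStep μ B ρ) (chorC B h) (chorC B k) :=
    chor_rescale_all μ B hμ hμB ρ h k hh hhB hk hkB hvol hW1B hρ1B hρ2B
  have hmono : ∀ s s' : Conf n, ChorTG μ B s s' → ChorStep μ B ρ s s' :=
    fun s s' hss => ⟨hss.1, hss.2.1, Or.inl hss.2.2⟩
  have call : Relation.ReflTransGen (ChorStep μ B ρ) (⟨a, h⟩ : Conf n) ⟨b, k⟩ :=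
    ((Relation.ReflTransGen.mono hmono _ _ c1).trans c2).trans
      (Relation.ReflTransGen.mono hmono _ _ c3)
  obtain ⟨N, S, hS0, hSN, hstep⟩ := chor_seq_of_chain call
  refine ⟨μ, B, N, S, hμ, hS0, hSN, fun m hm => (hstep m hm).2.2, ?_⟩
  intro m hm
  cases m with
  | zero => rw [hS0]; exact gsrc
  | succ m' => exact (hstep m' hm).2.1

/-- **Choreography.** A chain of legal elementary steps (axis translations with free swept hull,
isolated in-place planar rescales) from the source configuration to the target configuration. -/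
theorem chor_exists (n : ℕ) (a h b k : Fin n → Fin 3 → ℚ)
    (hh : ∀ i j, 0 < h i j) (hk : ∀ i j, 0 < k i j)
    (ha : Pairwise fun i i' => Disjoint (box (a i) (h i)) (box (a i') (h i')))
    (hb : Pairwise fun i i' => Disjoint (box (b i) (k i)) (box (b i') (k i')))
    (hvol : ∀ i, ∏ j : Fin 3, k i j / h i j = 1) (ρ : (Fin 3 → ℚ) → ℚ → ℚ) :
    ∃ (μ : ℚ) (N : ℕ) (S : ℕ → Conf n), 0 < μ ∧ S 0 = ⟨a, h⟩ ∧ S N = ⟨b, k⟩ ∧
      (∀ m < N, TStep μ (S m) (S (m + 1)) ∨ RStep μ ρ (S m) (S (m + 1))) ∧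
      (∀ m ≤ N, ∀ i j, 0 < (S m).w i j) ∧
      (∀ m ≤ N, ∀ i i', i ≠ i' → BSep μ ((S m).c i) ((S m).w i) ((S m).c i') ((S m).w i')) := by
  obtain ⟨μ, B, N, S, hμ, hS0, hSN, hstep, hgood⟩ := chor_exists_bdd n a h b k hh hk ha hb hvol ρ
  exact ⟨μ, N, S, hμ, hS0, hSN, hstep, fun m hm => (hgood m hm).1, fun m hm => (hgood m hm).2.2⟩


/-! ### Bridges to real-number statements (for the move-field / assembly packages) -/

theorem BSep.real {μ : ℚ} {c w c' w' : Fin 3 → ℚ} (h : BSep μ c w c' w') :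
    ∃ j, (w j : ℝ) + (w' j : ℝ) + (μ : ℝ) ≤ |(c j : ℝ) - (c' j : ℝ)| := by
  obtain ⟨j, hj⟩ := h
  exact ⟨j, by exact_mod_cast hj⟩

/-- Strictly separated boxes are disjoint. -/
theorem chor_disjoint_of_sep (c w c' w' : Fin 3 → ℚ) (h : ∃ j, w j + w' j < |c j - c' j|) :
    Disjoint (box c w) (box c' w') := by
  obtain ⟨j, hj⟩ := h
  have hjR : (w j : ℝ) + (w' j : ℝ) < |(c j : ℝ) - (c' j : ℝ)| := by exact_mod_cast hj
  rw [Set.disjoint_left]
  intro x hx hx'
  have h1 := hx j
  have h2 := hx' j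
  have h3 : |(c j : ℝ) - (c' j : ℝ)| ≤ |x j - (c j : ℝ)| + |x j - (c' j : ℝ)| := by
    have := abs_sub_le (c j : ℝ) (x j) (c' j : ℝ)
    rw [abs_sub_comm (c j : ℝ) (x j)] at this
    exact this
  linarith

theorem chor_disjoint_iff (c w c' w' : Fin 3 → ℚ) (hw : ∀ j, 0 ≤ w j) (hw' : ∀ j, 0 ≤ w' j) :
    Disjoint (box c w) (box c' w') ↔ ∃ j, w j + w' j < |c j - c' j| :=
  ⟨chor_sep_of_disjoint c w c' w' hw hw', chor_disjoint_of_sep c w c' w'⟩

/-- `BSep` with a nonnegative margin gives: points within `w + μ/2` of the first centre and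
points within `w' + μ/2` of the second centre (coordinatewise, strictly on one side) differ. -/
theorem BSep.thick_disjoint {μ : ℚ} {c w c' w' : Fin 3 → ℚ} (h : BSep μ c w c' w')
    (x : Fin 3 → ℝ) (hx : ∀ j, |x j - (c j : ℝ)| < (w j : ℝ) + (μ : ℝ) / 2)
    (hx' : ∀ j, |x j - (c' j : ℝ)| ≤ (w' j : ℝ) + (μ : ℝ) / 2) : False := by
  obtain ⟨j, hj⟩ := h.real
  have h1 := hx j
  have h2 := hx' j
  have h3 : |(c j : ℝ) - (c' j : ℝ)| ≤ |x j - (c j : ℝ)| + |x j - (c' j : ℝ)| := by
    have := abs_sub_le (c j : ℝ) (x j) (c' j : ℝ)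
    rw [abs_sub_comm (c j : ℝ) (x j)] at this
    exact this
  linarith

end Crest.Agent.S0170
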