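import Mathlib

/-!
# Row 126 (S0170): numerical differentiation by forward differences (pure analysis)

For a smooth `f : ℝ → ℝ` with `|f^(k+1)| ≤ M` everywhere and `h > 0`:
`|Δ_h^k f (x) / h^k - f^(k)(x)| ≤ k · h · M`, where
`Δ_h^k f (x) = ∑_{j ≤ k} (-1)^(k-j) (k choose j) f (x + j h)`.
-/

set_option autoImplicit false

open scoped ContDiff fwdDiff
open Finset

namespace Crest.Agent.S0170

theorem divDiff_contDiff_fwdDiff (h : ℝ) {f : ℝ → ℝ} (hf : ContDiff ℝ ∞ f) :
    ContDiff ℝ ∞ (fwdDiff h f) := by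
  unfold fwdDiff
  exact (hf.comp (contDiff_id.add contDiff_const)).sub hf

theorem divDiff_contDiff_iter (h : ℝ) (k : ℕ) {f : ℝ → ℝ} (hf : ContDiff ℝ ∞ f) :
    ContDiff ℝ ∞ ((fwdDiff h)^[k] f) := by
  induction k generalizing f with
  | zero => simpa using hf
  | succ k ih =>
    rw [Function.iterate_succ_apply]
    exact ih (divDiff_contDiff_fwdDiff h hf)

theorem divDiff_deriv_fwdDiff (h : ℝ) {f : ℝ → ℝ} (hf : ContDiff ℝ ∞ f) :
    deriv (fwdDiff h f) = fwdDiff h (deriv f) := by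
  have hd : Differentiable ℝ f := hf.differentiable (by simp)
  funext x
  unfold fwdDiff
  have h1 : HasDerivAt (fun y : ℝ => f (y + h)) (deriv f (x + h)) x := by
    have h0 : HasDerivAt (fun y : ℝ => y + h) 1 x := (hasDerivAt_id x).add_const h
    have := HasDerivAt.comp x (hd (x + h)).hasDerivAt h0
    simpa [Function.comp_def] using this
  exact (h1.sub (hd x).hasDerivAt).deriv

theorem divDiff_deriv_iter (h : ℝ) (k : ℕ) {f : ℝ → ℝ} (hf : ContDiff ℝ ∞ f) :
    deriv ((fwdDiff h)^[k] f) = (fwdDiff h)^[k] (deriv f) := by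
  induction k generalizing f with
  | zero => rfl
  | succ k ih =>
    rw [Function.iterate_succ_apply, Function.iterate_succ_apply,
      ih (divDiff_contDiff_fwdDiff h hf), divDiff_deriv_fwdDiff h hf]

theorem divDiff_contDiff_deriv {f : ℝ → ℝ} (hf : ContDiff ℝ ∞ f) : ContDiff ℝ ∞ (deriv f) :=
  ((contDiff_infty_iff_deriv (𝕜 := ℝ)).1 hf).2

/-- Forward differences vs. derivatives, undivided form:
`|Δ_h^k f (x) - h^k f^(k)(x)| ≤ k h^(k+1) M` if `|f^(k+1)| ≤ M`. -/
theorem divDiff_iter_sub_le (k : ℕ) : ∀ (f : ℝ → ℝ), ContDiff ℝ ∞ f → ∀ (M : ℝ),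
    (∀ x, |iteratedDeriv (k + 1) f x| ≤ M) → ∀ (x h : ℝ), 0 < h →
    |((fwdDiff h)^[k] f) x - h ^ k * iteratedDeriv k f x| ≤ k * h ^ (k + 1) * M := by
  induction k with
  | zero =>
    intro f _ M _ x h _
    simp
  | succ k ih =>
    intro f hf M hM x h hh
    have hM0 : 0 ≤ M := (abs_nonneg _).trans (hM x)
    -- g = Δ^k f, Δ^{k+1} f x = g (x+h) - g x
    have hg : ContDiff ℝ ∞ ((fwdDiff h)^[k] f) := divDiff_contDiff_iter h k hf
    have hgd : Differentiable ℝ ((fwdDiff h)^[k] f) := hg.differentiable (by simp)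
    have e1 : ((fwdDiff h)^[k + 1] f) x = ((fwdDiff h)^[k] f) (x + h) - ((fwdDiff h)^[k] f) x := by
      rw [Function.iterate_succ_apply']
      rfl
    -- mean value theorem
    obtain ⟨ξ, hξ, hξe⟩ := exists_deriv_eq_slope ((fwdDiff h)^[k] f) (a := x) (b := x + h) (by linarith)
      hgd.continuous.continuousOn (fun y _ => (hgd y).differentiableWithinAt)
    have hslope : ((fwdDiff h)^[k] f) (x + h) - ((fwdDiff h)^[k] f) x = h * deriv ((fwdDiff h)^[k] f) ξ := by
      rw [hξe, add_sub_cancel_left, mul_div_cancel₀ _ hh.ne']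
    rw [divDiff_deriv_iter h k hf] at hslope
    -- induction hypothesis for f'
    have hf' : ContDiff ℝ ∞ (deriv f) := divDiff_contDiff_deriv hf
    have hM' : ∀ y, |iteratedDeriv (k + 1) (deriv f) y| ≤ M := fun y => by
      rw [← iteratedDeriv_succ']; exact hM y
    have h2 := ih (deriv f) hf' M hM' ξ h hh
    rw [← iteratedDeriv_succ'] at h2
    -- Lipschitz bound for f^(k+1)
    have hdk : Differentiable ℝ (iteratedDeriv (k + 1) f) :=
      (hf.differentiable_iteratedDeriv (k + 1) (by exact_mod_cast WithTop.coe_lt_top _))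
    have h3 : |iteratedDeriv (k + 1) f ξ - iteratedDeriv (k + 1) f x| ≤ M * |ξ - x| := by
      have := Convex.norm_image_sub_le_of_norm_deriv_le (f := iteratedDeriv (k + 1) f)
        (s := Set.univ) (C := M) (fun y _ => hdk y)
        (fun y _ => by rw [← iteratedDeriv_succ, Real.norm_eq_abs]; exact hM y) convex_univ
        (Set.mem_univ x) (Set.mem_univ ξ)
      simpa [Real.norm_eq_abs] using this
    have h4 : |ξ - x| ≤ h := by
      rw [abs_of_nonneg (by linarith [hξ.1])]; linarith [hξ.2]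
    have hhk : 0 < h ^ k := pow_pos hh k
    rw [e1, hslope]
    have e2 : h * ((fwdDiff h)^[k] (deriv f)) ξ - h ^ (k + 1) * iteratedDeriv (k + 1) f x
        = h * (((fwdDiff h)^[k] (deriv f)) ξ - h ^ k * iteratedDeriv (k + 1) f ξ)
          + h ^ (k + 1) * (iteratedDeriv (k + 1) f ξ - iteratedDeriv (k + 1) f x) := by ring
    rw [e2]
    refine (abs_add_le _ _).trans ?_
    rw [abs_mul, abs_mul, abs_of_pos hh, abs_of_pos (pow_pos hh (k + 1))]
    have h5 : h * |((fwdDiff h)^[k] (deriv f)) ξ - h ^ k * iteratedDeriv (k + 1) f ξ|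
        ≤ h * (k * h ^ (k + 1) * M) := mul_le_mul_of_nonneg_left h2 hh.le
    have h6 : h ^ (k + 1) * |iteratedDeriv (k + 1) f ξ - iteratedDeriv (k + 1) f x|
        ≤ h ^ (k + 1) * (M * h) :=
      mul_le_mul_of_nonneg_left (h3.trans (mul_le_mul_of_nonneg_left h4 hM0))
        (pow_pos hh (k + 1)).le
    refine (add_le_add h5 h6).trans (le_of_eq ?_)
    push_cast
    ring

/-- Numerical differentiation, iterate form. -/
theorem divDiff_iter_approx (f : ℝ → ℝ) (hf : ContDiff ℝ ∞ f) (k : ℕ) (M : ℝ)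
    (hM : ∀ x, |iteratedDeriv (k + 1) f x| ≤ M) (x h : ℝ) (hh : 0 < h) :
    |((fwdDiff h)^[k] f) x / h ^ k - iteratedDeriv k f x| ≤ k * h * M := by
  have h1 := divDiff_iter_sub_le k f hf M hM x h hh
  have hhk : 0 < h ^ k := pow_pos hh k
  have e : ((fwdDiff h)^[k] f) x / h ^ k - iteratedDeriv k f x
      = (((fwdDiff h)^[k] f) x - h ^ k * iteratedDeriv k f x) / h ^ k := by
    field_simp
  rw [e, abs_div, abs_of_pos hhk, div_le_iff₀ hhk]
  refine h1.trans (le_of_eq ?_)
  ring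

/-- The iterated forward difference as an explicit binomial sum (real coefficients). -/
theorem divDiff_iter_eq_sum (f : ℝ → ℝ) (k : ℕ) (x h : ℝ) :
    ((fwdDiff h)^[k] f) x
      = ∑ j ∈ range (k + 1), (-1 : ℝ) ^ (k - j) * (k.choose j : ℝ) * f (x + j * h) := by
  rw [fwdDiff_iter_eq_sum_shift]
  refine Finset.sum_congr rfl fun j _ => ?_
  simp [zsmul_eq_mul]

/-- Numerical differentiation, explicit form: for smooth `f` with `|f^(k+1)| ≤ M`, `h > 0`,
`|(∑_{j ≤ k} (-1)^(k-j) (k choose j) f (x + j h)) / h^k - f^(k)(x)| ≤ k h M`. -/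
theorem divDiff_approx (f : ℝ → ℝ) (hf : ContDiff ℝ ∞ f) (k : ℕ) (M : ℝ)
    (hM : ∀ x, |iteratedDeriv (k + 1) f x| ≤ M) (x h : ℝ) (hh : 0 < h) :
    |(∑ j ∈ range (k + 1), (-1 : ℝ) ^ (k - j) * (k.choose j : ℝ) * f (x + j * h)) / h ^ k
        - iteratedDeriv k f x| ≤ k * h * M := by
  rw [← divDiff_iter_eq_sum]
  exact divDiff_iter_approx f hf k M hM x h hh

end Crest.Agent.S0170
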