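import Crest.Agent.S0170_CREff
import Crest.Agent.S0170_QTool

/-!
# Row 126 (S0170): `Eff1` is closed under rational affine substitution (C-aff)

`effClos_aff : Eff1 S → Eff1 (fun x => S (a * x + b))` for rational `a b`.
-/

open scoped ContDiff

namespace Crest.Agent.S0170

/-- Iterated derivative of an affine substitution. -/
theorem effClos_aff_iteratedDeriv {S : ℝ → ℝ} (hS : ContDiff ℝ ∞ S) (a b : ℝ) (k : ℕ) (x : ℝ) :
    iteratedDeriv k (fun x : ℝ => S (a * x + b)) x = a ^ k * iteratedDeriv k S (a * x + b) := by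
  have h1 : ContDiff ℝ k (fun z : ℝ => S (z + b)) :=
    (hS.comp (contDiff_id.add contDiff_const)).of_le (by exact_mod_cast le_top)
  have h := congrFun (iteratedDeriv_comp_const_mul (n := k) (f := fun z : ℝ => S (z + b)) h1 a) x
  have h2 := congrFun (iteratedDeriv_comp_add_const k S b) (a * x)
  exact h.trans (by rw [h2])

/-- **(C-aff)** `Eff1` is closed under rational affine substitution. -/
theorem effClos_aff {S : ℝ → ℝ} (hS : Eff1 S) (a b : ℚ) :
    Eff1 (fun x : ℝ => S ((a : ℝ) * x + (b : ℝ))) := by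
  obtain ⟨B, hB, hb⟩ := hS.exists_bound
  have hsm : ContDiff ℝ ∞ (fun x : ℝ => S ((a : ℝ) * x + (b : ℝ))) :=
    hS.1.comp ((contDiff_const.mul contDiff_id).add contDiff_const)
  refine eff1_of_isCR hsm ?_ (B := fun k => ⌈|a|⌉₊ ^ k * B k)
    (cNatMul (cNatPow (Computable.const _) Computable.id) hB) ?_
  · have h1 : IsCR fun p : ℕ × ℚ => ((a ^ p.1 : ℚ) : ℝ) :=
      IsCR.of_rat (qTool.cPow (Computable.const a) Computable.fst)
    have h2 : IsCR fun p : ℕ × ℚ => iteratedDeriv p.1 S ((a * p.2 + b : ℚ) : ℝ) :=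
      hS.isCR_comp Computable.fst
        (qTool.cAdd (qTool.cMul (Computable.const a) Computable.snd) (Computable.const b))
    refine (h1.mul qTool h2).congr fun p => ?_
    rw [effClos_aff_iteratedDeriv hS.1]
    push_cast
    rfl
  · intro k x
    rw [effClos_aff_iteratedDeriv hS.1, abs_mul, abs_pow]
    have h1 : |(a : ℝ)| ≤ ((⌈|a|⌉₊ : ℕ) : ℝ) := by
      have h2 : ((|a| : ℚ) : ℝ) ≤ ((⌈|a|⌉₊ : ℕ) : ℝ) := by
        have := Nat.le_ceil (|a|)
        exact_mod_cast this
      simpa using h2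
    push_cast
    exact mul_le_mul (pow_le_pow_left₀ (abs_nonneg _) h1 k) (hb k _) (abs_nonneg _)
      (by positivity)

end Crest.Agent.S0170
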