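import Crest.Agent.S0170_EffTensor
import Crest.Agent.S0170_Move

/-!
# S0170 (row 126) : effectivity of stream-function stage fields and of schedules (owner: helper3)

Generic glue between the tensor formulas (`S0170_Tensor`), the effectivity of tensor fields
(`S0170_EffTensor`) and the stage fields of the move package:

* `effSched_stream` : the stream-function pair
  `tensF (update F b.succ (deriv (F b.succ))) (single a 1) - tensF (update F a.succ (deriv (F a.succ))) (single b 1)`
  is smooth and effective as soon as all factors `F i` and their derivatives are `Eff1`;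
* `effSched_sum` : a finite sum over `Finset.range N` of smooth effective fields is effective.

All names are prefixed `effSched_`.
-/

set_option autoImplicit false
open scoped ContDiff
open Crest.AnalysisR.BoxFlow

namespace Crest.Agent.S0170

theorem effSched_tensF_neg (F : Fin 4 → ℝ → ℝ) (v : Fin 3 → ℝ) :
    tensF F (-v) = - tensF F v := by
  funext p
  simp [tensF]

theorem effSched_single_cast (a : Fin 3) (c : ℚ) :
    (fun j => (((Pi.single a c : Fin 3 → ℚ) j : ℚ) : ℝ)) = Pi.single a (c : ℝ) := by
  funext j
  by_cases h : j = a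
  · subst h; simp
  · simp [Pi.single_eq_of_ne h]

/-- A tensor field with `Eff1` factors in a coordinate direction with rational coefficient. -/
theorem effSched_tensF_single (F : Fin 4 → ℝ → ℝ) (hF : ∀ i, Eff1 (F i)) (a : Fin 3) (c : ℚ) :
    EffField (tensF F (Pi.single a (c : ℝ))) := by
  rw [← effSched_single_cast]
  exact effField_tensF F _ hF

/-- The stream-function pair `(∂_b ψ) e_a − (∂_a ψ) e_b`, `ψ = F 0 (t) F 1 (x₀) F 2 (x₁) F 3 (x₂)`,
is smooth and effective when all factors and their derivatives are `Eff1`. -/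
theorem effSched_stream (F : Fin 4 → ℝ → ℝ) (hF : ∀ i, Eff1 (F i))
    (hdF : ∀ i, Eff1 (deriv (F i))) (a b : Fin 3) :
    EffField (tensF (Function.update F b.succ (deriv (F b.succ))) (Pi.single a 1)
      - tensF (Function.update F a.succ (deriv (F a.succ))) (Pi.single b 1)) := by
  have hupd : ∀ c : Fin 4, ∀ i, Eff1 (Function.update F c (deriv (F c)) i) := by
    intro c i
    by_cases h : i = c
    · subst h; simpa using hdF i
    · simpa [Function.update_of_ne h] using hF i
  have h1 := effSched_tensF_single _ (hupd b.succ) a 1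
  have h2 := effSched_tensF_single _ (hupd a.succ) b (-1)
  have e : tensF (Function.update F b.succ (deriv (F b.succ))) (Pi.single a 1)
      - tensF (Function.update F a.succ (deriv (F a.succ))) (Pi.single b 1)
      = tensF (Function.update F b.succ (deriv (F b.succ))) (Pi.single a ((1 : ℚ) : ℝ))
        + tensF (Function.update F a.succ (deriv (F a.succ))) (Pi.single b ((-1 : ℚ) : ℝ)) := by
    have : (Pi.single b ((-1 : ℚ) : ℝ) : Fin 3 → ℝ) = - Pi.single b 1 := by
      rw [← Pi.single_neg]; simp
    rw [this, effSched_tensF_neg, sub_eq_add_neg]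
    simp
  rw [e]
  exact h1.add h2

/-- A finite sum over `Finset.range N` of smooth effective fields is effective. -/
theorem effSched_sum (N : ℕ) (W : ℕ → Field) (h : ∀ s < N, EffField (W s)) :
    Effective (∑ s ∈ Finset.range N, W s) :=
  (effField_finset_sum (Finset.range N) W fun s hs => h s (Finset.mem_range.mp hs)).2

/-! ### The factors of a stage -/

/-- The closure properties of `Eff1` needed for the factors of the stage fields (relative to a
profile `S`). They are supplied by the `Eff1` closure package. -/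
structure EffClosure (S : ℝ → ℝ) : Prop where
  /-- rational affine substitution into the profile -/
  aff : ∀ a b : ℚ, Eff1 (fun x : ℝ => S ((a : ℝ) * x + (b : ℝ)))
  /-- derivative -/
  der : ∀ f : ℝ → ℝ, Eff1 f → Eff1 (deriv f)
  /-- difference -/
  sub : ∀ f g : ℝ → ℝ, Eff1 f → Eff1 g → Eff1 (fun x => f x - g x)
  /-- compactly supported function times a rational quadratic polynomial -/
  pot : ∀ (f : ℝ → ℝ) (lam sig c : ℚ), Eff1 f → HasCompactSupport f →
    Eff1 (fun y : ℝ => f y * ((lam : ℝ) * y + (sig : ℝ) * (y - (c : ℝ)) ^ 2 / 2))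

theorem effSched_ramp {S : ℝ → ℝ} (C : EffClosure S) (N s : ℕ) : Eff1 (mvRamp S N s) := by
  have h := C.aff (2 * (N : ℚ)) (-(N : ℚ) / 2 - (s : ℚ))
  have e : (fun x : ℝ => S (((2 * (N : ℚ) : ℚ) : ℝ) * x + ((-(N : ℚ) / 2 - (s : ℚ) : ℚ) : ℝ))) =
      mvRamp S N s := by
    funext x
    unfold mvRamp
    congr 1
    push_cast
    ring
  rw [← e]
  exact h

theorem effSched_bump {S : ℝ → ℝ} (C : EffClosure S) (lo hi ε : ℚ) :
    Eff1 (mvBump S (lo : ℝ) (hi : ℝ) (ε : ℝ)) := by
  have h := C.sub _ _ (C.aff ε⁻¹ ((ε - lo) / ε)) (C.aff ε⁻¹ (-hi / ε))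
  have e : (fun x : ℝ => S (((ε⁻¹ : ℚ) : ℝ) * x + (((ε - lo) / ε : ℚ) : ℝ)) -
      S (((ε⁻¹ : ℚ) : ℝ) * x + ((-hi / ε : ℚ) : ℝ))) = mvBump S (lo : ℝ) (hi : ℝ) (ε : ℝ) := by
    funext x
    unfold mvBump
    congr 2
    · push_cast
      ring
    · push_cast
      ring
  rw [← e]
  exact h

theorem effSched_sfac {S : ℝ → ℝ} (hS : IsStep S) (C : EffClosure S) (d : Stage) (j : Fin 3) :
    Eff1 (d.sfac S j) := by
  have hb : Eff1 (d.bump S j) := effSched_bump C _ _ _
  by_cases hj : j = d.β
  · subst hj
    rw [d.sfac_beta]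
    exact C.pot _ d.lam d.sig d.c hb (mvBump_hasCompactSupport hS d.epos (d.lohi d.β))
  · rw [d.sfac_of_ne S hj]
    exact hb

theorem effSched_fac {S : ℝ → ℝ} (hS : IsStep S) (C : EffClosure S) (d : Stage) (N s : ℕ)
    (i : Fin 4) : Eff1 (d.fac S N s i) := by
  refine Fin.cases ?_ (fun j => ?_) i
  · rw [d.fac_zero]
    exact C.der _ (effSched_ramp C N s)
  · rw [d.fac_succ]
    exact effSched_sfac hS C d j

/-- Every stage field is smooth and effective. -/
theorem effSched_stage {S : ℝ → ℝ} (hS : IsStep S) (C : EffClosure S) (N s : ℕ) (d : Stage) :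
    EffField (stageField S N s d) :=
  effSched_stream (d.fac S N s) (effSched_fac hS C d N s)
    (fun i => C.der _ (effSched_fac hS C d N s i)) d.α d.β

/-- **The schedule field is effective.** -/
theorem effSched {S : ℝ → ℝ} (hS : IsStep S) (C : EffClosure S) (N : ℕ) (st : ℕ → Stage) :
    Effective (schedField S N st) :=
  effSched_sum N (fun s => stageField S N s (st s)) fun s _ => effSched_stage hS C N s (st s)

end Crest.Agent.S0170
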