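import Crest.Agent.S0170_EffDefs
import Crest.Agent.S0170_QBridge
import Crest.Agent.S0170_Tensor

/-!
# S0170 (row 126) : WP-EFF part 2 (owner: helper19)

Tensor-product fields with `Eff1` factors and a rational direction are `Effective`, and the class
`EffField` (smooth and effective fields) is closed under finite sums.

Main statements:
* `eff_of_formula` : a field whose mixed derivatives are given by the tensor formula with `Eff1`
  factors is `Effective`;
* `eff_tensF`, `eff_tens` : the same for helper26's `tensF` / `tens`;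
* `eff_add`, `eff_zero` : closure under sums (given additivity of `mixedDeriv`);
* `EffField`, `effField_tensF`, `effField_tens`, `EffField.add`, `effField_zero`,
  `effField_finset_sum`, `effField_list_sum`.
-/

set_option autoImplicit false
open scoped ContDiff
open Crest.AnalysisR.BoxFlow

namespace Crest.Agent.S0170

/-! ### Computability plumbing -/

/-- Computability of a `Fin n → σ`-valued function from its components. -/
theorem eff_computable_pi {α σ : Type*} [Primcodable α] [Primcodable σ] {n : ℕ}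
    {g : α → Fin n → σ} (hg : ∀ j, Computable fun a => g a j) : Computable g :=
  (Primrec.vector_get'.to_comp.comp (Computable.vector_ofFn hg)).of_eq fun a => by
    funext i; simp

theorem eff_computable_count (c : Fin 4) : Computable fun ds : List (Fin 4) => ds.count c := by
  have h : Primrec fun ds : List (Fin 4) => (List.filter (fun d => decide (d = c)) ds).length :=
    Primrec.list_length.comp
      (Primrec.listFilter (PrimrecPred.comp Primrec.eq (Primrec.pair Primrec.id (Primrec.const c))))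
  refine h.to_comp.of_eq fun ds => ?_
  rw [List.count, List.countP_eq_length_filter]
  congr 2

theorem eff_computable_ratCoord (c : Fin 4) : Computable (effRatCoord c) := by
  by_cases h : c = 0
  · subst h
    exact Computable.fst.of_eq fun p => rfl
  · exact (Computable.fin_app.comp Computable.snd (Computable.const (c.pred h))).of_eq fun p => by
      simp [effRatCoord, h]

theorem eff_computable_nat_mul {α : Type*} [Primcodable α] {f g : α → ℕ} (hf : Computable f)
    (hg : Computable g) : Computable fun a => f a * g a :=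
  (Primrec.nat_mul.to_comp).comp hf hg

theorem eff_computable_nat_add {α : Type*} [Primcodable α] {f g : α → ℕ} (hf : Computable f)
    (hg : Computable g) : Computable fun a => f a + g a :=
  (Primrec.nat_add.to_comp).comp hf hg

/-! ### The product estimate -/

theorem eff_abs_mul4 (a b c d A B C D : ℝ) (ha : |a| ≤ A) (hb : |b| ≤ B) (hc : |c| ≤ C)
    (hd : |d| ≤ D) : |a * b * c * d| ≤ A * B * C * D := by
  have hA : 0 ≤ A := le_trans (abs_nonneg a) ha
  have hB : 0 ≤ B := le_trans (abs_nonneg b) hb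
  have hC : 0 ≤ C := le_trans (abs_nonneg c) hc
  rw [abs_mul, abs_mul, abs_mul]
  gcongr

theorem eff_prod4 (x0 x1 x2 x3 y0 y1 y2 y3 M0 M1 M2 M3 δ : ℝ)
    (hM0 : 1 ≤ M0) (hM1 : 1 ≤ M1) (hM2 : 1 ≤ M2) (hM3 : 1 ≤ M3)
    (hx1 : |x1| ≤ M1) (hx2 : |x2| ≤ M2) (hx3 : |x3| ≤ M3)
    (hy0 : |y0| ≤ M0) (hy1 : |y1| ≤ M1) (hy2 : |y2| ≤ M2)
    (hd0 : |x0 - y0| ≤ δ) (hd1 : |x1 - y1| ≤ δ) (hd2 : |x2 - y2| ≤ δ) (hd3 : |x3 - y3| ≤ δ) :
    |x0 * x1 * x2 * x3 - y0 * y1 * y2 * y3| ≤ 4 * δ * (M0 * M1 * M2 * M3) := by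
  have hδ : 0 ≤ δ := le_trans (abs_nonneg _) hd0
  have e : x0 * x1 * x2 * x3 - y0 * y1 * y2 * y3
      = (x0 - y0) * x1 * x2 * x3 + y0 * (x1 - y1) * x2 * x3 + y0 * y1 * (x2 - y2) * x3
        + y0 * y1 * y2 * (x3 - y3) := by ring
  have t0 := eff_abs_mul4 (x0 - y0) x1 x2 x3 (δ * M0) M1 M2 M3
    (le_trans hd0 (le_mul_of_one_le_right hδ hM0)) hx1 hx2 hx3
  have t1 := eff_abs_mul4 y0 (x1 - y1) x2 x3 M0 (δ * M1) M2 M3 hy0
    (le_trans hd1 (le_mul_of_one_le_right hδ hM1)) hx2 hx3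
  have t2 := eff_abs_mul4 y0 y1 (x2 - y2) x3 M0 M1 (δ * M2) M3 hy0 hy1
    (le_trans hd2 (le_mul_of_one_le_right hδ hM2)) hx3
  have t3 := eff_abs_mul4 y0 y1 y2 (x3 - y3) M0 M1 M2 (δ * M3) hy0 hy1 hy2
    (le_trans hd3 (le_mul_of_one_le_right hδ hM3))
  rw [e]
  have a1 := abs_add_le ((x0 - y0) * x1 * x2 * x3 + y0 * (x1 - y1) * x2 * x3
    + y0 * y1 * (x2 - y2) * x3) (y0 * y1 * y2 * (x3 - y3))
  have a2 := abs_add_le ((x0 - y0) * x1 * x2 * x3 + y0 * (x1 - y1) * x2 * x3)
    (y0 * y1 * (x2 - y2) * x3)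
  have a3 := abs_add_le ((x0 - y0) * x1 * x2 * x3) (y0 * (x1 - y1) * x2 * x3)
  nlinarith [t0, t1, t2, t3, a1, a2, a3]

/-! ### Tensor terms are effective -/

/-- A field whose mixed derivatives are given by the tensor formula with `Eff1` factors and a
rational direction is effective. -/
theorem eff_of_formula (U : Field) (F : Fin 4 → ℝ → ℝ) (v : Fin 3 → ℚ) (hF : ∀ c, Eff1 (F c))
    (hform : ∀ (ds : List (Fin 4)) (p : ℝ × (Fin 3 → ℝ)) (j : Fin 3),
      mixedDeriv ds U p j =
        (iteratedDeriv (ds.count 0) (F 0) p.1 * iteratedDeriv (ds.count 1) (F 1) (p.2 0) *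
          iteratedDeriv (ds.count 2) (F 2) (p.2 1) * iteratedDeriv (ds.count 3) (F 3) (p.2 2)) *
          (v j : ℝ)) :
    Effective U := by
  have hF' : ∀ c, ∃ (A : ℕ × ℚ × ℕ → ℚ) (B : ℕ → ℕ), Computable A ∧ Computable B ∧
      (∀ (k : ℕ) (q : ℚ) (n : ℕ),
        |iteratedDeriv k (F c) (q : ℝ) - (A (k, q, n) : ℝ)| ≤ 1 / ((n : ℝ) + 1)) ∧
      (∀ (k : ℕ) (x : ℝ), |iteratedDeriv k (F c) x| ≤ (B k : ℝ)) := fun c => (hF c).2
  choose A B hA hB happ hbd using hF'
  obtain ⟨V, hV⟩ : ∃ V : ℕ, ∀ j : Fin 3, |(v j : ℝ)| ≤ (V : ℝ) := by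
    refine ⟨∑ j : Fin 3, ⌈|(v j : ℝ)|⌉₊, fun j => ?_⟩
    refine le_trans (Nat.le_ceil _) ?_
    exact_mod_cast Finset.single_le_sum (f := fun j : Fin 3 => ⌈|(v j : ℝ)|⌉₊)
      (fun i _ => Nat.zero_le _) (Finset.mem_univ j)
  -- the data of the approximator
  set cnt : Fin 4 → List (Fin 4) × (ℚ × (Fin 3 → ℚ)) × ℕ → ℕ := fun c x => x.1.count c with hcnt_def
  set Mn : List (Fin 4) × (ℚ × (Fin 3 → ℚ)) × ℕ → ℕ := fun x =>
    (B 0 (cnt 0 x) + 1) * (B 1 (cnt 1 x) + 1) * (B 2 (cnt 2 x) + 1) * (B 3 (cnt 3 x) + 1)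
    with hMn_def
  set Nn : List (Fin 4) × (ℚ × (Fin 3 → ℚ)) × ℕ → ℕ := fun x => 4 * (x.2.2 + 1) * Mn x * V
    with hNn_def
  set y : Fin 4 → List (Fin 4) × (ℚ × (Fin 3 → ℚ)) × ℕ → ℚ := fun c x =>
    A c (cnt c x, effRatCoord c x.2.1, Nn x) with hy_def
  have hcnt : ∀ c, Computable (cnt c) := fun c =>
    (eff_computable_count c).comp Computable.fst
  have hBc : ∀ c, Computable fun x : List (Fin 4) × (ℚ × (Fin 3 → ℚ)) × ℕ => B c (cnt c x) + 1 :=
    fun c => Computable.succ.comp ((hB c).comp (hcnt c))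
  have hMn : Computable Mn :=
    eff_computable_nat_mul (eff_computable_nat_mul (eff_computable_nat_mul (hBc 0) (hBc 1))
      (hBc 2)) (hBc 3)
  have hNn : Computable Nn :=
    eff_computable_nat_mul (eff_computable_nat_mul (eff_computable_nat_mul (Computable.const 4)
      (Computable.succ.comp (Computable.snd.comp Computable.snd))) hMn) (Computable.const V)
  have hy : ∀ c, Computable (y c) := fun c =>
    (hA c).comp (Computable.pair (hcnt c) (Computable.pair
      ((eff_computable_ratCoord c).comp (Computable.fst.comp Computable.snd)) hNn))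
  refine ⟨fun x => fun j => (y 0 x * y 1 x * y 2 x * y 3 x) * v j,
    fun ds => B 0 (ds.count 0) * B 1 (ds.count 1) * B 2 (ds.count 2) * B 3 (ds.count 3) * V,
    ?_, ?_, ?_, ?_⟩
  · exact eff_computable_pi fun j =>
      qmul (qmul (qmul (qmul (hy 0) (hy 1)) (hy 2)) (hy 3)) (Computable.const (v j))
  · exact eff_computable_nat_mul (eff_computable_nat_mul (eff_computable_nat_mul
      (eff_computable_nat_mul ((hB 0).comp (eff_computable_count 0))
        ((hB 1).comp (eff_computable_count 1))) ((hB 2).comp (eff_computable_count 2)))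
      ((hB 3).comp (eff_computable_count 3))) (Computable.const V)
  · intro ds t q n j
    rw [hform]
    set x : List (Fin 4) × (ℚ × (Fin 3 → ℚ)) × ℕ := (ds, (t, q), n) with hx_def
    have hc0 : ((t : ℝ), ratPoint q).1 = (effRatCoord 0 (t, q) : ℝ) := rfl
    have hc1 : ((t : ℝ), ratPoint q).2 0 = (effRatCoord 1 (t, q) : ℝ) := rfl
    have hc2 : ((t : ℝ), ratPoint q).2 1 = (effRatCoord 2 (t, q) : ℝ) := rfl
    have hc3 : ((t : ℝ), ratPoint q).2 2 = (effRatCoord 3 (t, q) : ℝ) := rfl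
    rw [hc0, hc1, hc2, hc3]
    have hδ : ∀ c, |iteratedDeriv (ds.count c) (F c) (effRatCoord c (t, q) : ℝ) - (y c x : ℝ)|
        ≤ 1 / ((Nn x : ℝ) + 1) := fun c => happ c _ _ _
    have hN0 : (0 : ℝ) ≤ (Nn x : ℝ) := Nat.cast_nonneg _
    have hδ1 : 1 / ((Nn x : ℝ) + 1) ≤ 1 := by
      rw [div_le_one (by linarith)]; linarith
    have hxb : ∀ c, |iteratedDeriv (ds.count c) (F c) (effRatCoord c (t, q) : ℝ)|
        ≤ (B c (ds.count c) : ℝ) + 1 := fun c => by
      have := hbd c (ds.count c) (effRatCoord c (t, q) : ℝ)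
      linarith
    have hyb : ∀ c, |(y c x : ℝ)| ≤ (B c (ds.count c) : ℝ) + 1 := fun c => by
      have h1 := hbd c (ds.count c) (effRatCoord c (t, q) : ℝ)
      have h2 := hδ c
      have h3 := abs_sub_abs_le_abs_sub (y c x : ℝ)
        (iteratedDeriv (ds.count c) (F c) (effRatCoord c (t, q) : ℝ))
      rw [abs_sub_comm] at h3
      linarith
    have hM1 : ∀ c, (1 : ℝ) ≤ (B c (ds.count c) : ℝ) + 1 := fun c => by
      have : (0 : ℝ) ≤ (B c (ds.count c) : ℝ) := Nat.cast_nonneg _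
      linarith
    have key := eff_prod4 _ _ _ _ (y 0 x : ℝ) (y 1 x : ℝ) (y 2 x : ℝ) (y 3 x : ℝ) _ _ _ _ _
      (hM1 0) (hM1 1) (hM1 2) (hM1 3) (hxb 1) (hxb 2) (hxb 3) (hyb 0) (hyb 1) (hyb 2)
      (hδ 0) (hδ 1) (hδ 2) (hδ 3)
    have hcast : (((y 0 x * y 1 x * y 2 x * y 3 x) * v j : ℚ) : ℝ)
        = ((y 0 x : ℝ) * (y 1 x : ℝ) * (y 2 x : ℝ) * (y 3 x : ℝ)) * (v j : ℝ) := by
      push_cast; ring
    rw [hcast, ← sub_mul, abs_mul]
    set P : ℝ := ((B 0 (ds.count 0) : ℝ) + 1) * ((B 1 (ds.count 1) : ℝ) + 1) *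
      ((B 2 (ds.count 2) : ℝ) + 1) * ((B 3 (ds.count 3) : ℝ) + 1) with hP_def
    have hP1 : 1 ≤ P := by
      have h0 := hM1 0; have h1 := hM1 1; have h2 := hM1 2; have h3 := hM1 3
      have h01 : (1 : ℝ) ≤ ((B 0 (ds.count 0) : ℝ) + 1) * ((B 1 (ds.count 1) : ℝ) + 1) :=
        one_le_mul_of_one_le_of_one_le h0 h1
      have h012 := one_le_mul_of_one_le_of_one_le h01 h2
      exact one_le_mul_of_one_le_of_one_le h012 h3
    have hNx : (Nn x : ℝ) = 4 * ((n : ℝ) + 1) * P * (V : ℝ) := by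
      simp only [hNn_def, hMn_def, hcnt_def, hx_def, hP_def]
      push_cast
      ring
    have hVn : (0 : ℝ) ≤ (V : ℝ) := Nat.cast_nonneg _
    have hn : (0 : ℝ) < (n : ℝ) + 1 := by positivity
    calc |iteratedDeriv (ds.count 0) (F 0) (effRatCoord 0 (t, q) : ℝ) *
            iteratedDeriv (ds.count 1) (F 1) (effRatCoord 1 (t, q) : ℝ) *
            iteratedDeriv (ds.count 2) (F 2) (effRatCoord 2 (t, q) : ℝ) *
            iteratedDeriv (ds.count 3) (F 3) (effRatCoord 3 (t, q) : ℝ) -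
          (y 0 x : ℝ) * (y 1 x : ℝ) * (y 2 x : ℝ) * (y 3 x : ℝ)| * |(v j : ℝ)|
        ≤ (4 * (1 / ((Nn x : ℝ) + 1)) * P) * (V : ℝ) :=
          mul_le_mul key (hV j) (abs_nonneg _) (by positivity)
      _ ≤ 1 / ((n : ℝ) + 1) := by
          rw [hNx]
          have hden : (0 : ℝ) < 4 * ((n : ℝ) + 1) * P * (V : ℝ) + 1 := by positivity
          rw [show 4 * (1 / (4 * ((n : ℝ) + 1) * P * (V : ℝ) + 1)) * P * (V : ℝ)
            = (4 * P * (V : ℝ)) / (4 * ((n : ℝ) + 1) * P * (V : ℝ) + 1) by ring]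
          rw [div_le_div_iff₀ hden hn]
          nlinarith
  · intro ds p j
    rw [hform, abs_mul]
    have h := eff_abs_mul4 _ _ _ _ _ _ _ _ (hbd 0 (ds.count 0) p.1) (hbd 1 (ds.count 1) (p.2 0))
      (hbd 2 (ds.count 2) (p.2 1)) (hbd 3 (ds.count 3) (p.2 2))
    push_cast
    exact mul_le_mul h (hV j) (abs_nonneg _) (by positivity)

/-- helper26's tensor field `tensF F v` with `Eff1` factors and rational `v` is effective. -/
theorem eff_tensF (F : Fin 4 → ℝ → ℝ) (v : Fin 3 → ℚ) (hF : ∀ c, Eff1 (F c)) :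
    Effective (tensF F (fun j => (v j : ℝ))) := by
  refine eff_of_formula _ F v hF (fun ds p j => ?_)
  rw [mixedDeriv_tensF_apply (fun c => (hF c).1)]
  rfl

/-- The four-factor form. -/
theorem eff_tens (f0 f1 f2 f3 : ℝ → ℝ) (v : Fin 3 → ℚ) (h0 : Eff1 f0) (h1 : Eff1 f1)
    (h2 : Eff1 f2) (h3 : Eff1 f3) : Effective (tens f0 f1 f2 f3 (fun j => (v j : ℝ))) := by
  rw [tens_eq_tensF]
  exact eff_tensF _ v (fun c => by fin_cases c <;> simpa)

/-! ### Sums -/

theorem eff_zero : Effective (0 : Field) := by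
  refine ⟨fun _ => 0, fun _ => 0, Computable.const _, Computable.const _, ?_, ?_⟩
  · intro ds t q n j
    rw [mixedDeriv_zero]
    simp
    positivity
  · intro ds p j
    rw [mixedDeriv_zero]
    simp

/-- `Effective` is closed under addition as soon as `mixedDeriv` is additive on the two fields. -/
theorem eff_add (U V : Field)
    (hUV : ∀ (ds : List (Fin 4)) (p : ℝ × (Fin 3 → ℝ)),
      mixedDeriv ds (U + V) p = mixedDeriv ds U p + mixedDeriv ds V p)
    (hU : Effective U) (hV : Effective V) : Effective (U + V) := by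
  obtain ⟨EU, bU, hEU, hbU, happU, hbdU⟩ := hU
  obtain ⟨EV, bV, hEV, hbV, happV, hbdV⟩ := hV
  have hg : Computable fun x : List (Fin 4) × (ℚ × (Fin 3 → ℚ)) × ℕ =>
      (x.1, x.2.1, 2 * x.2.2 + 1) :=
    Computable.pair Computable.fst (Computable.pair (Computable.fst.comp Computable.snd)
      (Computable.succ.comp (eff_computable_nat_mul (Computable.const 2)
        (Computable.snd.comp Computable.snd))))
  refine ⟨fun x => fun j => EU (x.1, x.2.1, 2 * x.2.2 + 1) j + EV (x.1, x.2.1, 2 * x.2.2 + 1) j,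
    fun ds => bU ds + bV ds, ?_, ?_, ?_, ?_⟩
  · exact eff_computable_pi fun j =>
      qadd (Computable.fin_app.comp (hEU.comp hg) (Computable.const j))
        (Computable.fin_app.comp (hEV.comp hg) (Computable.const j))
  · exact eff_computable_nat_add hbU hbV
  · intro ds t q n j
    rw [hUV]
    have h1 := happU ds t q (2 * n + 1) j
    have h2 := happV ds t q (2 * n + 1) j
    have e : (1 : ℝ) / (((2 * n + 1 : ℕ) : ℝ) + 1) = 1 / ((n : ℝ) + 1) / 2 := by
      push_cast
      field_simp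
      ring
    rw [e] at h1 h2
    have h3 := abs_add_le (mixedDeriv ds U ((t : ℝ), ratPoint q) j - (EU (ds, (t, q), 2 * n + 1) j : ℝ))
      (mixedDeriv ds V ((t : ℝ), ratPoint q) j - (EV (ds, (t, q), 2 * n + 1) j : ℝ))
    have e2 : (mixedDeriv ds U ((t : ℝ), ratPoint q) + mixedDeriv ds V ((t : ℝ), ratPoint q)) j
          - ((EU (ds, (t, q), 2 * n + 1) j + EV (ds, (t, q), 2 * n + 1) j : ℚ) : ℝ)
        = (mixedDeriv ds U ((t : ℝ), ratPoint q) j - (EU (ds, (t, q), 2 * n + 1) j : ℝ))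
          + (mixedDeriv ds V ((t : ℝ), ratPoint q) j - (EV (ds, (t, q), 2 * n + 1) j : ℝ)) := by
      push_cast
      simp only [Pi.add_apply]
      ring
    rw [e2]
    linarith
  · intro ds p j
    rw [hUV]
    have h1 := hbdU ds p j
    have h2 := hbdV ds p j
    have h3 := abs_add_le (mixedDeriv ds U p j) (mixedDeriv ds V p j)
    push_cast
    simp only [Pi.add_apply]
    linarith

/-! ### The class of smooth effective fields -/

/-- Smooth and effective fields. -/
def EffField (U : Field) : Prop := ContDiff ℝ ∞ U ∧ Effective U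

theorem effField_zero : EffField (0 : Field) :=
  ⟨contDiff_const, eff_zero⟩

theorem EffField.add {U V : Field} (hU : EffField U) (hV : EffField V) : EffField (U + V) :=
  ⟨hU.1.add hV.1, eff_add U V (fun ds p => by rw [mixedDeriv_add hU.1 hV.1]; rfl) hU.2 hV.2⟩

theorem effField_tensF (F : Fin 4 → ℝ → ℝ) (v : Fin 3 → ℚ) (hF : ∀ c, Eff1 (F c)) :
    EffField (tensF F (fun j => (v j : ℝ))) :=
  ⟨tensF_contDiff (fun c => (hF c).1) _, eff_tensF F v hF⟩

theorem effField_tens (f0 f1 f2 f3 : ℝ → ℝ) (v : Fin 3 → ℚ) (h0 : Eff1 f0) (h1 : Eff1 f1)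
    (h2 : Eff1 f2) (h3 : Eff1 f3) : EffField (tens f0 f1 f2 f3 (fun j => (v j : ℝ))) :=
  ⟨tens_contDiff h0.1 h1.1 h2.1 h3.1 _, eff_tens f0 f1 f2 f3 v h0 h1 h2 h3⟩

theorem effField_finset_sum {ι : Type*} (s : Finset ι) (U : ι → Field)
    (hU : ∀ i ∈ s, EffField (U i)) : EffField (∑ i ∈ s, U i) := by
  classical
  induction s using Finset.induction_on with
  | empty => simpa using effField_zero
  | insert a s ha ih =>
    rw [Finset.sum_insert ha]
    exact (hU a (Finset.mem_insert_self a s)).add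
      (ih fun i hi => hU i (Finset.mem_insert_of_mem hi))

theorem effField_list_sum (l : List Field) (hl : ∀ U ∈ l, EffField U) : EffField l.sum := by
  induction l with
  | nil => simpa using effField_zero
  | cons U l ih =>
    rw [List.sum_cons]
    exact (hl U (List.mem_cons_self ..)).add (ih fun W hW => hl W (List.mem_cons_of_mem _ hW))

end Crest.Agent.S0170
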