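import Mathlib
import Crest.Agent.S0170_ProfJet

/-!
# Row 126 (S0170), WP-PROFILE-JET, computable form of the jets

`profJetN n` is an `ℕ`-coded version of `profJet n` (entries `(σ, c, i, j, k, l)` stand for
`(-1)^σ · c · a^i b^j s^k (1-s)^l`), it is primitive recursive, and the `(n+1)`-st derivative of
`Real.smoothTransition` at `x ∈ (0,1)` is the explicit sum over `profJetN n` with
`a = x⁻¹`, `b = (1-x)⁻¹`, `s = (1 + exp (a - b))⁻¹`.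
-/

set_option autoImplicit false

open Real Set

namespace Crest.Agent.S0170

/-- `ℕ`-coded derivation step: `(σ, c, i, j, k, l)` stands for `(-1)^σ c a^i b^j s^k (1-s)^l`. -/
def profStepN (u : ℕ × ℕ × ℕ × ℕ × ℕ × ℕ) : List (ℕ × ℕ × ℕ × ℕ × ℕ × ℕ) :=
  [(u.1 + 1, u.2.2.1 * u.2.1, u.2.2.1 + 1, u.2.2.2.1, u.2.2.2.2.1, u.2.2.2.2.2),
   (u.1, u.2.2.2.1 * u.2.1, u.2.2.1, u.2.2.2.1 + 1, u.2.2.2.2.1, u.2.2.2.2.2),
   (u.1, u.2.2.2.2.1 * u.2.1, u.2.2.1 + 2, u.2.2.2.1, u.2.2.2.2.1, u.2.2.2.2.2 + 1),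
   (u.1, u.2.2.2.2.1 * u.2.1, u.2.2.1, u.2.2.2.1 + 2, u.2.2.2.2.1, u.2.2.2.2.2 + 1),
   (u.1 + 1, u.2.2.2.2.2 * u.2.1, u.2.2.1 + 2, u.2.2.2.1, u.2.2.2.2.1 + 1, u.2.2.2.2.2),
   (u.1 + 1, u.2.2.2.2.2 * u.2.1, u.2.2.1, u.2.2.2.1 + 2, u.2.2.2.2.1 + 1, u.2.2.2.2.2)]

/-- `ℕ`-coded jet list of the `(n+1)`-st derivative of the profile. -/
def profJetN : ℕ → List (ℕ × ℕ × ℕ × ℕ × ℕ × ℕ) :=
  Nat.rec [(0, 1, 2, 0, 1, 1), (0, 1, 0, 2, 1, 1)] fun _ L => L.flatMap profStepN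

theorem profJetN_zero : profJetN 0 = [(0, 1, 2, 0, 1, 1), (0, 1, 0, 2, 1, 1)] := rfl

theorem profJetN_succ (n : ℕ) : profJetN (n + 1) = (profJetN n).flatMap profStepN := rfl

/-- Decoding of an `ℕ`-coded monomial. -/
def profDec (u : ℕ × ℕ × ℕ × ℕ × ℕ × ℕ) : ℤ × ℕ × ℕ × ℕ × ℕ :=
  ((-1) ^ u.1 * (u.2.1 : ℤ), u.2.2)

theorem profStep_dec (u : ℕ × ℕ × ℕ × ℕ × ℕ × ℕ) :
    profStep (profDec u) = (profStepN u).map profDec := by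
  obtain ⟨σ, c, i, j, k, l⟩ := u
  simp only [profStep, profStepN, profDec, List.map_cons, List.map_nil]
  refine congrArg₂ _ ?_ (congrArg₂ _ ?_ (congrArg₂ _ ?_ (congrArg₂ _ ?_ (congrArg₂ _ ?_
    (congrArg₂ _ ?_ rfl))))) <;>
  · refine Prod.ext ?_ rfl
    simp only [pow_succ]
    push_cast
    ring

theorem profJetN_dec (n : ℕ) : (profJetN n).map profDec = profJet n := by
  induction n with
  | zero => simp [profJetN_zero, profJet, profDec]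
  | succ n ih =>
    rw [profJetN_succ, profJet, ← ih, List.map_flatMap, List.flatMap_map]
    congr 1
    funext u
    exact (profStep_dec u).symm

/-- (J1, `ℕ`-coded, explicit): on `(0,1)` the `(n+1)`-st derivative of the profile is the sum over
`profJetN n` of `(-1)^σ c a^i b^j s^k (1-s)^l`, `a = x⁻¹`, `b = (1-x)⁻¹`,
`s = (1 + exp (a - b))⁻¹`. -/
theorem prof_iteratedDeriv_eqN (n : ℕ) {x : ℝ} (hx : x ∈ Ioo (0 : ℝ) 1) :
    iteratedDeriv (n + 1) Real.smoothTransition x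
      = ((profJetN n).map fun u : ℕ × ℕ × ℕ × ℕ × ℕ × ℕ =>
          (-1 : ℝ) ^ u.1 * (u.2.1 : ℝ) * (x⁻¹) ^ u.2.2.1 * ((1 - x)⁻¹) ^ u.2.2.2.1 *
            ((1 + exp (x⁻¹ - (1 - x)⁻¹))⁻¹) ^ u.2.2.2.2.1 *
            (1 - (1 + exp (x⁻¹ - (1 - x)⁻¹))⁻¹) ^ u.2.2.2.2.2).sum := by
  rw [prof_iteratedDeriv_eq n hx, ← profJetN_dec, profEval, List.map_map]
  congr 1
  refine List.map_congr_left fun u _ => ?_
  have hs : Real.smoothTransition x = (1 + exp (x⁻¹ - (1 - x)⁻¹))⁻¹ := by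
    rw [prof_eq_logistic hx, one_div]
  simp only [Function.comp, profDec, profMono, hs]
  push_cast
  ring

/-! ### Primitive recursiveness -/

theorem profStepN_primrec : Primrec profStepN := by
  have p1 : Primrec fun u : ℕ × ℕ × ℕ × ℕ × ℕ × ℕ => u.1 := Primrec.fst
  have q1 : Primrec fun u : ℕ × ℕ × ℕ × ℕ × ℕ × ℕ => u.2 := Primrec.snd
  have p2 : Primrec fun u : ℕ × ℕ × ℕ × ℕ × ℕ × ℕ => u.2.1 := Primrec.fst.comp q1
  have q2 : Primrec fun u : ℕ × ℕ × ℕ × ℕ × ℕ × ℕ => u.2.2 := Primrec.snd.comp q1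
  have p3 : Primrec fun u : ℕ × ℕ × ℕ × ℕ × ℕ × ℕ => u.2.2.1 := Primrec.fst.comp q2
  have q3 : Primrec fun u : ℕ × ℕ × ℕ × ℕ × ℕ × ℕ => u.2.2.2 := Primrec.snd.comp q2
  have p4 : Primrec fun u : ℕ × ℕ × ℕ × ℕ × ℕ × ℕ => u.2.2.2.1 := Primrec.fst.comp q3
  have q4 : Primrec fun u : ℕ × ℕ × ℕ × ℕ × ℕ × ℕ => u.2.2.2.2 := Primrec.snd.comp q3
  have p5 : Primrec fun u : ℕ × ℕ × ℕ × ℕ × ℕ × ℕ => u.2.2.2.2.1 := Primrec.fst.comp q4
  have p6 : Primrec fun u : ℕ × ℕ × ℕ × ℕ × ℕ × ℕ => u.2.2.2.2.2 := Primrec.snd.comp q4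
  have add : ∀ {f : ℕ × ℕ × ℕ × ℕ × ℕ × ℕ → ℕ} (m : ℕ), Primrec f → Primrec fun u => f u + m :=
    fun m hf => Primrec.nat_add.comp hf (Primrec.const m)
  have mul : ∀ {f g : ℕ × ℕ × ℕ × ℕ × ℕ × ℕ → ℕ}, Primrec f → Primrec g →
      Primrec fun u => f u * g u := fun hf hg => Primrec.nat_mul.comp hf hg
  have tup : ∀ {f1 f2 f3 f4 f5 f6 : ℕ × ℕ × ℕ × ℕ × ℕ × ℕ → ℕ}, Primrec f1 → Primrec f2 →
      Primrec f3 → Primrec f4 → Primrec f5 → Primrec f6 →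
      Primrec fun u => (f1 u, f2 u, f3 u, f4 u, f5 u, f6 u) :=
    fun h1 h2 h3 h4 h5 h6 => h1.pair (h2.pair (h3.pair (h4.pair (h5.pair h6))))
  have cons : ∀ {f : ℕ × ℕ × ℕ × ℕ × ℕ × ℕ → ℕ × ℕ × ℕ × ℕ × ℕ × ℕ}
      {g : ℕ × ℕ × ℕ × ℕ × ℕ × ℕ → List (ℕ × ℕ × ℕ × ℕ × ℕ × ℕ)}, Primrec f → Primrec g →
      Primrec fun u => f u :: g u := fun hf hg => Primrec.list_cons.comp hf hg
  unfold profStepN
  exact cons (tup (add 1 p1) (mul p3 p2) (add 1 p3) p4 p5 p6)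
    (cons (tup p1 (mul p4 p2) p3 (add 1 p4) p5 p6)
    (cons (tup p1 (mul p5 p2) (add 2 p3) p4 p5 (add 1 p6))
    (cons (tup p1 (mul p5 p2) p3 (add 2 p4) p5 (add 1 p6))
    (cons (tup (add 1 p1) (mul p6 p2) (add 2 p3) p4 (add 1 p5) p6)
    (cons (tup (add 1 p1) (mul p6 p2) p3 (add 2 p4) (add 1 p5) p6)
    (Primrec.const []))))))

theorem profJetN_primrec : Primrec profJetN := by
  unfold profJetN
  refine Primrec.nat_rec₁ _ ?_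
  exact Primrec.list_flatMap Primrec.snd ((profStepN_primrec.comp Primrec.snd).to₂)

theorem profJetN_computable : Computable profJetN := profJetN_primrec.to_comp

end Crest.Agent.S0170
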