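import Crest.Agent.S0170_CR
import Crest.Agent.S0170_QTool
import Crest.Agent.S0170_ProfJet
import Crest.Agent.S0170_Eff1

/-!
# Row 126 (S0170): the profile `Real.smoothTransition` is `Eff1`

* `profVal` : the values `q ↦ Real.smoothTransition q` at rational points form a uniformly
  computable family (`0` for `q ≤ 0`, `1` for `1 ≤ q`, `(1 + exp (q⁻¹ - (1-q)⁻¹))⁻¹` inside).
* `profVal_effV` : the same as helper11's `EffV`.
* `profVal_eff1` : `Eff1 Real.smoothTransition` (numerical differentiation `eff1_of_values`
  + helper6's derivative bounds `prof_bound`).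
-/

namespace Crest.Agent.S0170

/-- Values of the profile at rational points are uniformly computable. -/
theorem profVal (Q : QTool) : IsCR fun q : ℚ => Real.smoothTransition (q : ℝ) := by
  have hu : Computable fun q : ℚ => q⁻¹ - (1 - q)⁻¹ :=
    Q.cSub (Q.cInv Computable.id) (Q.cInv (Q.cSub (Computable.const 1) Computable.id))
  have he : IsCR fun q : ℚ => 1 + Real.exp (((q⁻¹ - (1 - q)⁻¹ : ℚ)) : ℝ) :=
    IsCR.one.add Q (IsCR.exp_rat Q hu)
  have hi : IsCR fun q : ℚ => (1 + Real.exp (((q⁻¹ - (1 - q)⁻¹ : ℚ)) : ℝ))⁻¹ := by
    refine he.inv Q (L := fun _ => 0) (Computable.const 0) fun q => ?_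
    have hpos := Real.exp_pos (((q⁻¹ - (1 - q)⁻¹ : ℚ)) : ℝ)
    rw [abs_of_pos (by linarith)]
    simp only [Nat.cast_zero, zero_add, div_one]
    linarith
  have h := IsCR.ite Q (c := fun q : ℚ => decide (q ≤ 0))
    (Q.cLe Computable.id (Computable.const 0)) IsCR.zero
    (IsCR.ite Q (c := fun q : ℚ => decide (1 ≤ q))
      (Q.cLe (Computable.const 1) Computable.id) IsCR.one hi)
  refine h.congr fun q => ?_
  by_cases h0 : q ≤ 0
  · have h0' : (q : ℝ) ≤ 0 := by exact_mod_cast h0
    simp only [h0, decide_true, if_true]
    exact (Real.smoothTransition.zero_of_nonpos h0').symm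
  · by_cases h1 : 1 ≤ q
    · have h1' : (1 : ℝ) ≤ (q : ℝ) := by exact_mod_cast h1
      simp only [h0, h1, decide_true, decide_false, if_true, Bool.false_eq_true, if_false]
      exact (Real.smoothTransition.one_of_one_le h1').symm
    · have h0' : (0 : ℝ) < (q : ℝ) := by exact_mod_cast not_le.1 h0
      have h1' : (q : ℝ) < 1 := by exact_mod_cast not_le.1 h1
      simp only [h0, h1, decide_false, Bool.false_eq_true, if_false]
      rw [prof_eq_logistic ⟨h0', h1'⟩, one_div]
      push_cast
      rfl

/-- The profile has computable values at rational points (helper11's `EffV`). -/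
theorem profVal_effV : EffV Real.smoothTransition := profVal qTool

/-- The profile has computably bounded derivatives (helper6's `prof_bound`). -/
theorem profVal_effB : EffB Real.smoothTransition :=
  ⟨profBound, prof_bound_computable, prof_bound⟩

/-- **The profile `Real.smoothTransition` is `Eff1`.** -/
theorem profVal_eff1 : Eff1 Real.smoothTransition :=
  eff1_of_values Real.smoothTransition.contDiff profVal_effV profVal_effB

end Crest.Agent.S0170
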