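-- Row 126 (S0170), helper9: the code of a rational used by `Computable` (Denumerable code) versus the raw
-- (numerator, denominator) code: `encD q = rankC (enc0 q)`, `Computable enc0`.  Sorry-free.
import Mathlib

set_option autoImplicit false
open Encodable

namespace Crest.Agent.S0170

/-- the raw (Encodable) code of a rational -/
def enc0 (q : ℚ) : ℕ := Nat.pair (encode q.num) q.den

theorem enc0_eq (q : ℚ) : @Encodable.encode ℚ Rat.instEncodable q = enc0 q := rfl

theorem encode_int_natAbs (z : ℤ) : (encode z + 1) / 2 = z.natAbs := by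
  cases z with
  | ofNat n =>
    have : encode (Int.ofNat n) = 2 * n := rfl
    rw [this]; simp; omega
  | negSucc n =>
    have : encode (Int.negSucc n) = 2 * n + 1 := rfl
    rw [this]; simp; omega

/-- valid raw codes, arithmetically -/
def validC (c : ℕ) : Prop := 0 < c.unpair.2 ∧ Nat.Coprime ((c.unpair.1 + 1) / 2) c.unpair.2

instance : DecidablePred validC := fun c => by unfold validC; infer_instance

theorem mem_range_enc0_iff (c : ℕ) : c ∈ Set.range enc0 ↔ validC c := by
  constructor
  · rintro ⟨q, rfl⟩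
    unfold validC enc0
    rw [Nat.unpair_pair]
    simp only
    rw [encode_int_natAbs]
    exact ⟨q.den_pos, q.reduced⟩
  · rintro ⟨hd, hcop⟩
    have h1 : encode (Denumerable.ofNat ℤ c.unpair.1) = c.unpair.1 := Denumerable.encode_ofNat _
    have h2 : (Denumerable.ofNat ℤ c.unpair.1).natAbs = (c.unpair.1 + 1) / 2 := by
      rw [← encode_int_natAbs, h1]
    refine ⟨Rat.mk' (Denumerable.ofNat ℤ c.unpair.1) c.unpair.2 hd.ne' (by rw [h2]; exact hcop), ?_⟩
    unfold enc0
    simp only
    rw [h1, Nat.pair_unpair]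

theorem coprime_iff_forall {x d : ℕ} (hd : 0 < d) :
    Nat.Coprime x d ↔ ∀ m < x + d + 1, ¬ (2 ≤ m ∧ x % m = 0 ∧ d % m = 0) := by
  constructor
  · rintro h m - ⟨hm2, hx, hdm⟩
    have h1 : m ∣ x := Nat.dvd_of_mod_eq_zero hx
    have h2 : m ∣ d := Nat.dvd_of_mod_eq_zero hdm
    have h3 : m = 1 := Nat.eq_one_of_dvd_coprimes h h1 h2
    omega
  · intro h
    by_contra hne
    have hg1 : Nat.gcd x d ≠ 1 := hne
    have hg0 : 0 < Nat.gcd x d := Nat.gcd_pos_of_pos_right x hd
    have hgd : Nat.gcd x d ≤ d := Nat.le_of_dvd hd (Nat.gcd_dvd_right x d)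
    exact h (Nat.gcd x d) (by omega)
      ⟨by omega, Nat.mod_eq_zero_of_dvd (Nat.gcd_dvd_left _ _),
        Nat.mod_eq_zero_of_dvd (Nat.gcd_dvd_right _ _)⟩

theorem primrec_xc : Primrec (fun c : ℕ => (c.unpair.1 + 1) / 2) :=
  Primrec.nat_div.comp (Primrec.succ.comp (Primrec.fst.comp Primrec.unpair)) (Primrec.const 2)

theorem primrec_dc : Primrec (fun c : ℕ => c.unpair.2) := Primrec.snd.comp Primrec.unpair

theorem primrecPred_validC : PrimrecPred validC := by
  have hR : PrimrecRel (fun (m c : ℕ) =>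
      ¬ (2 ≤ m ∧ ((c.unpair.1 + 1) / 2) % m = 0 ∧ c.unpair.2 % m = 0)) := by
    refine PrimrecPred.not (PrimrecPred.and ?_ (PrimrecPred.and ?_ ?_))
    · exact Primrec.nat_le.comp (Primrec.const 2) Primrec.fst
    · exact Primrec.eq.comp (Primrec.nat_mod.comp (primrec_xc.comp Primrec.snd) Primrec.fst)
        (Primrec.const 0)
    · exact Primrec.eq.comp (Primrec.nat_mod.comp (primrec_dc.comp Primrec.snd) Primrec.fst)
        (Primrec.const 0)
  have hall := hR.forall_lt
  have h2 : PrimrecPred (fun c : ℕ => ∀ m < (c.unpair.1 + 1) / 2 + c.unpair.2 + 1,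
      ¬ (2 ≤ m ∧ ((c.unpair.1 + 1) / 2) % m = 0 ∧ c.unpair.2 % m = 0)) :=
    hall.comp (Primrec.succ.comp (Primrec.nat_add.comp primrec_xc primrec_dc)) Primrec.id
  have h1 : PrimrecPred (fun c : ℕ => 0 < c.unpair.2) :=
    Primrec.nat_lt.comp (Primrec.const 0) primrec_dc
  refine (h1.and h2).of_eq fun c => ?_
  unfold validC
  constructor
  · rintro ⟨hd, h⟩
    exact ⟨hd, (coprime_iff_forall hd).mpr h⟩
  · rintro ⟨hd, h⟩
    exact ⟨hd, (coprime_iff_forall hd).mp h⟩

/-- the rank of a raw code among valid codes -/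
def rankC (c : ℕ) : ℕ := ((List.range c).filter (fun c => decide (validC c))).length

theorem primrec_rankC : Primrec rankC :=
  Primrec.list_length.comp ((Primrec.listFilter primrecPred_validC).comp Primrec.list_range)

/-- the code of a rational used by `Computable` (through `Denumerable ℚ`). -/
def encD (q : ℚ) : ℕ := @Encodable.encode ℚ (Primcodable.toEncodable) q

theorem encD_eq (q : ℚ) : encD q = rankC (enc0 q) := by
  have h : encD q = (List.range (@Encodable.encode ℚ Rat.instEncodable q)).countP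
      (fun c => @decide (c ∈ Set.range (@Encodable.encode ℚ Rat.instEncodable))
        (Encodable.decidableRangeEncode ℚ c)) := rfl
  rw [h, rankC, List.countP_eq_length_filter]
  congr 1
  apply List.filter_congr
  intro c _
  have := mem_range_enc0_iff c
  simp only [decide_eq_decide]
  exact this

theorem encD_ofNat (n : ℕ) : encD (Denumerable.ofNat ℚ n) = n :=
  Denumerable.encode_ofNat n

theorem ofNat_encD (q : ℚ) : Denumerable.ofNat ℚ (encD q) = q :=
  Denumerable.ofNat_encode q

theorem computable_enc0_ofNat : Computable (fun n : ℕ => enc0 (Denumerable.ofNat ℚ n)) := by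
  -- the `n`-th valid code, by unbounded search
  have hp : Primrec₂ (fun (n c : ℕ) => decide (validC c ∧ rankC c = n)) := by
    have : PrimrecRel (fun (n c : ℕ) => validC c ∧ rankC c = n) :=
      PrimrecPred.and (primrecPred_validC.comp Primrec.snd)
        (Primrec.eq.comp (primrec_rankC.comp Primrec.snd) Primrec.fst)
    exact this.decide
  have hpart : Partrec (fun n : ℕ =>
      Nat.rfind ((fun c => Part.some (decide (validC c ∧ rankC c = n))) : ℕ →. Bool)) :=
    Partrec.rfind (p := fun n c => Part.some (decide (validC c ∧ rankC c = n))) hp.to_comp.partrec₂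
  refine hpart.of_eq fun n => ?_
  apply Part.eq_some_iff.mpr
  show enc0 (Denumerable.ofNat ℚ n) ∈
    Nat.rfind ((fun c => Part.some (decide (validC c ∧ rankC c = n))) : ℕ →. Bool)
  refine Nat.mem_rfind.mpr ⟨?_, ?_⟩
  · have h1 : validC (enc0 (Denumerable.ofNat ℚ n)) := (mem_range_enc0_iff _).mp ⟨_, rfl⟩
    have h2 : rankC (enc0 (Denumerable.ofNat ℚ n)) = n := by
      rw [← encD_eq, encD_ofNat]
    show true ∈ Part.some (decide (validC (enc0 (Denumerable.ofNat ℚ n)) ∧
      rankC (enc0 (Denumerable.ofNat ℚ n)) = n))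
    rw [Part.mem_some_iff]
    exact (decide_eq_true ⟨h1, h2⟩).symm
  · intro m hm
    show false ∈ Part.some (decide (validC m ∧ rankC m = n))
    rw [Part.mem_some_iff]
    symm
    apply decide_eq_false
    intro hcon'
    obtain ⟨q, rfl⟩ := (mem_range_enc0_iff m).mpr hcon'.1
    have : encD q = n := by rw [encD_eq]; exact hcon'.2
    have hq : q = Denumerable.ofNat ℚ n := by
      rw [← this, ofNat_encD]
    rw [hq] at hm
    exact lt_irrefl _ hm

theorem computable_enc0 : Computable enc0 :=
  (computable_enc0_ofNat.comp Computable.encode).of_eq fun q => congrArg enc0 (ofNat_encD q)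

/-! ### numerator / denominator data of a rational, computably -/

/-- positive part of the numerator, read off the raw code -/
def posC (c : ℕ) : ℕ := if c.unpair.1 % 2 = 0 then c.unpair.1 / 2 else 0

/-- negative part of the numerator, read off the raw code -/
def negC (c : ℕ) : ℕ := if c.unpair.1 % 2 = 0 then 0 else (c.unpair.1 + 1) / 2

theorem posC_enc0 (q : ℚ) : posC (enc0 q) = q.num.toNat := by
  unfold posC enc0
  rw [Nat.unpair_pair]
  simp only
  cases q.num with
  | ofNat n =>
    have : encode (Int.ofNat n) = 2 * n := rfl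
    rw [this]; simp
  | negSucc n =>
    have : encode (Int.negSucc n) = 2 * n + 1 := rfl
    rw [this]
    have h2 : (2 * n + 1) % 2 ≠ 0 := by omega
    rw [if_neg h2]; rfl

theorem negC_enc0 (q : ℚ) : negC (enc0 q) = (-q.num).toNat := by
  unfold negC enc0
  rw [Nat.unpair_pair]
  simp only
  cases q.num with
  | ofNat n =>
    have : encode (Int.ofNat n) = 2 * n := rfl
    rw [this]
    have h2 : (2 * n) % 2 = 0 := by omega
    rw [if_pos h2]
    have h3 : -(Int.ofNat n) ≤ 0 := by
      have : (0 : ℤ) ≤ Int.ofNat n := Int.natCast_nonneg n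
      omega
    exact (Int.toNat_of_nonpos h3).symm
  | negSucc n =>
    have : encode (Int.negSucc n) = 2 * n + 1 := rfl
    rw [this]
    have h2 : (2 * n + 1) % 2 ≠ 0 := by omega
    rw [if_neg h2]
    have h3 : -(Int.negSucc n) = ((n + 1 : ℕ) : ℤ) := by
      rw [Int.negSucc_eq]; push_cast; ring
    rw [h3, Int.toNat_natCast]
    omega

theorem den_enc0 (q : ℚ) : (enc0 q).unpair.2 = q.den := by
  unfold enc0; rw [Nat.unpair_pair]

theorem primrec_posC : Primrec posC := by
  have h1 : Primrec (fun c : ℕ => c.unpair.1) := Primrec.fst.comp Primrec.unpair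
  have hc : PrimrecPred (fun c : ℕ => c.unpair.1 % 2 = 0) :=
    Primrec.eq.comp (Primrec.nat_mod.comp h1 (Primrec.const 2)) (Primrec.const 0)
  exact Primrec.ite hc (Primrec.nat_div.comp h1 (Primrec.const 2)) (Primrec.const 0)

theorem primrec_negC : Primrec negC := by
  have h1 : Primrec (fun c : ℕ => c.unpair.1) := Primrec.fst.comp Primrec.unpair
  have hc : PrimrecPred (fun c : ℕ => c.unpair.1 % 2 = 0) :=
    Primrec.eq.comp (Primrec.nat_mod.comp h1 (Primrec.const 2)) (Primrec.const 0)
  exact Primrec.ite hc (Primrec.const 0)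
    (Primrec.nat_div.comp (Primrec.succ.comp h1) (Primrec.const 2))

/-- **Codec, direction `ℚ → ℕ³`**: positive part and negative part of the numerator, and the
denominator, are computable functions of a rational (for the `Primcodable ℚ` instance used by
`Computable`). -/
theorem computable_numden :
    Computable (fun q : ℚ => (q.num.toNat, (-q.num).toNat, q.den)) := by
  have h := ((primrec_posC.to_comp.comp computable_enc0).pair
    ((primrec_negC.to_comp.comp computable_enc0).pair (primrec_dc.to_comp.comp computable_enc0)))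
  refine h.of_eq fun q => ?_
  rw [posC_enc0, negC_enc0, den_enc0]

/-- the rational `(a - b) / d` of a triple of naturals -/
def ofTriple (p : ℕ × ℕ × ℕ) : ℚ := ((p.1 : ℚ) - (p.2.1 : ℚ)) / (p.2.2 : ℚ)

/-- arithmetic test: "the rational with raw code `c` equals `ofTriple p`" -/
def tripleTest (p : ℕ × ℕ × ℕ) (c : ℕ) : Prop :=
  (p.2.2 = 0 ∧ posC c = 0 ∧ negC c = 0) ∨
    (p.2.2 ≠ 0 ∧ posC c * p.2.2 + p.2.1 * c.unpair.2 = p.1 * c.unpair.2 + negC c * p.2.2)

instance (p : ℕ × ℕ × ℕ) (c : ℕ) : Decidable (tripleTest p c) := by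
  unfold tripleTest; infer_instance

theorem primrecRel_tripleTest : PrimrecRel tripleTest := by
  have hd : Primrec (fun x : (ℕ × ℕ × ℕ) × ℕ => x.1.2.2) :=
    Primrec.snd.comp (Primrec.snd.comp Primrec.fst)
  have ha : Primrec (fun x : (ℕ × ℕ × ℕ) × ℕ => x.1.1) := Primrec.fst.comp Primrec.fst
  have hb : Primrec (fun x : (ℕ × ℕ × ℕ) × ℕ => x.1.2.1) :=
    Primrec.fst.comp (Primrec.snd.comp Primrec.fst)
  have hpos : Primrec (fun x : (ℕ × ℕ × ℕ) × ℕ => posC x.2) := primrec_posC.comp Primrec.snd
  have hneg : Primrec (fun x : (ℕ × ℕ × ℕ) × ℕ => negC x.2) := primrec_negC.comp Primrec.snd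
  have hden : Primrec (fun x : (ℕ × ℕ × ℕ) × ℕ => x.2.unpair.2) := primrec_dc.comp Primrec.snd
  have hd0 : PrimrecPred (fun x : (ℕ × ℕ × ℕ) × ℕ => x.1.2.2 = 0) :=
    Primrec.eq.comp hd (Primrec.const 0)
  have h1 : PrimrecPred (fun x : (ℕ × ℕ × ℕ) × ℕ => x.1.2.2 = 0 ∧ posC x.2 = 0 ∧ negC x.2 = 0) :=
    hd0.and ((Primrec.eq.comp hpos (Primrec.const 0)).and (Primrec.eq.comp hneg (Primrec.const 0)))
  have h2 : PrimrecPred (fun x : (ℕ × ℕ × ℕ) × ℕ => x.1.2.2 ≠ 0 ∧
      posC x.2 * x.1.2.2 + x.1.2.1 * x.2.unpair.2 = x.1.1 * x.2.unpair.2 + negC x.2 * x.1.2.2) :=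
    hd0.not.and (Primrec.eq.comp
      (Primrec.nat_add.comp (Primrec.nat_mul.comp hpos hd) (Primrec.nat_mul.comp hb hden))
      (Primrec.nat_add.comp (Primrec.nat_mul.comp ha hden) (Primrec.nat_mul.comp hneg hd)))
  exact h1.or h2

theorem tripleTest_enc0_iff (p : ℕ × ℕ × ℕ) (q : ℚ) : tripleTest p (enc0 q) ↔ q = ofTriple p := by
  unfold tripleTest ofTriple
  rw [posC_enc0, negC_enc0, den_enc0]
  have hnum : ((q.num.toNat : ℤ) - ((-q.num).toNat : ℤ)) = q.num := Int.toNat_sub_toNat_neg q.num
  by_cases hd : p.2.2 = 0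
  · simp only [hd, true_and, ne_eq, not_true_eq_false, false_and, or_false, Nat.cast_zero,
      div_zero]
    constructor
    · rintro ⟨h1, h2⟩
      have : q.num = 0 := by rw [← hnum, h1, h2]; simp
      exact Rat.zero_of_num_zero this
    · intro h
      rw [h]; simp
  · simp only [hd, false_and, ne_eq, not_false_eq_true, true_and, false_or]
    have hdq : ((p.2.2 : ℕ) : ℚ) ≠ 0 := by exact_mod_cast hd
    have hden : ((q.den : ℕ) : ℚ) ≠ 0 := by exact_mod_cast q.den_pos.ne'
    have hq : q = (q.num : ℚ) / (q.den : ℚ) := (Rat.num_div_den q).symm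
    constructor
    · intro h
      have hz : (q.num : ℤ) * (p.2.2 : ℤ) = ((p.1 : ℤ) - (p.2.1 : ℤ)) * (q.den : ℤ) := by
        have h' : ((q.num.toNat : ℤ)) * (p.2.2 : ℤ) + (p.2.1 : ℤ) * (q.den : ℤ)
            = (p.1 : ℤ) * (q.den : ℤ) + ((-q.num).toNat : ℤ) * (p.2.2 : ℤ) := by
          exact_mod_cast h
        rw [← hnum]; linarith
      have hzq : (q.num : ℚ) * (p.2.2 : ℚ) = ((p.1 : ℚ) - (p.2.1 : ℚ)) * (q.den : ℚ) := by
        exact_mod_cast hz
      rw [hq, div_eq_div_iff hden hdq]
      exact hzq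
    · intro h
      have hzq : (q.num : ℚ) * (p.2.2 : ℚ) = ((p.1 : ℚ) - (p.2.1 : ℚ)) * (q.den : ℚ) := by
        rw [hq, div_eq_div_iff hden hdq] at h
        exact h
      have hz : (q.num : ℤ) * (p.2.2 : ℤ) = ((p.1 : ℤ) - (p.2.1 : ℤ)) * (q.den : ℤ) := by
        exact_mod_cast hzq
      have h' : ((q.num.toNat : ℤ)) * (p.2.2 : ℤ) + (p.2.1 : ℤ) * (q.den : ℤ)
          = (p.1 : ℤ) * (q.den : ℤ) + ((-q.num).toNat : ℤ) * (p.2.2 : ℤ) := by
        rw [← hnum] at hz; linarith
      exact_mod_cast h'

/-- Boolean form of `tripleTest` (kept as an opaque-looking constant for unification). -/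
def tripleTestB (p : ℕ × ℕ × ℕ) (c : ℕ) : Bool := decide (tripleTest p c)

theorem primrec_tripleTestB : Primrec₂ tripleTestB := primrecRel_tripleTest.decide

theorem tripleTestB_enc0_iff (p : ℕ × ℕ × ℕ) (q : ℚ) :
    tripleTestB p (enc0 q) = true ↔ q = ofTriple p := by
  unfold tripleTestB
  rw [decide_eq_true_iff]
  exact tripleTest_enc0_iff p q

theorem computable_tripleTestB_ofNat :
    Computable₂ (fun (p : ℕ × ℕ × ℕ) (n : ℕ) => tripleTestB p (enc0 (Denumerable.ofNat ℚ n))) :=
  primrec_tripleTestB.to_comp.comp Computable.fst (computable_enc0_ofNat.comp Computable.snd)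

theorem computable_encD_ofTriple : Computable (fun p : ℕ × ℕ × ℕ => encD (ofTriple p)) := by
  have hpart : Partrec (fun p : ℕ × ℕ × ℕ =>
      Nat.rfind ((fun n => Part.some (tripleTestB p (enc0 (Denumerable.ofNat ℚ n)))) :
        ℕ →. Bool)) :=
    Partrec.rfind
      (p := fun p n => Part.some (tripleTestB p (enc0 (Denumerable.ofNat ℚ n))))
      computable_tripleTestB_ofNat.partrec₂
  refine hpart.of_eq fun p => ?_
  apply Part.eq_some_iff.mpr
  show encD (ofTriple p) ∈
    Nat.rfind ((fun n => Part.some (tripleTestB p (enc0 (Denumerable.ofNat ℚ n)))) :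
      ℕ →. Bool)
  refine Nat.mem_rfind.mpr ⟨?_, ?_⟩
  · show true ∈ Part.some (tripleTestB p
      (enc0 (Denumerable.ofNat ℚ (encD (ofTriple p)))))
    rw [Part.mem_some_iff]
    symm
    rw [tripleTestB_enc0_iff, ofNat_encD]
  · intro m hm
    show false ∈ Part.some (tripleTestB p (enc0 (Denumerable.ofNat ℚ m)))
    rw [Part.mem_some_iff]
    symm
    by_contra hcon
    have hcon' : tripleTestB p (enc0 (Denumerable.ofNat ℚ m)) = true := by
      cases h : tripleTestB p (enc0 (Denumerable.ofNat ℚ m)) with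
      | true => rfl
      | false => exact absurd h hcon
    rw [tripleTestB_enc0_iff] at hcon'
    have : m = encD (ofTriple p) := by rw [← hcon', encD_ofNat]
    rw [this] at hm
    exact lt_irrefl _ hm

theorem computable_ofTriple' : Computable ofTriple :=
  (Computable.encode_iff (f := ofTriple)).mp computable_encD_ofTriple

/-- **Codec, direction `ℕ³ → ℚ`**: `(a, b, d) ↦ (a - b) / d` is computable (for the `Primcodable ℚ`
instance used by `Computable`). -/
theorem computable_ofTriple :
    Computable (fun p : ℕ × ℕ × ℕ => ((p.1 : ℚ) - (p.2.1 : ℚ)) / (p.2.2 : ℚ)) :=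
  computable_ofTriple'

end Crest.Agent.S0170
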