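import Mathlib
import Crest.Prelude.Def_BoxFlow
import Crest.Agent.S0170_Asm
import Crest.Agent.S0170_Chor
import Crest.Agent.S0170_Move

/-!
# S0170, work package STEP

The bridge between the choreography (`Conf`, `TStep`, `RStep`: a sequence of box configurations,
each step a translation of one box along an axis or an in-place planar rescaling of one box) and
the pointwise itinerary hypothesis of the analysis (`Stage`, `Stage.move`, `Stage.Moved`,
`Stage.Rest`).  Every step is realised by exactly four stages: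

* `TStep (i, j, δ)`: four translations by `δ / 4` along the axis `j`;
* `RStep (i, α, β, r)`: four shears about the centre of the box,
  `σ = 1/r - 1` (`α` by `β`), `1` (`β` by `α`), `r - 1` (`α` by `β`), `-1/r` (`β` by `α`).

All names are prefixed `step`.
-/

set_option autoImplicit false
open scoped ContDiff
open Crest.AnalysisR.BoxFlow

namespace Crest.Agent.S0170

/-! ### The bridge -/

/-- The isolation radius used for the in-place rescalings. -/
def stepRho (w : Fin 3 → ℚ) (r : ℚ) : ℚ := 2 * (1 + r + 1 / r) * (w 0 + w 1 + w 2)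

/-- One stage of an itinerary: the point is moved inside the plateau, or rests outside the
enlarged plateau. -/
def StepOK (d : Stage) (y z : Fin 3 → ℝ) : Prop :=
  (z = d.move y ∧ d.Moved y) ∨ (z = y ∧ d.Rest y)

/-- Separation implies rest. -/
theorem step_rest_core {chat R what c' w' : Fin 3 → ℝ} {μ e : ℝ} {y : Fin 3 → ℝ}
    (hy : ∀ j, |y j - c' j| < (1 + e) * w' j)
    (hsep : ∃ j, what j + w' j + μ ≤ |chat j - c' j|)
    (hsmall : ∀ j, R j - what j + e * w' j ≤ μ / 2) :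
    ∃ j, y j ≤ chat j - R j - μ / 2 ∨ chat j + R j + μ / 2 ≤ y j := by
  obtain ⟨j, hj⟩ := hsep
  refine ⟨j, ?_⟩
  have h1 := abs_lt.1 (hy j)
  have h2 := hsmall j
  rcases le_abs.1 hj with h | h
  · left; linarith [h1.2]
  · right; linarith [h1.1]

theorem step_abs_aux (δ t : ℝ) (h0 : 0 ≤ t) (h1 : t ≤ 1) : |t * δ - δ / 2| ≤ |δ| / 2 := by
  have : t * δ - δ / 2 = (t - 1 / 2) * δ := by ring
  rw [this, abs_mul]
  have h2 : |t - 1 / 2| ≤ 1 / 2 := abs_le.2 ⟨by linarith, by linarith⟩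
  nlinarith [abs_nonneg δ]

/-- An axis different from the given one. -/
def stepOther (j : Fin 3) : Fin 3 := if j = 0 then 1 else 0

theorem stepOther_ne (j : Fin 3) : j ≠ stepOther j := by
  unfold stepOther
  split_ifs with h
  · rw [h]; decide
  · exact h

theorem step_sum_bound {n : ℕ} (w : Fin n → Fin 3 → ℚ) (hw : ∀ i j, 0 < w i j) (i i' : Fin n)
    (hii' : i ≠ i') (l : Fin 3) : w i l + w i' l ≤ ∑ i, ∑ l, w i l := by
  have h1 : ∀ x, w x l ≤ ∑ l, w x l := fun x =>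
    Finset.single_le_sum (f := fun l => w x l) (fun l _ => (hw x l).le) (Finset.mem_univ l)
  have h2 : ∑ x ∈ ({i, i'} : Finset (Fin n)), ∑ l, w x l ≤ ∑ x, ∑ l, w x l :=
    Finset.sum_le_sum_of_subset_of_nonneg (Finset.subset_univ _)
      (fun x _ _ => Finset.sum_nonneg fun l _ => (hw x l).le)
  rw [Finset.sum_pair hii'] at h2
  linarith [h1 i, h1 i']

theorem step_single_bound {n : ℕ} (w : Fin n → Fin 3 → ℚ) (hw : ∀ i j, 0 < w i j) (i : Fin n)
    (l : Fin 3) : w i l ≤ ∑ i, ∑ l, w i l := by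
  have h1 : w i l ≤ ∑ l, w i l :=
    Finset.single_le_sum (f := fun l => w i l) (fun l _ => (hw i l).le) (Finset.mem_univ l)
  have h2 : ∑ l, w i l ≤ ∑ x, ∑ l, w x l :=
    Finset.single_le_sum (f := fun x => ∑ l, w x l)
      (fun x _ => Finset.sum_nonneg fun l _ => (hw x l).le) (Finset.mem_univ i)
  linarith

/-- The common choice of the thickening bound. -/
theorem step_eps_aux (μ W : ℚ) (hμ : 0 < μ) (hW : 0 ≤ W) :
    0 < min 1 (μ / (2 * W + 2)) ∧ min 1 (μ / (2 * W + 2)) ≤ 1 ∧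
      min 1 (μ / (2 * W + 2)) * W ≤ μ / 2 := by
  have h2 : 0 < 2 * W + 2 := by linarith
  refine ⟨lt_min one_pos (div_pos hμ h2), min_le_left _ _, ?_⟩
  have h3 : min 1 (μ / (2 * W + 2)) ≤ μ / (2 * W + 2) := min_le_right _ _
  have h4 : μ / (2 * W + 2) * W ≤ μ / 2 := by
    rw [div_mul_eq_mul_div, div_le_div_iff₀ h2 (by norm_num)]
    nlinarith
  exact (mul_le_mul_of_nonneg_right h3 hW).trans h4

/-- **One translation step** is realised by four stages. -/
theorem step_one_T {n : ℕ} (μ : ℚ) (s s' : Conf n) (hμ : 0 < μ) (hw : ∀ i j, 0 < s.w i j)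
    (h : TStep μ s s') :
    ∃ (ε₀ : ℚ) (st : ℕ → Stage), 0 < ε₀ ∧ ∀ ε' : ℚ, 0 < ε' → ε' ≤ ε₀ → ∀ i,
      ∀ y ∈ thick (ε' : ℝ) (s.c i) (s.w i), ∃ A : ℕ → Fin 3 → ℝ, A 0 = y ∧
        A 4 = aff (s.c i) (s.w i) (s'.c i) (s'.w i) y ∧
        ∀ k < 4, StepOK (st k) (A k) (A (k + 1)) := by
  obtain ⟨i₀, j, δ, hw', hc', hsep⟩ := h
  have hWnn : 0 ≤ (∑ i, ∑ l, s.w i l) + |δ| :=
    add_nonneg (Finset.sum_nonneg fun i _ => Finset.sum_nonneg fun l _ => (hw i l).le)
      (abs_nonneg δ)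
  obtain ⟨hε₀pos, hε₀1, hε₀W⟩ := step_eps_aux μ _ hμ hWnn
  generalize hW : (∑ i, ∑ l, s.w i l) + |δ| = W at hWnn hε₀pos hε₀1 hε₀W
  generalize hε₀ : min 1 (μ / (2 * W + 2)) = ε₀ at hε₀pos hε₀1 hε₀W
  -- the swept hull
  generalize hchat : Function.update (s.c i₀) j (s.c i₀ j + δ / 2) = chat at hsep
  generalize hwhat : Function.update (s.w i₀) j (s.w i₀ j + |δ| / 2) = what at hsep
  have hchat_j : chat j = s.c i₀ j + δ / 2 := by rw [← hchat]; simp
  have hchat_ne : ∀ l, l ≠ j → chat l = s.c i₀ l := fun l hl => by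
    rw [← hchat]; simp [hl]
  have hwhat_j : what j = s.w i₀ j + |δ| / 2 := by rw [← hwhat]; simp
  have hwhat_ne : ∀ l, l ≠ j → what l = s.w i₀ l := fun l hl => by
    rw [← hwhat]; simp [hl]
  have hwhat_le : ∀ l, what l ≤ s.w i₀ l + |δ| := fun l => by
    by_cases hl : l = j
    · subst hl; rw [hwhat_j]; linarith [abs_nonneg δ]
    · rw [hwhat_ne l hl]; linarith [abs_nonneg δ]
  have hwhat_pos : ∀ l, 0 < what l := fun l => by
    by_cases hl : l = j
    · subst hl; rw [hwhat_j]; linarith [abs_nonneg δ, hw i₀ l]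
    · rw [hwhat_ne l hl]; exact hw i₀ l
  -- the stage
  let d : Stage :=
    { α := j, β := stepOther j, hαβ := stepOther_ne j, lam := δ / 4, sig := 0, c := 0
      lo := fun l => chat l - (1 + ε₀) * what l
      hi := fun l => chat l + (1 + ε₀) * what l
      ε := μ / 2, hε := by positivity
      hlh := fun l => by nlinarith [hwhat_pos l, mul_pos hε₀pos (hwhat_pos l)] }
  refine ⟨ε₀, fun _ => d, hε₀pos, fun ε' hε' hε'le i y hy => ?_⟩
  have hε'R : (ε' : ℝ) ≤ (ε₀ : ℝ) := by exact_mod_cast hε'le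
  have hε'0 : (0 : ℝ) < (ε' : ℝ) := by exact_mod_cast hε'
  have hε₀0 : (0 : ℝ) < (ε₀ : ℝ) := by exact_mod_cast hε₀pos
  by_cases hi : i = i₀
  · subst hi
    -- the moving box
    have hplat : ∀ k : ℕ, k ≤ 4 →
        d.InPlateau (Function.update y j (y j + (k : ℝ) * ((δ : ℝ) / 4))) := by
      intro k hk l
      have hyl := abs_lt.1 (hy l)
      have hwl : (0 : ℝ) < (s.w i l : ℝ) := by exact_mod_cast hw i l
      have hmul : (ε' : ℝ) * (s.w i l : ℝ) ≤ (ε₀ : ℝ) * (s.w i l : ℝ) :=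
        mul_le_mul_of_nonneg_right hε'R hwl.le
      show ((chat l - (1 + ε₀) * what l : ℚ) : ℝ) ≤ _ ∧ _ ≤ ((chat l + (1 + ε₀) * what l : ℚ) : ℝ)
      by_cases hl : l = j
      · subst hl
        rw [hchat_j, hwhat_j]
        simp only [Function.update_self]
        push_cast
        have hk' : ((k : ℝ)) ≤ 4 := by exact_mod_cast hk
        have hk0 : (0 : ℝ) ≤ (k : ℝ) := Nat.cast_nonneg k
        have haux := abs_le.1 (step_abs_aux (δ : ℝ) ((k : ℝ) / 4) (by positivity) (by linarith))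
        have hδ : (0 : ℝ) ≤ |(δ : ℝ)| := abs_nonneg _
        have hmul2 : (0 : ℝ) ≤ (ε₀ : ℝ) * |(δ : ℝ)| := mul_nonneg hε₀0.le hδ
        constructor <;> nlinarith [haux.1, haux.2]
      · rw [hchat_ne l hl, hwhat_ne l hl]
        simp only [Function.update_of_ne hl]
        push_cast
        constructor <;> nlinarith
    refine ⟨fun k => Function.update y j (y j + (k : ℝ) * ((δ : ℝ) / 4)), ?_, ?_, ?_⟩
    · simp
    · funext l
      have hwl : (s.w i l : ℝ) ≠ 0 := by exact_mod_cast (hw i l).ne'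
      simp only [aff, hw', hc', Function.update_self, Rat.cast_div]
      rw [div_self hwl]
      by_cases hl : l = j
      · subst hl
        simp only [Function.update_self]
        push_cast
        ring
      · simp only [Function.update_of_ne hl]
        ring
    · intro k hk
      have hmove : d.move (Function.update y j (y j + (k : ℝ) * ((δ : ℝ) / 4))) =
          Function.update y j (y j + ((k + 1 : ℕ) : ℝ) * ((δ : ℝ) / 4)) := by
        simp only [Stage.move, d, Function.update_idem, Function.update_self]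
        congr 1
        push_cast
        ring
      refine Or.inl ⟨hmove.symm, hplat k (by omega), ?_⟩
      rw [hmove]
      exact hplat (k + 1) (by omega)
  · -- the other boxes rest
    refine ⟨fun _ => y, rfl, ?_, fun k _ => Or.inr ⟨rfl, ?_⟩⟩
    · have e1 : s'.c i = s.c i := by rw [hc']; simp [hi]
      rw [e1, hw']
      exact (asm_aff_self _ _ (hw i) y).symm
    · have hsepi := hsep i hi
      have hcore := step_rest_core (chat := fun l => (chat l : ℝ))
        (R := fun l => (1 + (ε₀ : ℝ)) * (what l : ℝ)) (what := fun l => (what l : ℝ))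
        (c' := fun l => (s.c i l : ℝ)) (w' := fun l => (s.w i l : ℝ)) (μ := (μ : ℝ))
        (e := (ε' : ℝ)) (y := y) hy ?_ ?_
      · obtain ⟨l, hl⟩ := hcore
        refine ⟨l, ?_⟩
        show y l ≤ ((chat l - (1 + ε₀) * what l : ℚ) : ℝ) - ((μ / 2 : ℚ) : ℝ) ∨
          ((chat l + (1 + ε₀) * what l : ℚ) : ℝ) + ((μ / 2 : ℚ) : ℝ) ≤ y l
        push_cast
        exact hl
      · obtain ⟨l, hl⟩ := hsepi
        refine ⟨l, ?_⟩
        have := (Rat.cast_le (K := ℝ)).2 hl
        push_cast at this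
        exact this
      · intro l
        have h1 : what l + s.w i l ≤ W := by
          have := step_sum_bound s.w hw i₀ i (Ne.symm hi) l
          linarith [hwhat_le l]
        have h2 : ε₀ * (what l + s.w i l) ≤ μ / 2 :=
          (mul_le_mul_of_nonneg_left h1 hε₀pos.le).trans hε₀W
        have h3 := (Rat.cast_le (K := ℝ)).2 h2
        push_cast at h3
        have hwl : (0 : ℝ) < (s.w i l : ℝ) := by exact_mod_cast hw i l
        have hmul : (ε' : ℝ) * (s.w i l : ℝ) ≤ (ε₀ : ℝ) * (s.w i l : ℝ) :=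
          mul_le_mul_of_nonneg_right hε'R hwl.le
        show (1 + (ε₀ : ℝ)) * (what l : ℝ) - (what l : ℝ) + (ε' : ℝ) * (s.w i l : ℝ) ≤
          (μ : ℝ) / 2
        linarith

/-- `y` with the coordinates `α`, `β` replaced by `a`, `b`. -/
def stepPt (y : Fin 3 → ℝ) (α β : Fin 3) (a b : ℝ) : Fin 3 → ℝ :=
  Function.update (Function.update y α a) β b

theorem stepPt_self (y : Fin 3 → ℝ) (α β : Fin 3) : stepPt y α β (y α) (y β) = y := by
  simp [stepPt]

theorem stepPt_fst {y : Fin 3 → ℝ} {α β : Fin 3} (hαβ : α ≠ β) (a b : ℝ) :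
    stepPt y α β a b α = a := by
  simp [stepPt, hαβ]

theorem stepPt_snd {y : Fin 3 → ℝ} {α β : Fin 3} (a b : ℝ) : stepPt y α β a b β = b := by
  simp [stepPt]

theorem stepPt_of_ne {y : Fin 3 → ℝ} {α β l : Fin 3} (h1 : l ≠ α) (h2 : l ≠ β) (a b : ℝ) :
    stepPt y α β a b l = y l := by
  simp [stepPt, h1, h2]

theorem stepPt_update_fst {y : Fin 3 → ℝ} {α β : Fin 3} (hαβ : α ≠ β) (a b a' : ℝ) :
    Function.update (stepPt y α β a b) α a' = stepPt y α β a' b := by
  unfold stepPt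
  rw [Function.update_comm hαβ.symm, Function.update_idem]

theorem stepPt_update_snd {y : Fin 3 → ℝ} {α β : Fin 3} (a b b' : ℝ) :
    Function.update (stepPt y α β a b) β b' = stepPt y α β a b' := by
  unfold stepPt
  rw [Function.update_idem]

/-- A stage shearing `α` by `β`, applied to `stepPt y α β a b`. -/
theorem step_move_fst (d : Stage) {y : Fin 3 → ℝ} {α β : Fin 3} (hαβ : α ≠ β) (hα : d.α = α)
    (hβ : d.β = β) (a b : ℝ) :
    d.move (stepPt y α β a b) =
      stepPt y α β (a + ((d.lam : ℝ) + (d.sig : ℝ) * (b - (d.c : ℝ)))) b := by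
  unfold Stage.move
  rw [hα, hβ, stepPt_fst hαβ, stepPt_snd, stepPt_update_fst hαβ]

/-- A stage shearing `β` by `α`, applied to `stepPt y α β a b`. -/
theorem step_move_snd (d : Stage) {y : Fin 3 → ℝ} {α β : Fin 3} (hαβ : α ≠ β) (hα : d.α = β)
    (hβ : d.β = α) (a b : ℝ) :
    d.move (stepPt y α β a b) =
      stepPt y α β a (b + ((d.lam : ℝ) + (d.sig : ℝ) * (a - (d.c : ℝ)))) := by
  unfold Stage.move
  rw [hα, hβ, stepPt_fst hαβ, stepPt_snd, stepPt_update_snd]

/-- Membership in a cubical plateau. -/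
theorem step_inPlateau_pt (d : Stage) (c : Fin 3 → ℚ) (ρ : ℚ) (hlo : d.lo = fun l => c l - ρ)
    (hhi : d.hi = fun l => c l + ρ) {y : Fin 3 → ℝ} {α β : Fin 3} (hαβ : α ≠ β) {a b : ℝ}
    (ha : |a - (c α : ℝ)| ≤ (ρ : ℝ)) (hb : |b - (c β : ℝ)| ≤ (ρ : ℝ))
    (hy : ∀ l, |y l - (c l : ℝ)| ≤ (ρ : ℝ)) : d.InPlateau (stepPt y α β a b) := by
  intro l
  rw [hlo, hhi]
  push_cast
  by_cases h2 : l = β
  · subst h2
    rw [stepPt_snd]
    have := abs_le.1 hb
    constructor <;> linarith [this.1, this.2]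
  · by_cases h1 : l = α
    · subst h1
      rw [stepPt_fst hαβ]
      have := abs_le.1 ha
      constructor <;> linarith [this.1, this.2]
    · rw [stepPt_of_ne h1 h2]
      have := abs_le.1 (hy l)
      constructor <;> linarith [this.1, this.2]

theorem step_pair_le (w : Fin 3 → ℚ) (hw : ∀ j, 0 < w j) {α β : Fin 3} (hαβ : α ≠ β) :
    w α + w β ≤ w 0 + w 1 + w 2 := by
  have h0 := hw 0
  have h1 := hw 1
  have h2 := hw 2
  fin_cases α <;> fin_cases β <;> simp at hαβ ⊢ <;> linarith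

theorem step_single_le (w : Fin 3 → ℚ) (hw : ∀ j, 0 < w j) (l : Fin 3) :
    w l ≤ w 0 + w 1 + w 2 := by
  have h0 := hw 0
  have h1 := hw 1
  have h2 := hw 2
  fin_cases l <;> simp <;> linarith

/-- The real-number bounds for the four shears. -/
theorem step_shear_bounds (r ri U V u v : ℝ) (hr : 0 < r) (hri : r * ri = 1) (hU : |u| < U)
    (hV : |v| < V) :
    |u| ≤ (1 + r + ri) * (U + V) ∧ |v| ≤ (1 + r + ri) * (U + V) ∧
      |u + (ri - 1) * v| ≤ (1 + r + ri) * (U + V) ∧ |u + ri * v| ≤ (1 + r + ri) * (U + V) ∧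
      |r * u| ≤ (1 + r + ri) * (U + V) ∧ |ri * v| ≤ (1 + r + ri) * (U + V) := by
  have hu := abs_lt.1 hU
  have hv := abs_lt.1 hV
  have hU0 : 0 < U := lt_of_le_of_lt (abs_nonneg u) hU
  have hV0 : 0 < V := lt_of_le_of_lt (abs_nonneg v) hV
  have hri0 : 0 < ri := by
    by_contra h
    have h' := not_lt.1 h
    nlinarith
  have p1 : r * u < r * U := mul_lt_mul_of_pos_left hu.2 hr
  have p2 : r * -U < r * u := mul_lt_mul_of_pos_left hu.1 hr
  have p3 : ri * v < ri * V := mul_lt_mul_of_pos_left hv.2 hri0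
  have p4 : ri * -V < ri * v := mul_lt_mul_of_pos_left hv.1 hri0
  have q1 : 0 < r * U := mul_pos hr hU0
  have q2 : 0 < r * V := mul_pos hr hV0
  have q3 : 0 < ri * U := mul_pos hri0 hU0
  have q4 : 0 < ri * V := mul_pos hri0 hV0
  have hRb : (1 + r + ri) * (U + V) = U + V + r * U + r * V + ri * U + ri * V := by ring
  rw [hRb]
  refine ⟨abs_le.2 ⟨?_, ?_⟩, abs_le.2 ⟨?_, ?_⟩, abs_le.2 ⟨?_, ?_⟩, abs_le.2 ⟨?_, ?_⟩,
    abs_le.2 ⟨?_, ?_⟩, abs_le.2 ⟨?_, ?_⟩⟩ <;> linarith [hu.1, hu.2, hv.1, hv.2]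

set_option maxHeartbeats 800000 in
/-- **One rescaling step** is realised by four shear stages. -/
theorem step_one_R {n : ℕ} (μ : ℚ) (s s' : Conf n) (hμ : 0 < μ) (hw : ∀ i j, 0 < s.w i j)
    (h : RStep μ stepRho s s') :
    ∃ (ε₀ : ℚ) (st : ℕ → Stage), 0 < ε₀ ∧ ∀ ε' : ℚ, 0 < ε' → ε' ≤ ε₀ → ∀ i,
      ∀ y ∈ thick (ε' : ℝ) (s.c i) (s.w i), ∃ A : ℕ → Fin 3 → ℝ, A 0 = y ∧
        A 4 = aff (s.c i) (s.w i) (s'.c i) (s'.w i) y ∧
        ∀ k < 4, StepOK (st k) (A k) (A (k + 1)) := by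
  obtain ⟨i₀, α, β, r, hαβ, hr, hc', hw', hsep⟩ := h
  have hWnn : 0 ≤ ∑ i, ∑ l, s.w i l :=
    Finset.sum_nonneg fun i _ => Finset.sum_nonneg fun l _ => (hw i l).le
  obtain ⟨hε₀pos, hε₀1, hε₀W⟩ := step_eps_aux μ _ hμ hWnn
  have hWb : ∀ i l, s.w i l ≤ ∑ i, ∑ l, s.w i l := fun i l => step_single_bound s.w hw i l
  generalize hW : ∑ i, ∑ l, s.w i l = W at hWnn hε₀pos hε₀1 hε₀W hWb
  generalize hε₀ : min 1 (μ / (2 * W + 2)) = ε₀ at hε₀pos hε₀1 hε₀W
  have hρR : ((stepRho (s.w i₀) r : ℚ) : ℝ) = 2 * (1 + (r : ℝ) + 1 / (r : ℝ)) *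
      ((s.w i₀ 0 : ℝ) + (s.w i₀ 1 : ℝ) + (s.w i₀ 2 : ℝ)) := by
    simp [stepRho]
  generalize hρ : stepRho (s.w i₀) r = ρ at hsep hρR
  have hμ2 : 0 < μ / 2 := by positivity
  have hρ0 : 0 ≤ ρ := by
    rw [← hρ]
    unfold stepRho
    have h0 := hw i₀ 0
    have h1 := hw i₀ 1
    have h2 := hw i₀ 2
    have h3 : 0 < 1 / r := by positivity
    positivity
  -- the four stages
  let d0 : Stage :=
    { α := α, β := β, hαβ := hαβ, lam := 0, sig := 1 / r - 1, c := s.c i₀ β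
      lo := fun l => s.c i₀ l - ρ, hi := fun l => s.c i₀ l + ρ, ε := μ / 2, hε := hμ2
      hlh := fun l => by linarith }
  let d1 : Stage :=
    { α := β, β := α, hαβ := hαβ.symm, lam := 0, sig := 1, c := s.c i₀ α
      lo := fun l => s.c i₀ l - ρ, hi := fun l => s.c i₀ l + ρ, ε := μ / 2, hε := hμ2
      hlh := fun l => by linarith }
  let d2 : Stage :=
    { α := α, β := β, hαβ := hαβ, lam := 0, sig := r - 1, c := s.c i₀ β
      lo := fun l => s.c i₀ l - ρ, hi := fun l => s.c i₀ l + ρ, ε := μ / 2, hε := hμ2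
      hlh := fun l => by linarith }
  let d3 : Stage :=
    { α := β, β := α, hαβ := hαβ.symm, lam := 0, sig := -1 / r, c := s.c i₀ α
      lo := fun l => s.c i₀ l - ρ, hi := fun l => s.c i₀ l + ρ, ε := μ / 2, hε := hμ2
      hlh := fun l => by linarith }
  refine ⟨ε₀, fun k => if k = 0 then d0 else if k = 1 then d1 else if k = 2 then d2 else d3,
    hε₀pos, fun ε' hε' hε'le i y hy => ?_⟩
  have hε'R : (ε' : ℝ) ≤ (ε₀ : ℝ) := by exact_mod_cast hε'le
  have hε'0 : (0 : ℝ) < (ε' : ℝ) := by exact_mod_cast hε'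
  have hε₀1R : (ε₀ : ℝ) ≤ 1 := by exact_mod_cast hε₀1
  by_cases hi : i = i₀
  · subst hi
    have hrR : (0 : ℝ) < (r : ℝ) := by exact_mod_cast hr
    have hrne : (r : ℝ) ≠ 0 := hrR.ne'
    have hw0 : ∀ l, (0 : ℝ) < (s.w i l : ℝ) := fun l => by exact_mod_cast hw i l
    -- every coordinate is within twice the half-width
    have hy2 : ∀ l, |y l - (s.c i l : ℝ)| < 2 * (s.w i l : ℝ) := fun l => by
      have := hy l
      nlinarith [hw0 l]
    -- the itinerary
    obtain ⟨a1, ea1⟩ : ∃ a1 : ℝ, a1 = y α + (((0 : ℚ) : ℝ) +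
        ((1 / r - 1 : ℚ) : ℝ) * (y β - (s.c i β : ℝ))) := ⟨_, rfl⟩
    obtain ⟨b2, eb2⟩ : ∃ b2 : ℝ, b2 = y β + (((0 : ℚ) : ℝ) +
        ((1 : ℚ) : ℝ) * (a1 - (s.c i α : ℝ))) := ⟨_, rfl⟩
    obtain ⟨a3, ea3⟩ : ∃ a3 : ℝ, a3 = a1 + (((0 : ℚ) : ℝ) +
        ((r - 1 : ℚ) : ℝ) * (b2 - (s.c i β : ℝ))) := ⟨_, rfl⟩
    obtain ⟨b4, eb4⟩ : ∃ b4 : ℝ, b4 = b2 + (((0 : ℚ) : ℝ) +
        ((-1 / r : ℚ) : ℝ) * (a3 - (s.c i α : ℝ))) := ⟨_, rfl⟩
    have ha1 : a1 - (s.c i α : ℝ) =
        (y α - (s.c i α : ℝ)) + (1 / (r : ℝ) - 1) * (y β - (s.c i β : ℝ)) := by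
      rw [ea1]; push_cast; ring
    have hb2 : b2 - (s.c i β : ℝ) =
        (y α - (s.c i α : ℝ)) + 1 / (r : ℝ) * (y β - (s.c i β : ℝ)) := by
      rw [eb2, ea1]; push_cast; ring
    have ha3 : a3 - (s.c i α : ℝ) = (r : ℝ) * (y α - (s.c i α : ℝ)) := by
      rw [ea3, eb2, ea1]; push_cast; field_simp; ring
    have hb4 : b4 - (s.c i β : ℝ) = 1 / (r : ℝ) * (y β - (s.c i β : ℝ)) := by
      rw [eb4, ea3, eb2, ea1]; push_cast; field_simp; ring
    -- bounds
    obtain ⟨B1, B2, B3, B4, B5, B6⟩ := step_shear_bounds (r : ℝ) (1 / (r : ℝ))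
      (2 * (s.w i α : ℝ)) (2 * (s.w i β : ℝ)) (y α - (s.c i α : ℝ)) (y β - (s.c i β : ℝ)) hrR
      (by field_simp) (hy2 α) (hy2 β)
    have hri0 : (0 : ℝ) < 1 / (r : ℝ) := by positivity
    have hpair : (s.w i α : ℝ) + (s.w i β : ℝ) ≤
        (s.w i 0 : ℝ) + (s.w i 1 : ℝ) + (s.w i 2 : ℝ) := by
      exact_mod_cast step_pair_le (s.w i) (hw i) hαβ
    have hRbρ : (1 + (r : ℝ) + 1 / (r : ℝ)) * (2 * (s.w i α : ℝ) + 2 * (s.w i β : ℝ)) ≤ (ρ : ℝ) := by
      rw [hρR]
      have : (0 : ℝ) < 1 + (r : ℝ) + 1 / (r : ℝ) := by linarith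
      nlinarith [mul_le_mul_of_nonneg_left hpair this.le]
    have hyρ : ∀ l, |y l - (s.c i l : ℝ)| ≤ (ρ : ℝ) := fun l => by
      have h1 : (s.w i l : ℝ) ≤ (s.w i 0 : ℝ) + (s.w i 1 : ℝ) + (s.w i 2 : ℝ) := by
        exact_mod_cast step_single_le (s.w i) (hw i) l
      have h2 : (0 : ℝ) ≤ (s.w i 0 : ℝ) + (s.w i 1 : ℝ) + (s.w i 2 : ℝ) := by
        linarith [hw0 0, hw0 1, hw0 2]
      have h3 := (hy2 l).le
      rw [hρR]
      nlinarith [mul_nonneg (add_nonneg hrR.le hri0.le) h2]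
    have Ha0 : |y α - (s.c i α : ℝ)| ≤ (ρ : ℝ) := hyρ α
    have Hb0 : |y β - (s.c i β : ℝ)| ≤ (ρ : ℝ) := hyρ β
    have Ha1 : |a1 - (s.c i α : ℝ)| ≤ (ρ : ℝ) := by rw [ha1]; exact B3.trans hRbρ
    have Hb2 : |b2 - (s.c i β : ℝ)| ≤ (ρ : ℝ) := by rw [hb2]; exact B4.trans hRbρ
    have Ha3 : |a3 - (s.c i α : ℝ)| ≤ (ρ : ℝ) := by rw [ha3]; exact B5.trans hRbρ
    have Hb4 : |b4 - (s.c i β : ℝ)| ≤ (ρ : ℝ) := by rw [hb4]; exact B6.trans hRbρ
    -- the moves
    have m0 : d0.move y = stepPt y α β a1 (y β) := by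
      have h0 := step_move_fst d0 (y := y) hαβ rfl rfl (y α) (y β)
      rw [stepPt_self] at h0
      exact h0.trans (by rw [ea1])
    have m1 : d1.move (stepPt y α β a1 (y β)) = stepPt y α β a1 b2 :=
      (step_move_snd d1 hαβ rfl rfl a1 (y β)).trans (by rw [eb2])
    have m2 : d2.move (stepPt y α β a1 b2) = stepPt y α β a3 b2 :=
      (step_move_fst d2 hαβ rfl rfl a1 b2).trans (by rw [ea3])
    have m3 : d3.move (stepPt y α β a3 b2) = stepPt y α β a3 b4 :=
      (step_move_snd d3 hαβ rfl rfl a3 b2).trans (by rw [eb4])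
    -- plateau memberships
    have ip0 : ∀ d : Stage, d.lo = (fun l => s.c i l - ρ) → d.hi = (fun l => s.c i l + ρ) →
        d.InPlateau y := fun d hlo hhi => by
      have := step_inPlateau_pt d (s.c i) ρ hlo hhi (y := y) hαβ Ha0 Hb0 hyρ
      rwa [stepPt_self] at this
    have ip1 : ∀ d : Stage, d.lo = (fun l => s.c i l - ρ) → d.hi = (fun l => s.c i l + ρ) →
        d.InPlateau (stepPt y α β a1 (y β)) := fun d hlo hhi =>
      step_inPlateau_pt d (s.c i) ρ hlo hhi hαβ Ha1 Hb0 hyρ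
    have ip2 : ∀ d : Stage, d.lo = (fun l => s.c i l - ρ) → d.hi = (fun l => s.c i l + ρ) →
        d.InPlateau (stepPt y α β a1 b2) := fun d hlo hhi =>
      step_inPlateau_pt d (s.c i) ρ hlo hhi hαβ Ha1 Hb2 hyρ
    have ip3 : ∀ d : Stage, d.lo = (fun l => s.c i l - ρ) → d.hi = (fun l => s.c i l + ρ) →
        d.InPlateau (stepPt y α β a3 b2) := fun d hlo hhi =>
      step_inPlateau_pt d (s.c i) ρ hlo hhi hαβ Ha3 Hb2 hyρ
    have ip4 : ∀ d : Stage, d.lo = (fun l => s.c i l - ρ) → d.hi = (fun l => s.c i l + ρ) →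
        d.InPlateau (stepPt y α β a3 b4) := fun d hlo hhi =>
      step_inPlateau_pt d (s.c i) ρ hlo hhi hαβ Ha3 Hb4 hyρ
    refine ⟨fun k => if k = 0 then y else if k = 1 then stepPt y α β a1 (y β)
      else if k = 2 then stepPt y α β a1 b2 else if k = 3 then stepPt y α β a3 b2
      else stepPt y α β a3 b4, rfl, ?_, ?_⟩
    · -- the end point
      show stepPt y α β a3 b4 = _
      funext l
      have hwl : (s.w i l : ℝ) ≠ 0 := (hw0 l).ne'
      by_cases h2 : l = β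
      · subst h2
        rw [stepPt_snd]
        simp only [aff, hc', hw', Function.update_self, Rat.cast_div]
        have e : (s.w i l : ℝ) / (r : ℝ) / (s.w i l : ℝ) = 1 / (r : ℝ) := by field_simp
        rw [e]
        linarith [hb4]
      · by_cases h1 : l = α
        · subst h1
          rw [stepPt_fst hαβ]
          simp only [aff, hc', hw', Function.update_self, Function.update_of_ne h2, Rat.cast_div,
            Rat.cast_mul]
          rw [mul_div_assoc, div_self hwl, mul_one]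
          linarith [ha3]
        · rw [stepPt_of_ne h1 h2]
          simp only [aff, hc', hw', Function.update_self, Function.update_of_ne h2,
            Function.update_of_ne h1, Rat.cast_div]
          rw [div_self hwl]
          ring
    · intro k hk
      interval_cases k
      · refine Or.inl ⟨m0.symm, ip0 d0 rfl rfl, ?_⟩
        show d0.InPlateau (d0.move y)
        rw [m0]; exact ip1 d0 rfl rfl
      · refine Or.inl ⟨m1.symm, ip1 d1 rfl rfl, ?_⟩
        show d1.InPlateau (d1.move (stepPt y α β a1 (y β)))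
        rw [m1]; exact ip2 d1 rfl rfl
      · refine Or.inl ⟨m2.symm, ip2 d2 rfl rfl, ?_⟩
        show d2.InPlateau (d2.move (stepPt y α β a1 b2))
        rw [m2]; exact ip3 d2 rfl rfl
      · refine Or.inl ⟨m3.symm, ip3 d3 rfl rfl, ?_⟩
        show d3.InPlateau (d3.move (stepPt y α β a3 b2))
        rw [m3]; exact ip4 d3 rfl rfl
  · -- the other boxes rest
    have hrest : ∀ d : Stage, d.lo = (fun l => s.c i₀ l - ρ) → d.hi = (fun l => s.c i₀ l + ρ) →
        d.ε = μ / 2 → d.Rest y := by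
      intro d hlo hhi hde
      have hcore := step_rest_core (chat := fun l => (s.c i₀ l : ℝ))
        (R := fun _ => (ρ : ℝ)) (what := fun _ => (ρ : ℝ))
        (c' := fun l => (s.c i l : ℝ)) (w' := fun l => (s.w i l : ℝ)) (μ := (μ : ℝ))
        (e := (ε' : ℝ)) (y := y) hy ?_ ?_
      · obtain ⟨l, hl⟩ := hcore
        refine ⟨l, ?_⟩
        rw [hlo, hhi, hde]
        push_cast
        exact hl
      · obtain ⟨l, hl⟩ := hsep i hi
        refine ⟨l, ?_⟩
        have := (Rat.cast_le (K := ℝ)).2 hl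
        push_cast at this
        exact this
      · intro l
        have h2 : ε₀ * s.w i l ≤ μ / 2 :=
          (mul_le_mul_of_nonneg_left (hWb i l) hε₀pos.le).trans hε₀W
        have h3 := (Rat.cast_le (K := ℝ)).2 h2
        push_cast at h3
        have hwl : (0 : ℝ) < (s.w i l : ℝ) := by exact_mod_cast hw i l
        have hmul : (ε' : ℝ) * (s.w i l : ℝ) ≤ (ε₀ : ℝ) * (s.w i l : ℝ) :=
          mul_le_mul_of_nonneg_right hε'R hwl.le
        show (ρ : ℝ) - (ρ : ℝ) + (ε' : ℝ) * (s.w i l : ℝ) ≤ (μ : ℝ) / 2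
        linarith
    refine ⟨fun _ => y, rfl, ?_, fun k _ => Or.inr ⟨rfl, ?_⟩⟩
    · have e1 : s'.w i = s.w i := by rw [hw']; simp [hi]
      rw [e1, hc']
      exact (asm_aff_self _ _ (hw i) y).symm
    · show Stage.Rest (if k = 0 then d0 else if k = 1 then d1 else if k = 2 then d2 else d3) y
      split_ifs
      · exact hrest d0 rfl rfl rfl
      · exact hrest d1 rfl rfl rfl
      · exact hrest d2 rfl rfl rfl
      · exact hrest d3 rfl rfl rfl

/-- **(S1)** One step of the choreography is realised by four stages: every point of every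
(proportionally thickened) box has an itinerary through the four stages ending at its affine
image. -/
theorem step_one {n : ℕ} (μ : ℚ) (s s' : Conf n) (hμ : 0 < μ) (hw : ∀ i j, 0 < s.w i j)
    (h : TStep μ s s' ∨ RStep μ stepRho s s') :
    ∃ (ε₀ : ℚ) (st : ℕ → Stage), 0 < ε₀ ∧ ∀ ε' : ℚ, 0 < ε' → ε' ≤ ε₀ → ∀ i,
      ∀ y ∈ thick (ε' : ℝ) (s.c i) (s.w i), ∃ A : ℕ → Fin 3 → ℝ, A 0 = y ∧
        A 4 = aff (s.c i) (s.w i) (s'.c i) (s'.w i) y ∧
        ∀ k < 4, StepOK (st k) (A k) (A (k + 1)) :=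
  h.elim (step_one_T μ s s' hμ hw) (step_one_R μ s s' hμ hw)

theorem step_exists_min (e : ℕ → ℚ) (he : ∀ m, 0 < e m) (N : ℕ) :
    ∃ ε : ℚ, 0 < ε ∧ ∀ m < N, ε ≤ e m := by
  induction N with
  | zero => exact ⟨1, one_pos, fun m hm => absurd hm (Nat.not_lt_zero m)⟩
  | succ N ih =>
    obtain ⟨ε, hε, hle⟩ := ih
    refine ⟨min ε (e N), lt_min hε (he N), fun m hm => ?_⟩
    rcases Nat.lt_succ_iff_lt_or_eq.1 hm with h | h
    · exact (min_le_left _ _).trans (hle m h)
    · rw [h]; exact min_le_right _ _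

/-- A stage (used only as a dummy value). -/
def stepDummy : Stage :=
  { α := 0, β := 1, hαβ := by decide, lam := 0, sig := 0, c := 0, lo := 0, hi := 0, ε := 1
    hε := one_pos, hlh := fun _ => le_rfl }

/-- **(S2)** A whole choreography `S 0, …, S N` is realised by `4 * N` stages: there are a
thickening `ε' > 0` and a stage list such that every point `x` of the thickened `i`-th source
box has an itinerary through all the stages, ending at its image under the affine map onto the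
`i`-th box of `S N`. -/
theorem step_main {n : ℕ} (μ : ℚ) (N : ℕ) (S : ℕ → Conf n) (hμ : 0 < μ)
    (hpos : ∀ m ≤ N, ∀ i j, 0 < (S m).w i j)
    (hsteps : ∀ m < N, TStep μ (S m) (S (m + 1)) ∨ RStep μ stepRho (S m) (S (m + 1))) :
    ∃ (ε' : ℚ) (st : ℕ → Stage), 0 < ε' ∧ ∀ i, ∀ x ∈ thick (ε' : ℝ) ((S 0).c i) ((S 0).w i),
      ∃ A : ℕ → Fin 3 → ℝ, A 0 = x ∧
        A (4 * N) = aff ((S 0).c i) ((S 0).w i) ((S N).c i) ((S N).w i) x ∧
        ∀ k < 4 * N, StepOK (st k) (A k) (A (k + 1)) := by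
  have hone : ∀ m, ∃ (ε₀ : ℚ) (st : ℕ → Stage), 0 < ε₀ ∧ (m < N → ∀ ε' : ℚ, 0 < ε' → ε' ≤ ε₀ →
      ∀ i, ∀ y ∈ thick (ε' : ℝ) ((S m).c i) ((S m).w i), ∃ A : ℕ → Fin 3 → ℝ, A 0 = y ∧
        A 4 = aff ((S m).c i) ((S m).w i) ((S (m + 1)).c i) ((S (m + 1)).w i) y ∧
        ∀ k < 4, StepOK (st k) (A k) (A (k + 1))) := by
    intro m
    by_cases hm : m < N
    · obtain ⟨ε₀, st, h0, h1⟩ := step_one μ (S m) (S (m + 1)) hμ (hpos m hm.le) (hsteps m hm)
      exact ⟨ε₀, st, h0, fun _ => h1⟩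
    · exact ⟨1, fun _ => stepDummy, one_pos, fun h => absurd h hm⟩
  choose e stm he hstm using hone
  obtain ⟨ε', hε', hε'le⟩ := step_exists_min e he N
  refine ⟨ε', fun k => stm (k / 4) (k % 4), hε', fun i x hx => ?_⟩
  -- the positions at the step boundaries
  have hB : ∀ m ≤ N, aff ((S 0).c i) ((S 0).w i) ((S m).c i) ((S m).w i) x ∈
      thick (ε' : ℝ) ((S m).c i) ((S m).w i) := fun m hm =>
    asm_aff_mem_thick _ _ _ _ (hpos 0 (Nat.zero_le N) i) (hpos m hm i) hx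
  have hitin : ∀ m, ∃ A : ℕ → Fin 3 → ℝ,
      A 0 = aff ((S 0).c i) ((S 0).w i) ((S m).c i) ((S m).w i) x ∧
      A 4 = aff ((S 0).c i) ((S 0).w i) ((S (m + 1)).c i) ((S (m + 1)).w i) x ∧
      (m < N → ∀ k < 4, StepOK (stm m k) (A k) (A (k + 1))) := by
    intro m
    by_cases hm : m < N
    · obtain ⟨A, h0, h4, hk⟩ := hstm m hm ε' hε' (hε'le m hm) i _ (hB m hm.le)
      refine ⟨A, h0, ?_, fun _ => hk⟩
      rw [h4]
      exact asm_aff_comp _ _ _ _ _ _ (hpos m hm.le i) x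
    · exact ⟨fun k => if k = 0 then aff ((S 0).c i) ((S 0).w i) ((S m).c i) ((S m).w i) x
        else aff ((S 0).c i) ((S 0).w i) ((S (m + 1)).c i) ((S (m + 1)).w i) x, rfl, rfl,
        fun h => absurd h hm⟩
  choose Am hA0 hA4 hAk using hitin
  refine ⟨fun k => Am (k / 4) (k % 4), ?_, ?_, ?_⟩
  · show Am (0 / 4) (0 % 4) = x
    rw [show (0 : ℕ) / 4 = 0 from rfl, show (0 : ℕ) % 4 = 0 from rfl, hA0]
    exact asm_aff_self _ _ (hpos 0 (Nat.zero_le N) i) x
  · show Am (4 * N / 4) (4 * N % 4) = _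
    rw [Nat.mul_div_cancel_left N (by norm_num : 0 < 4), Nat.mul_mod_right, hA0]
  · intro k hk
    show StepOK (stm (k / 4) (k % 4)) (Am (k / 4) (k % 4)) (Am ((k + 1) / 4) ((k + 1) % 4))
    have hm : k / 4 < N := by omega
    have hk4 : k % 4 < 4 := by omega
    have key := hAk (k / 4) hm (k % 4) hk4
    by_cases h3 : k % 4 = 3
    · have e1 : (k + 1) / 4 = k / 4 + 1 := by omega
      have e2 : (k + 1) % 4 = 0 := by omega
      rw [e1, e2, hA0, ← hA4]
      rw [h3] at key ⊢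
      exact key
    · have e1 : (k + 1) / 4 = k / 4 := by omega
      have e2 : (k + 1) % 4 = k % 4 + 1 := by omega
      rw [e1, e2]
      exact key

/-- **End-to-end bridge.** For every step profile `S`, the choreography (`chor_exists` with the
isolation radius `stepRho`), the stage itineraries (`step_main`) and the move package
(`sched_flow`) give a schedule field with all the analytic properties of the statement of S0170
whose time-one flow is the prescribed affine map on an open neighbourhood of every source box.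
(Only `Effective (schedField S M st)` is missing for the statement of S0170.) -/
theorem step_flow {S : ℝ → ℝ} (hS : IsStep S) (n : ℕ) (a b h k : Fin n → Fin 3 → ℚ)
    (hh : ∀ i j, 0 < h i j) (hk : ∀ i j, 0 < k i j)
    (ha : Pairwise fun i i' => Disjoint (box (a i) (h i)) (box (a i') (h i')))
    (hb : Pairwise fun i i' => Disjoint (box (b i) (k i)) (box (b i') (k i')))
    (hvol : ∀ i, ∏ j : Fin 3, k i j / h i j = 1) :
    ∃ (M : ℕ) (st : ℕ → Stage) (Φ : ℝ → (Fin 3 → ℝ) → (Fin 3 → ℝ)),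
      ContDiff ℝ ∞ (schedField S M st) ∧ HasCompactSupport (schedField S M st) ∧
      (∀ p : ℝ × (Fin 3 → ℝ), p.1 ∉ Set.Icc (1 / 4 : ℝ) (3 / 4) → schedField S M st p = 0) ∧
      (∀ p : ℝ × (Fin 3 → ℝ), spaceDiv (schedField S M st) p = 0) ∧
      IsFlow (schedField S M st) Φ ∧
      ∀ i : Fin n, ∃ O : Set (Fin 3 → ℝ), IsOpen O ∧ box (a i) (h i) ⊆ O ∧
        ∀ x ∈ O, Φ 1 x =
          fun j => (b i j : ℝ) + ((k i j / h i j : ℚ) : ℝ) * (x j - (a i j : ℝ)) := by
  obtain ⟨μ, N, Sq, hμ, hS0, hSN, hstep, hpos, -⟩ :=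
    chor_exists n a h b k hh hk ha hb hvol stepRho
  obtain ⟨ε', st, hε', hit⟩ := step_main μ N Sq hμ hpos hstep
  obtain ⟨h1, h2, h3, h4, Φ, hΦ, hflow⟩ := sched_flow hS (4 * N) st
  refine ⟨4 * N, st, Φ, h1, h2, h3, h4, hΦ, fun i => ⟨thick (ε' : ℝ) (a i) (h i),
    asm_isOpen_thick _ _ _, asm_box_subset_thick (by exact_mod_cast hε') _ _ (hh i),
    fun x hx => ?_⟩⟩
  have hx' : x ∈ thick (ε' : ℝ) ((Sq 0).c i) ((Sq 0).w i) := by rw [hS0]; exact hx
  obtain ⟨A, hA0, hA4, hAk⟩ := hit i x hx'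
  rw [hflow x A hA0 hAk, hA4, hS0, hSN]
  rfl

end Crest.Agent.S0170
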