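import Mathlib
import Crest.Prelude.Def_BoxFlow
import Crest.Agent.S0170_Chor
import Crest.Agent.S0170_Move
import Crest.Agent.S0170_Asm

/-!
# Row 126 (S0170) — STEP, rescale half: an `RStep` is realised by four shear stages

`stepR_one`: for an in-place planar rescale step `RStep μ ρ s s'` (with the isolation radius
`ρ w r = 2 * (1 + r + 1 / r) * (w 0 + w 1 + w 2)`), there are four shear stages (`Stage`s of the move
package) and a thickening `ε₀ > 0` such that every point of every thickened box has a legal itinerary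
(`Moved` / `Rest` at each stage) ending at its affine image.

Owner: helper12.  Nothing here uses `sorry`.
-/

set_option autoImplicit false
open Crest.AnalysisR.BoxFlow

namespace Crest.Agent.S0170

/-- A shear stage about the centre `c` with plateau cube of radius `ρ` and margin `μ / 2`. -/
def stepR_stage (c : Fin 3 → ℚ) (ρ μ : ℚ) (hρ : 0 ≤ ρ) (hμ : 0 < μ) (a b : Fin 3) (hab : a ≠ b)
    (sig : ℚ) : Stage where
  α := a
  β := b
  hαβ := hab
  lam := 0
  sig := sig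
  c := c b
  lo := fun j => c j - ρ
  hi := fun j => c j + ρ
  ε := μ / 2
  hε := by positivity
  hlh := fun j => by linarith

theorem stepR_move (c : Fin 3 → ℚ) (ρ μ : ℚ) (hρ : 0 ≤ ρ) (hμ : 0 < μ) (a b : Fin 3) (hab : a ≠ b)
    (sig : ℚ) (z : Fin 3 → ℝ) :
    (stepR_stage c ρ μ hρ hμ a b hab sig).move z
      = Function.update z a (z a + (sig : ℝ) * (z b - (c b : ℝ))) := by
  simp [Stage.move, stepR_stage]

theorem stepR_inPlateau (c : Fin 3 → ℚ) (ρ μ : ℚ) (hρ : 0 ≤ ρ) (hμ : 0 < μ) (a b : Fin 3)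
    (hab : a ≠ b) (sig : ℚ) (z : Fin 3 → ℝ) (hz : ∀ j, |z j - (c j : ℝ)| ≤ (ρ : ℝ)) :
    (stepR_stage c ρ μ hρ hμ a b hab sig).InPlateau z := by
  intro j
  have h := abs_le.mp (hz j)
  simp only [stepR_stage, Rat.cast_sub, Rat.cast_add]
  constructor <;> linarith [h.1, h.2]

theorem stepR_rest (c : Fin 3 → ℚ) (ρ μ : ℚ) (hρ : 0 ≤ ρ) (hμ : 0 < μ) (a b : Fin 3)
    (hab : a ≠ b) (sig : ℚ) (z : Fin 3 → ℝ)
    (hz : ∃ j, (ρ : ℝ) + (μ : ℝ) / 2 ≤ |z j - (c j : ℝ)|) :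
    (stepR_stage c ρ μ hρ hμ a b hab sig).Rest z := by
  obtain ⟨j, hj⟩ := hz
  refine ⟨j, ?_⟩
  simp only [stepR_stage, Rat.cast_sub, Rat.cast_add, Rat.cast_div, Rat.cast_ofNat]
  rcases le_abs.mp hj with h | h
  · right; linarith
  · left; linarith

/-- The real-number inequalities behind the four shears. -/
theorem stepR_bounds {a b W R u v : ℝ} (ha : 0 < a) (hb : 0 < b) (hab : a + b ≤ W) (hR : 0 < R)
    (hu : |u| < 2 * a) (hv : |v| < 2 * b) :
    |u| ≤ 2 * (1 + R + 1 / R) * W ∧ |v| ≤ 2 * (1 + R + 1 / R) * W ∧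
    |u + (1 / R - 1) * v| ≤ 2 * (1 + R + 1 / R) * W ∧ |u + v / R| ≤ 2 * (1 + R + 1 / R) * W ∧
    |R * u| ≤ 2 * (1 + R + 1 / R) * W ∧ |v / R| ≤ 2 * (1 + R + 1 / R) * W := by
  have hW : 0 < W := by linarith
  have hρ : 2 * (1 + R + 1 / R) * W = 2 * W + 2 * (R * W) + 2 * (W / R) := by ring
  have hRW : 0 < R * W := mul_pos hR hW
  have hWR : 0 < W / R := div_pos hW hR
  have hqv : |v / R| < 2 * (b / R) := by
    rw [abs_div, abs_of_pos hR, ← mul_div_assoc]
    exact div_lt_div_of_pos_right hv hR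
  have hRu : |R * u| < 2 * (R * a) := by
    rw [abs_mul, abs_of_pos hR]
    nlinarith
  have hbR : b / R ≤ W / R := div_le_div_of_nonneg_right (by linarith) hR.le
  have haR : R * a ≤ R * W := mul_le_mul_of_nonneg_left (by linarith) hR.le
  have e1 : u + (1 / R - 1) * v = u + v / R - v := by ring
  have t1 : |u + v / R - v| ≤ |u| + |v / R| + |v| := by
    calc |u + v / R - v| ≤ |u + v / R| + |v| := abs_sub _ _
      _ ≤ |u| + |v / R| + |v| := by linarith [abs_add_le u (v / R)]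
  have t2 : |u + v / R| ≤ |u| + |v / R| := abs_add_le _ _
  rw [hρ, e1]
  refine ⟨?_, ?_, ?_, ?_, ?_, ?_⟩ <;> linarith

theorem stepR_pair_le (w : Fin 3 → ℚ) (hw : ∀ j, 0 < w j) {a b : Fin 3} (hab : a ≠ b) :
    w a + w b ≤ w 0 + w 1 + w 2 := by
  have h0 := hw 0
  have h1 := hw 1
  have h2 := hw 2
  fin_cases a <;> fin_cases b <;> simp at hab ⊢ <;> linarith

theorem stepR_single_le (w : Fin 3 → ℚ) (hw : ∀ j, 0 < w j) (a : Fin 3) :
    w a ≤ w 0 + w 1 + w 2 := by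
  have h0 := hw 0
  have h1 := hw 1
  have h2 := hw 2
  fin_cases a <;> simp <;> linarith

theorem stepR_w_le {n : ℕ} (w : Fin n → Fin 3 → ℚ) (hw : ∀ i j, 0 < w i j) (i : Fin n)
    (j : Fin 3) : w i j ≤ ∑ i, ∑ j, w i j := by
  calc w i j ≤ ∑ j, w i j :=
        Finset.single_le_sum (f := fun j => w i j) (fun j _ => (hw i j).le) (Finset.mem_univ j)
    _ ≤ ∑ i, ∑ j, w i j :=
        Finset.single_le_sum (f := fun i => ∑ j, w i j)
          (fun i _ => Finset.sum_nonneg (fun j _ => (hw i j).le)) (Finset.mem_univ i)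

/-- For thickenings below `min 1 (μ / (2 (1 + ∑ w)))` the thick boxes stay within `μ / 2` of the
boxes. -/
theorem stepR_eps {n : ℕ} (μ : ℚ) (hμ : 0 < μ) (w : Fin n → Fin 3 → ℚ) (hw : ∀ i j, 0 < w i j)
    (ε' : ℝ)
    (hle : ε' ≤ ((min 1 (μ / (2 * (1 + ∑ i, ∑ j, w i j))) : ℚ) : ℝ)) (i : Fin n) (j : Fin 3) :
    ε' * (w i j : ℝ) ≤ (μ : ℝ) / 2 := by
  obtain ⟨W, hW⟩ : ∃ W : ℚ, W = ∑ i, ∑ j, w i j := ⟨_, rfl⟩
  rw [← hW] at hle
  have hWnn : 0 ≤ W := by
    rw [hW]; exact Finset.sum_nonneg fun i _ => Finset.sum_nonneg fun j _ => (hw i j).le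
  have hwW : w i j ≤ W := hW ▸ stepR_w_le w hw i j
  obtain ⟨e, he⟩ : ∃ e : ℚ, e = min 1 (μ / (2 * (1 + W))) := ⟨_, rfl⟩
  rw [← he] at hle
  have h1 : e ≤ μ / (2 * (1 + W)) := he ▸ min_le_right _ _
  have he0 : 0 < e := by rw [he]; exact lt_min one_pos (by positivity)
  have h2 : e * (1 + W) ≤ μ / 2 := by
    calc e * (1 + W) ≤ μ / (2 * (1 + W)) * (1 + W) :=
          mul_le_mul_of_nonneg_right h1 (by positivity)
      _ = μ / 2 := by field_simp
  have h3 : (e : ℝ) * (1 + (W : ℝ)) ≤ (μ : ℝ) / 2 := by exact_mod_cast h2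
  have h4 : (w i j : ℝ) ≤ (W : ℝ) := by exact_mod_cast hwW
  have h5 : (0 : ℝ) < (w i j : ℝ) := by exact_mod_cast hw i j
  have h6 : (0 : ℝ) < (e : ℝ) := by exact_mod_cast he0
  calc ε' * (w i j : ℝ) ≤ (e : ℝ) * (w i j : ℝ) := mul_le_mul_of_nonneg_right hle h5.le
    _ ≤ (e : ℝ) * (1 + (W : ℝ)) := mul_le_mul_of_nonneg_left (by linarith) h6.le
    _ ≤ (μ : ℝ) / 2 := h3

/-- **Rescale half of the step glue.**  An `RStep` (in-place planar rescale `diag(r, 1/r)` of one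
box, isolation radius `2 (1 + r + 1/r) (w 0 + w 1 + w 2)`) is realised by four shear stages: every
point of every sufficiently thin thickened box has a legal itinerary ending at its affine image. -/
theorem stepR_one {n : ℕ} (μ : ℚ) (s s' : Conf n) (hμ : 0 < μ) (hw : ∀ i j, 0 < s.w i j)
    (hstep : RStep μ (fun w r => 2 * (1 + r + 1 / r) * (w 0 + w 1 + w 2)) s s') :
    ∃ (ε₀ : ℚ) (st : ℕ → Stage), 0 < ε₀ ∧ ∀ ε' : ℝ, 0 < ε' → ε' ≤ (ε₀ : ℝ) →
      ∀ i, ∀ y ∈ thick ε' (s.c i) (s.w i), ∃ A : ℕ → Fin 3 → ℝ, A 0 = y ∧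
        A 4 = aff (s.c i) (s.w i) (s'.c i) (s'.w i) y ∧
        ∀ k < 4, (A (k + 1) = (st k).move (A k) ∧ (st k).Moved (A k)) ∨
          (A (k + 1) = A k ∧ (st k).Rest (A k)) := by
  classical
  obtain ⟨i₀, α, β, r, hαβ, hr, hc, hw', hsep⟩ := hstep
  obtain ⟨Wt, hWt⟩ : ∃ Wt : ℚ, Wt = s.w i₀ 0 + s.w i₀ 1 + s.w i₀ 2 := ⟨_, rfl⟩
  obtain ⟨ρ, hρdef⟩ : ∃ ρ : ℚ, ρ = 2 * (1 + r + 1 / r) * Wt := ⟨_, rfl⟩
  have hWtpos : 0 < Wt := by
    have h0 := hw i₀ 0
    have h1 := hw i₀ 1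
    have h2 := hw i₀ 2
    rw [hWt]; linarith
  have hρ : 0 ≤ ρ := by rw [hρdef]; positivity
  have hε₀pos : (0 : ℚ) < min 1 (μ / (2 * (1 + ∑ i, ∑ j, s.w i j))) := by
    have hWnn : (0 : ℚ) ≤ ∑ i, ∑ j, s.w i j :=
      Finset.sum_nonneg fun i _ => Finset.sum_nonneg fun j _ => (hw i j).le
    exact lt_min one_pos (by positivity)
  -- the stages
  obtain ⟨d0, hd0⟩ : ∃ d, d = stepR_stage (s.c i₀) ρ μ hρ hμ α β hαβ (1 / r - 1) := ⟨_, rfl⟩
  obtain ⟨d1, hd1⟩ : ∃ d, d = stepR_stage (s.c i₀) ρ μ hρ hμ β α hαβ.symm 1 := ⟨_, rfl⟩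
  obtain ⟨d2, hd2⟩ : ∃ d, d = stepR_stage (s.c i₀) ρ μ hρ hμ α β hαβ (r - 1) := ⟨_, rfl⟩
  obtain ⟨d3, hd3⟩ : ∃ d, d = stepR_stage (s.c i₀) ρ μ hρ hμ β α hαβ.symm (-1 / r) := ⟨_, rfl⟩
  refine ⟨min 1 (μ / (2 * (1 + ∑ i, ∑ j, s.w i j))),
    fun k => if k = 0 then d0 else if k = 1 then d1 else if k = 2 then d2 else d3, hε₀pos, ?_⟩
  intro ε' hε' hε'le i y hy
  have hε'1 : ε' ≤ 1 := le_trans hε'le (by exact_mod_cast min_le_left _ _)
  have hR : (0 : ℝ) < (r : ℝ) := by exact_mod_cast hr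
  have hWtR : (0 : ℝ) < (Wt : ℝ) := by exact_mod_cast hWtpos
  have hρR : (ρ : ℝ) = 2 * (1 + (r : ℝ) + 1 / (r : ℝ)) * (Wt : ℝ) := by
    rw [hρdef]; push_cast; ring
  by_cases hi : i = i₀
  · -- the rescaled box
    rw [hi] at hy ⊢
    have hyα := hy α
    have hyβ := hy β
    obtain ⟨u, hu⟩ : ∃ u : ℝ, u = y α - (s.c i₀ α : ℝ) := ⟨_, rfl⟩
    obtain ⟨v, hv⟩ : ∃ v : ℝ, v = y β - (s.c i₀ β : ℝ) := ⟨_, rfl⟩
    have hwα : (0 : ℝ) < (s.w i₀ α : ℝ) := by exact_mod_cast hw i₀ α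
    have hwβ : (0 : ℝ) < (s.w i₀ β : ℝ) := by exact_mod_cast hw i₀ β
    have hu2 : |u| < 2 * (s.w i₀ α : ℝ) := by rw [hu]; nlinarith
    have hv2 : |v| < 2 * (s.w i₀ β : ℝ) := by rw [hv]; nlinarith
    have hpair : (s.w i₀ α : ℝ) + (s.w i₀ β : ℝ) ≤ (Wt : ℝ) := by
      rw [hWt]; exact_mod_cast stepR_pair_le (s.w i₀) (hw i₀) hαβ
    obtain ⟨b1, b2, b3, b4, b5, b6⟩ := stepR_bounds hwα hwβ hpair hR hu2 hv2
    rw [← hρR] at b1 b2 b3 b4 b5 b6
    -- the point itself lies in the cube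
    have B0 : ∀ j, |y j - (s.c i₀ j : ℝ)| ≤ (ρ : ℝ) := by
      intro j
      have h1 := hy j
      have h2 : (0 : ℝ) < (s.w i₀ j : ℝ) := by exact_mod_cast hw i₀ j
      have h3 : (s.w i₀ j : ℝ) ≤ (Wt : ℝ) := by
        rw [hWt]; exact_mod_cast stepR_single_le (s.w i₀) (hw i₀) j
      have h4 : (ρ : ℝ) = 2 * (Wt : ℝ) + 2 * ((r : ℝ) * (Wt : ℝ)) + 2 * ((Wt : ℝ) / (r : ℝ)) := by
        rw [hρR]; ring
      have h5 : (0 : ℝ) < (r : ℝ) * (Wt : ℝ) := mul_pos hR hWtR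
      have h6 : (0 : ℝ) < (Wt : ℝ) / (r : ℝ) := div_pos hWtR hR
      nlinarith
    -- the itinerary
    obtain ⟨P1, hP1⟩ : ∃ P, P = d0.move y := ⟨_, rfl⟩
    obtain ⟨P2, hP2⟩ : ∃ P, P = d1.move P1 := ⟨_, rfl⟩
    obtain ⟨P3, hP3⟩ : ∃ P, P = d2.move P2 := ⟨_, rfl⟩
    obtain ⟨P4, hP4⟩ : ∃ P, P = d3.move P3 := ⟨_, rfl⟩
    have hyα' : y α = (s.c i₀ α : ℝ) + u := by rw [hu]; ring
    have hyβ' : y β = (s.c i₀ β : ℝ) + v := by rw [hv]; ring
    have hrne : (r : ℝ) ≠ 0 := hR.ne'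
    have P1α : P1 α = (s.c i₀ α : ℝ) + (u + (1 / (r : ℝ) - 1) * v) := by
      rw [hP1, hd0, stepR_move, Function.update_self, hyα', hyβ']
      push_cast; ring
    have P1ne : ∀ j, j ≠ α → P1 j = y j := by
      intro j hj
      rw [hP1, hd0, stepR_move, Function.update_of_ne hj]
    have P2β : P2 β = (s.c i₀ β : ℝ) + (u + v / (r : ℝ)) := by
      rw [hP2, hd1, stepR_move, Function.update_self, P1ne β hαβ.symm, P1α, hyβ']
      push_cast; ring
    have P2ne : ∀ j, j ≠ β → P2 j = P1 j := by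
      intro j hj
      rw [hP2, hd1, stepR_move, Function.update_of_ne hj]
    have P3α : P3 α = (s.c i₀ α : ℝ) + (r : ℝ) * u := by
      rw [hP3, hd2, stepR_move, Function.update_self, P2β, P2ne α hαβ, P1α]
      push_cast; field_simp; ring
    have P3ne : ∀ j, j ≠ α → P3 j = P2 j := by
      intro j hj
      rw [hP3, hd2, stepR_move, Function.update_of_ne hj]
    have P4β : P4 β = (s.c i₀ β : ℝ) + v / (r : ℝ) := by
      rw [hP4, hd3, stepR_move, Function.update_self, P3ne β hαβ.symm, P2β, P3α]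
      push_cast; field_simp; ring
    have P4ne : ∀ j, j ≠ β → P4 j = P3 j := by
      intro j hj
      rw [hP4, hd3, stepR_move, Function.update_of_ne hj]
    have B1 : ∀ j, |P1 j - (s.c i₀ j : ℝ)| ≤ (ρ : ℝ) := by
      intro j
      by_cases hj : j = α
      · rw [hj, P1α, add_sub_cancel_left]; exact b3
      · rw [P1ne j hj]; exact B0 j
    have B2 : ∀ j, |P2 j - (s.c i₀ j : ℝ)| ≤ (ρ : ℝ) := by
      intro j
      by_cases hj : j = β
      · rw [hj, P2β, add_sub_cancel_left]; exact b4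
      · rw [P2ne j hj]; exact B1 j
    have B3 : ∀ j, |P3 j - (s.c i₀ j : ℝ)| ≤ (ρ : ℝ) := by
      intro j
      by_cases hj : j = α
      · rw [hj, P3α, add_sub_cancel_left]; exact b5
      · rw [P3ne j hj]; exact B2 j
    have B4 : ∀ j, |P4 j - (s.c i₀ j : ℝ)| ≤ (ρ : ℝ) := by
      intro j
      by_cases hj : j = β
      · rw [hj, P4β, add_sub_cancel_left]; exact b6
      · rw [P4ne j hj]; exact B3 j
    have M0 : d0.Moved y := by
      refine ⟨?_, ?_⟩
      · rw [hd0]; exact stepR_inPlateau _ _ _ _ _ _ _ _ _ _ B0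
      · rw [← hP1, hd0]; exact stepR_inPlateau _ _ _ _ _ _ _ _ _ _ B1
    have M1 : d1.Moved P1 := by
      refine ⟨?_, ?_⟩
      · rw [hd1]; exact stepR_inPlateau _ _ _ _ _ _ _ _ _ _ B1
      · rw [← hP2, hd1]; exact stepR_inPlateau _ _ _ _ _ _ _ _ _ _ B2
    have M2 : d2.Moved P2 := by
      refine ⟨?_, ?_⟩
      · rw [hd2]; exact stepR_inPlateau _ _ _ _ _ _ _ _ _ _ B2
      · rw [← hP3, hd2]; exact stepR_inPlateau _ _ _ _ _ _ _ _ _ _ B3
    have M3 : d3.Moved P3 := by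
      refine ⟨?_, ?_⟩
      · rw [hd3]; exact stepR_inPlateau _ _ _ _ _ _ _ _ _ _ B3
      · rw [← hP4, hd3]; exact stepR_inPlateau _ _ _ _ _ _ _ _ _ _ B4
    refine ⟨fun k => if k = 0 then y else if k = 1 then P1 else if k = 2 then P2
      else if k = 3 then P3 else P4, by simp, ?_, ?_⟩
    · -- the end point is the affine image
      have hA4 : (fun k => if k = 0 then y else if k = 1 then P1 else if k = 2 then P2
          else if k = 3 then P3 else P4) 4 = P4 := by simp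
      rw [hA4]
      funext j
      have hwj : (s.w i₀ j : ℝ) ≠ 0 := by exact_mod_cast (hw i₀ j).ne'
      simp only [aff, hc, hw', Function.update_self]
      by_cases hjβ : j = β
      · rw [hjβ, P4β, Function.update_self, hyβ']
        rw [hjβ] at hwj
        push_cast
        field_simp
        ring
      · by_cases hjα : j = α
        · rw [hjα, P4ne α hαβ, P3α, Function.update_of_ne hαβ, Function.update_self, hyα']
          rw [hjα] at hwj
          push_cast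
          field_simp
          ring
        · rw [P4ne j hjβ, P3ne j hjα, P2ne j hjβ, P1ne j hjα, Function.update_of_ne hjβ,
            Function.update_of_ne hjα]
          push_cast
          field_simp
          ring
    · intro k hk
      left
      interval_cases k
      · exact ⟨by simpa using hP1, by simpa using M0⟩
      · exact ⟨by simpa using hP2, by simpa using M1⟩
      · exact ⟨by simpa using hP3, by simpa using M2⟩
      · exact ⟨by simpa using hP4, by simpa using M3⟩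
  · -- the other boxes rest
    refine ⟨fun _ => y, rfl, ?_, ?_⟩
    · have h1 : s'.c i = s.c i := by rw [hc]
      have h2 : s'.w i = s.w i := by rw [hw', Function.update_of_ne hi]
      rw [h1, h2, asm_aff_self _ _ (hw i)]
    · intro k hk
      right
      refine ⟨rfl, ?_⟩
      have hrest : ∃ j, (ρ : ℝ) + (μ : ℝ) / 2 ≤ |y j - (s.c i₀ j : ℝ)| := by
        obtain ⟨j, hj⟩ := (hsep i hi).real
        refine ⟨j, ?_⟩
        have hj' : (ρ : ℝ) + (s.w i j : ℝ) + (μ : ℝ)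
            ≤ |(s.c i₀ j : ℝ) - (s.c i j : ℝ)| := by
          rw [hρdef, hWt]; exact hj
        have hyj := hy j
        have he := stepR_eps μ hμ s.w hw ε' hε'le i j
        have htri : |(s.c i₀ j : ℝ) - (s.c i j : ℝ)|
            ≤ |y j - (s.c i₀ j : ℝ)| + |y j - (s.c i j : ℝ)| := by
          have := abs_sub_le (s.c i₀ j : ℝ) (y j) (s.c i j : ℝ)
          rw [abs_sub_comm (s.c i₀ j : ℝ) (y j)] at this
          exact this
        nlinarith
      have h0 := stepR_rest (s.c i₀) ρ μ hρ hμ α β hαβ (1 / r - 1) y hrest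
      have h1 := stepR_rest (s.c i₀) ρ μ hρ hμ β α hαβ.symm 1 y hrest
      have h2 := stepR_rest (s.c i₀) ρ μ hρ hμ α β hαβ (r - 1) y hrest
      have h3 := stepR_rest (s.c i₀) ρ μ hρ hμ β α hαβ.symm (-1 / r) y hrest
      rw [← hd0] at h0
      rw [← hd1] at h1
      rw [← hd2] at h2
      rw [← hd3] at h3
      interval_cases k
      · simpa using h0
      · simpa using h1
      · simpa using h2
      · simpa using h3

end Crest.Agent.S0170
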